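import Vale.Agent.P095.W.Defs
import Vale.Agent.P095.SN.SolveBasic
import Vale.Agent.P095.SC.Amplify

/-!
P095, Theorem W, block W5: elements of the algebra inside its unitization, absorbing elements, and a
bound for quadratic forms (notes/P095/helper5_W.md).
-/

namespace Vale.Agent.P095.W

open Filter Vale.Agent.P095.SI Vale.Agent.P095.SN
open scoped ComplexOrder

variable {A : Type} [NonUnitalCStarAlgebra A]

/-- An element of the unitization which lies in the algebra. -/
def InA (x : Unitization ℂ A) : Prop := x.fst = 0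

lemma inA_inr (a : A) : InA (a : Unitization ℂ A) := Unitization.fst_inr ℂ a

lemma InA.exists_inr {x : Unitization ℂ A} (h : InA x) : ∃ a : A, (a : Unitization ℂ A) = x :=
  ⟨x.snd, Unitization.ext (by rw [Unitization.fst_inr]; exact h.symm) (Unitization.snd_inr ℂ _)⟩

lemma InA.add {x y : Unitization ℂ A} (hx : InA x) (hy : InA y) : InA (x + y) := by
  simp only [InA, Unitization.fst_add] at *; simp [hx, hy]

lemma InA.star {x : Unitization ℂ A} (hx : InA x) : InA (star x) := by
  simp only [InA, Unitization.fst_star] at *; simp [hx]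

lemma InA.mul_left {x : Unitization ℂ A} (hx : InA x) (y : Unitization ℂ A) : InA (y * x) := by
  simp only [InA, Unitization.fst_mul] at *; simp [hx]

lemma InA.mul_right {x : Unitization ℂ A} (hx : InA x) (y : Unitization ℂ A) : InA (x * y) := by
  simp only [InA, Unitization.fst_mul] at *; simp [hx]

lemma InA.smul {x : Unitization ℂ A} (hx : InA x) (c : ℂ) : InA (c • x) := by
  simp only [InA, Unitization.fst_smul] at *; simp [hx]

lemma InA.zero : InA (0 : Unitization ℂ A) := Unitization.fst_zero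

lemma InA.sum {ι : Type*} (s : Finset ι) (f : ι → Unitization ℂ A) (h : ∀ i ∈ s, InA (f i)) :
    InA (∑ i ∈ s, f i) := by
  classical
  induction s using Finset.induction_on with
  | empty => simpa using InA.zero
  | insert a s ha ih =>
    rw [Finset.sum_insert ha]
    exact (h a (Finset.mem_insert_self a s)).add (ih fun i hi => h i (Finset.mem_insert_of_mem hi))

/-- An almost unit for finitely many elements. -/
lemma exists_unit (S : Finset A) {η : ℝ} (hη : 0 < η) :
    ∃ u : A, star u = u ∧ ‖u‖ ≤ 1 ∧ ∀ x ∈ S, ‖u * x - x‖ ≤ η ∧ ‖x * u - x‖ ≤ η := by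
  let := CStarAlgebra.spectralOrder A
  have := CStarAlgebra.spectralOrderedRing A
  have hl := CStarAlgebra.increasingApproximateUnit A
  have h1 : ∀ᶠ u in CStarAlgebra.approximateUnit A, ∀ x ∈ S,
      ‖u * x - x‖ ≤ η ∧ ‖x * u - x‖ ≤ η := by
    rw [Finset.eventually_all]
    intro x _
    filter_upwards [Metric.tendsto_nhds.1 (hl.tendsto_mul_right x) η hη,
      Metric.tendsto_nhds.1 (hl.tendsto_mul_left x) η hη] with u hu hu'
    rw [dist_eq_norm] at hu hu'
    constructor <;> linarith
  obtain ⟨u, hu, hu1, hus⟩ := (h1.and (hl.eventually_norm.and hl.eventually_star_eq)).exists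
  exact ⟨u, hus, hu1, hu⟩

section Order

variable {F : Type*} [CStarAlgebra F] [PartialOrder F] [StarOrderedRing F]

lemma star_sum_mul_sum_le {n : ℕ} (x : Fin n → F) :
    star (∑ l, x l) * (∑ l, x l) ≤ (n : ℝ) • ∑ l, star (x l) * x l := by
  rcases n.eq_zero_or_pos with rfl | hn
  · simp
  set z := ∑ l, x l with hz
  have hn' : (n : ℝ) ≠ 0 := by exact_mod_cast hn.ne'
  have h0 : 0 ≤ ∑ l, star (x l - (n : ℝ)⁻¹ • z) * (x l - (n : ℝ)⁻¹ • z) :=
    Finset.sum_nonneg fun l _ => star_mul_self_nonneg _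
  have e : ∑ l, star (x l - (n : ℝ)⁻¹ • z) * (x l - (n : ℝ)⁻¹ • z)
      = (∑ l, star (x l) * x l) - (n : ℝ)⁻¹ • (star z * z) := by
    simp only [star_sub, star_smul, star_trivial, sub_mul, mul_sub, smul_mul_assoc, mul_smul_comm,
      smul_smul, Finset.sum_sub_distrib, ← Finset.smul_sum, ← Finset.mul_sum, ← Finset.sum_mul,
      ← star_sum, ← hz, Finset.sum_const, Finset.card_univ, Fintype.card_fin,
      ← Nat.cast_smul_eq_nsmul ℝ]
    rw [inv_mul_cancel₀ hn', one_smul, sub_self, smul_zero, sub_zero]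
  rw [e, sub_nonneg] at h0
  have h1 := smul_le_smul_of_nonneg_left h0 (Nat.cast_nonneg (α := ℝ) n)
  rwa [smul_smul, mul_inv_cancel₀ hn', one_smul] at h1

lemma self_le_norm_smul_one {d : F} (hd : IsSelfAdjoint d) {r : ℝ} (hr : ‖d‖ ≤ r) :
    d ≤ r • (1 : F) := by
  rw [← Algebra.algebraMap_eq_smul_one]
  exact hd.le_algebraMap_norm_self.trans (algebraMap_mono F hr)

end Order

/-- A positive element built below a given nonzero one almost dominates a given square. -/
lemma exists_dominant [PartialOrder (Unitization ℂ A)] [StarOrderedRing (Unitization ℂ A)]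
    (hS : IsTopSimple A) {g e₀ : Unitization ℂ A} (hg : InA g) (hg0 : g ≠ 0)
    (he : InA e₀) (hes : star e₀ = e₀) {κ' : ℝ} (hκ'0 : 0 < κ') :
    ∃ (n : ℕ) (t : Fin n → Unitization ℂ A),
      e₀ * e₀ ≤ (∑ l, star (g * t l) * (g * t l)) + κ' • 1 := by
  obtain ⟨a, rfl⟩ := hg.exists_inr
  obtain ⟨e, rfl⟩ := he.exists_inr
  have ha : a ≠ 0 := fun h => hg0 (by simp [h])
  obtain ⟨κ, hκ, hκle⟩ : ∃ κ : ℝ, 0 < κ ∧ κ * (2 * ‖(e : Unitization ℂ A)‖ + 1) ≤ κ' ∧ κ ≤ 1 :=
    ⟨min 1 (κ' / (2 * ‖(e : Unitization ℂ A)‖ + 1)), lt_min one_pos (by positivity),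
      (le_div_iff₀ (by positivity)).1 (min_le_right _ _), min_le_left _ _⟩
  obtain ⟨n, r, t, hrt⟩ := hS.2 a ha e κ hκ
  set z : Unitization ℂ A := ∑ l, (r l : Unitization ℂ A) * ((a : Unitization ℂ A) * t l) with hz
  have hD : ‖(e : Unitization ℂ A) - z‖ ≤ κ := by
    have e1 : (e : Unitization ℂ A) - z = ((e - ∑ l, r l * a * t l : A) : Unitization ℂ A) := by
      rw [Unitization.inr_sub, show ((∑ l, r l * a * t l : A) : Unitization ℂ A)
        = Unitization.inrNonUnitalStarAlgHom ℂ A (∑ l, r l * a * t l) from rfl, map_sum, hz]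
      simp [mul_assoc]
    rw [e1, Unitization.norm_inr]
    exact hrt
  set t' : Fin n → Unitization ℂ A :=
    fun l => (Real.sqrt n * ‖(r l : Unitization ℂ A)‖) • (t l : Unitization ℂ A) with ht'
  set X := ∑ l, star ((a : Unitization ℂ A) * t' l) * ((a : Unitization ℂ A) * t' l) with hX
  have hXn : 0 ≤ X := Finset.sum_nonneg fun l _ => star_mul_self_nonneg _
  have hzX : star z * z ≤ X := by
    refine (star_sum_mul_sum_le _).trans ?_
    rw [hX, Finset.smul_sum]
    refine Finset.sum_le_sum fun l _ => ?_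
    set y := (a : Unitization ℂ A) * t l with hy
    have e2 : star ((a : Unitization ℂ A) * t' l) * ((a : Unitization ℂ A) * t' l)
        = ((n : ℝ) * ‖(r l : Unitization ℂ A)‖ ^ 2) • (star y * y) := by
      rw [ht', mul_smul_comm, star_smul, star_trivial, smul_mul_smul_comm, hy]
      congr 1
      rw [mul_mul_mul_comm, Real.mul_self_sqrt (Nat.cast_nonneg n), sq]
    rw [e2, ← smul_smul]
    refine smul_le_smul_of_nonneg_left ?_ (Nat.cast_nonneg n)
    rw [sq, ← CStarRing.norm_star_mul_self]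
    have h := CStarAlgebra.star_left_conjugate_le_norm_smul (a := y)
      (IsSelfAdjoint.star_mul_self (r l : Unitization ℂ A))
    refine le_trans (le_of_eq ?_) h
    rw [star_mul]; simp only [mul_assoc]
  have hees : star (e : Unitization ℂ A) = e := hes
  have heX : (e : Unitization ℂ A) * e ≤ X + κ' • 1 := by
    have h1 : ‖(e : Unitization ℂ A) * e - star z * z‖ ≤ κ' := by
      rw [show (e : Unitization ℂ A) * e - star z * z
        = star ((e : Unitization ℂ A) - z) * e + star z * ((e : Unitization ℂ A) - z) by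
          rw [star_sub, hees, sub_mul, mul_sub]; abel]
      have hzn : ‖star z‖ ≤ ‖(e : Unitization ℂ A)‖ + κ := by
        rw [norm_star]
        linarith [norm_le_norm_add_norm_sub (e : Unitization ℂ A) z]
      refine (norm_add_le _ _).trans ((add_le_add (norm_mul_le _ _) (norm_mul_le _ _)).trans ?_)
      rw [norm_star]
      have k1 := mul_le_mul_of_nonneg_right hD (norm_nonneg (e : Unitization ℂ A))
      have k2 := mul_le_mul hzn hD (norm_nonneg _) (by positivity)
      have k3 := mul_le_mul_of_nonneg_left hκle.2 hκ.le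
      linarith [hκle.1]
    have h2 := self_le_norm_smul_one (((IsSelfAdjoint.star_mul_self (e : Unitization ℂ A))).sub
      (IsSelfAdjoint.star_mul_self z)) (by rwa [hees] : ‖_‖ ≤ κ')
    rw [hees, sub_le_iff_le_add] at h2
    exact h2.trans ((add_le_add le_rfl hzX).trans (le_of_eq (add_comm _ _)))
  exact ⟨n, t', heX⟩

/-- A positive element built below a given nonzero one absorbs a given element. -/
lemma exists_absorber (hS : IsTopSimple A) {g e₀ : Unitization ℂ A} (hg : InA g) (hg0 : g ≠ 0)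
    (he : InA e₀) (hes : star e₀ = e₀) {η : ℝ} (hη : 0 < η) :
    ∃ (K : ℕ) (r : Fin K → Unitization ℂ A) (e' b : Unitization ℂ A), 0 < K ∧
      (∑ l, star (g * r l) * (g * r l)) = e' ∧ star e' = e' ∧ ‖e'‖ ≤ 1 ∧ InA e' ∧
      star b = b ∧ ‖b‖ ≤ 1 ∧ InA b ∧ e' * b = b ∧ ‖b * e₀ - e₀‖ ≤ η := by
  let := CStarAlgebra.spectralOrder (Unitization ℂ A)
  have := CStarAlgebra.spectralOrderedRing (Unitization ℂ A)
  set κ' : ℝ := η ^ 2 / 4 with hκ'
  obtain ⟨n, t', heX⟩ := exists_dominant hS hg hg0 he hes (κ' := κ') (by positivity)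
  set X := ∑ l, star (g * t' l) * (g * t' l) with hX
  have hXn : 0 ≤ X := Finset.sum_nonneg fun l _ => star_mul_self_nonneg _
  set σ : ℝ := η ^ 2 / 4 with hσ
  have hσ0 : 0 < σ := by positivity
  have hXs : IsSelfAdjoint X := .of_nonneg hXn
  have hXA : InA X := InA.sum _ _ fun l _ => (hg.mul_right _).mul_left _
  set j : ℝ → ℝ := fun s => min 1 (max 0 ((s - σ) / σ)) with hj
  have hjc : Continuous j := by rw [hj]; fun_prop
  have hrc := continuous_recip hσ0
  set ρ := cfc (fun s => Real.sqrt (recip σ s)) X with hρ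
  set e' := X * cfc (recip σ) X with he'
  set b := cfc j X with hb
  have hrecip : ∀ s : ℝ, 0 ≤ recip σ s := fun s => by unfold recip; positivity
  have he'f : e' = cfc (fun s => s * recip σ s) X := by
    rw [he', cfc_mul (fun s => s) (recip σ) X, cfc_id' ℝ X]
  have heb : e' * b = b := by
    rw [he', hb, self_mul_cfc_mul hrc hjc hXs]
    exact cfc_congr fun s _ => mul_recip_mul (φ := j) (s := s) hσ0 fun h => by
      have : (s - σ) / σ ≤ 0 := div_nonpos_of_nonpos_of_nonneg (by linarith) hσ0.le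
      simp [hj, max_eq_left this]
  refine ⟨n + 1, Fin.cons 0 fun l => t' l * ρ, e', b, n.succ_pos, ?_, ?_, ?_, hXA.mul_right _,
    IsSelfAdjoint.cfc.star_eq, norm_cfc_le zero_le_one fun s _ => ?_,
    heb ▸ ((hXA.mul_right _).mul_right _), heb, ?_⟩
  · rw [Fin.sum_univ_succ]
    simp only [Fin.cons_zero, Fin.cons_succ, mul_zero, star_zero, zero_add]
    have e3 : ∀ l, star (g * (t' l * ρ)) * (g * (t' l * ρ))
        = ρ * (star (g * t' l) * (g * t' l)) * ρ := fun l => by
      have hρs : star ρ = ρ := IsSelfAdjoint.cfc.star_eq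
      simp only [star_mul, hρs, mul_assoc]
    simp only [e3, ← Finset.sum_mul, ← Finset.mul_sum, ← hX]
    rw [he'f, hρ]
    have hsc : Continuous fun s => Real.sqrt (recip σ s) := Real.continuous_sqrt.comp hrc
    have e7 : X * cfc (fun s => Real.sqrt (recip σ s)) X
        = cfc (fun s => s * Real.sqrt (recip σ s)) X := by
      rw [cfc_mul (fun s => s) (fun s => Real.sqrt (recip σ s)) X, cfc_id' ℝ X]
    rw [mul_assoc, e7, ← cfc_mul (fun s => Real.sqrt (recip σ s))
      (fun s => s * Real.sqrt (recip σ s)) X]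
    refine cfc_congr fun s _ => ?_
    rw [mul_left_comm, Real.mul_self_sqrt (hrecip s)]
  · rw [he'f]; exact IsSelfAdjoint.cfc.star_eq
  · rw [he'f]
    refine norm_cfc_le zero_le_one fun s hs => ?_
    have h0 := spectrum_nonneg_of_nonneg hXn hs
    rw [Real.norm_eq_abs, abs_of_nonneg (mul_nonneg h0 (hrecip s)), recip, mul_one_div,
      div_le_one (lt_max_of_lt_right hσ0)]
    exact le_max_left _ _
  · rw [Real.norm_eq_abs, hj, abs_of_nonneg (le_min zero_le_one (le_max_left _ _))]
    exact min_le_left _ _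
  · have hbs : star b = b := IsSelfAdjoint.cfc.star_eq
    have e4 : cfc (fun s => 1 - j s) X = 1 - b := by
      rw [cfc_sub (fun _ : ℝ => (1 : ℝ)) j X, cfc_const_one ℝ X]
    have h1 : ‖(1 - b) * e₀‖ * ‖(1 - b) * e₀‖ ≤ η ^ 2 := by
      rw [← CStarRing.norm_self_mul_star, star_mul, hes]
      have e5 : (1 - b) * e₀ * (e₀ * star (1 - b))
          = star (1 - b) * (e₀ * e₀) * (1 - b) := by
        rw [star_sub, star_one, hbs]; simp only [mul_assoc]
      rw [e5]
      have h0 : 0 ≤ star (1 - b) * (e₀ * e₀) * (1 - b) := by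
        refine star_left_conjugate_nonneg ?_ _
        nth_rewrite 1 [← hes]
        exact star_mul_self_nonneg _
      refine (CStarAlgebra.norm_le_norm_of_nonneg_of_le h0
        (star_left_conjugate_le_conjugate heX _)).trans ?_
      have e6 : star (1 - b) * (X + κ' • 1) * (1 - b)
          = cfc (fun s => (1 - j s) * (s + κ') * (1 - j s)) X := by
        have hc1 : Continuous fun s => 1 - j s := by fun_prop
        have hc2 : Continuous fun s : ℝ => s + κ' := by fun_prop
        have hc3 : Continuous fun s : ℝ => (1 - j s) * (s + κ') := hc1.mul hc2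
        have e7 : cfc (fun s : ℝ => s + κ') X = X + κ' • 1 := by
          rw [cfc_add_const κ' (fun s : ℝ => s) X, cfc_id' ℝ X, Algebra.algebraMap_eq_smul_one]
        have e8 : cfc (fun s => (1 - j s) * (s + κ')) X = (1 - b) * (X + κ' • 1) := by
          rw [cfc_mul (fun s => 1 - j s) (fun s => s + κ') X hc1.continuousOn hc2.continuousOn,
            e4, e7]
        rw [star_sub, star_one, hbs, cfc_mul (fun s => (1 - j s) * (s + κ')) (fun s => 1 - j s) X
          hc3.continuousOn hc1.continuousOn, e8, e4]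
      rw [e6]
      refine norm_cfc_le (by positivity) fun s hs => ?_
      have hs0 := spectrum_nonneg_of_nonneg hXn hs
      have hj1 : 0 ≤ 1 - j s := sub_nonneg.2 (min_le_left _ _)
      have hj0 : 0 ≤ j s := le_min zero_le_one (le_max_left _ _)
      rw [Real.norm_eq_abs, abs_of_nonneg (by positivity)]
      rcases le_or_gt (2 * σ) s with h | h
      · have : j s = 1 := by
          simp only [hj]
          rw [max_eq_right (div_nonneg (by linarith) hσ0.le), min_eq_left]
          rw [le_div_iff₀ hσ0]; linarith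
        rw [this]; simp [sq_nonneg]
      · calc (1 - j s) * (s + κ') * (1 - j s) ≤ 1 * (s + κ') * 1 := by gcongr <;> linarith
          _ ≤ η ^ 2 := by rw [hκ']; linarith [hσ ▸ h]
    rw [norm_sub_rev, show e₀ - b * e₀ = (1 - b) * e₀ by rw [sub_mul, one_mul]]
    nlinarith [norm_nonneg ((1 - b) * e₀)]

lemma exists_root_of_nonneg {F : Type*} [CStarAlgebra F] [PartialOrder F] [StarOrderedRing F]
    {T : F} (h : 0 ≤ T) : ∃ R : F, T = star R * R :=
  CStarAlgebra.nonneg_iff_eq_star_mul_self.1 h

/-- The two shifts of a self-adjoint element by a bound for its norm are squares. -/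
lemma exists_roots_shift {F : Type*} [CStarAlgebra F] {E : F} (hE : IsSelfAdjoint E) {r : ℝ}
    (hr : ‖E‖ ≤ r) : ∃ R R' : F, (r : ℂ) • 1 - E = star R * R ∧ (r : ℂ) • 1 + E = star R' * R' := by
  let := CStarAlgebra.spectralOrder F
  have := CStarAlgebra.spectralOrderedRing F
  obtain ⟨R, hR⟩ := exists_root_of_nonneg (sub_nonneg.2 (self_le_norm_smul_one hE hr))
  obtain ⟨R', hR'⟩ := exists_root_of_nonneg
    (sub_nonneg.2 (self_le_norm_smul_one hE.neg (by rwa [norm_neg] : ‖-E‖ ≤ r)))
  refine ⟨R, R', ?_, ?_⟩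
  · rw [Complex.coe_smul]; exact hR
  · rw [Complex.coe_smul, ← sub_neg_eq_add]; exact hR'

/-- A quadratic form with coefficients in an algebra is bounded by the norm of its array. -/
lemma norm_form_le {B Q : Type*} [CStarAlgebra B] [PartialOrder B] [StarOrderedRing B]
    [CStarAlgebra Q] (ι : B →⋆ₐ[ℂ] Q) {n : ℕ}
    {E : CStarMatrix (Fin n) (Fin n) B} (hE : IsSelfAdjoint E) {r : ℝ} (hr : ‖E‖ ≤ r)
    (x : Fin n → Q) :
    ‖∑ p, ∑ q, star (x p) * ι (E p q) * x q‖ ≤ r * ‖∑ p, star (x p) * x p‖ := by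
  let := CStarAlgebra.spectralOrder Q
  have := CStarAlgebra.spectralOrderedRing Q
  set S := ∑ p, star (x p) * x p with hS
  have hr0 : 0 ≤ r := (norm_nonneg E).trans hr
  have hS0 : 0 ≤ S := Finset.sum_nonneg fun p _ => star_mul_self_nonneg _
  obtain ⟨R, R', hR, hR'⟩ := exists_roots_shift hE hr
  set X := ∑ p, ∑ q, star (x p) * ι (E p q) * x q with hX
  have key : ∀ (c : ℂ) (R : CStarMatrix (Fin n) (Fin n) B), (r : ℂ) • 1 + c • E = star R * R →
      0 ≤ r • S + c • X := by
    intro c R hR
    have e : ∑ p, ∑ q, star (x p) * ι (((r : ℂ) • 1 + c • E : CStarMatrix (Fin n) (Fin n) B) p q)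
        * x q = ∑ l, star (∑ p, ι (R l p) * x p) * (∑ p, ι (R l p) * x p) := by
      simp only [hR, CStarMatrix.mul_apply, CStarMatrix.star_apply, map_sum, map_mul, map_star,
        Finset.mul_sum, Finset.sum_mul, star_sum, star_mul, mul_assoc]
      calc _ = ∑ p, ∑ l, ∑ q, star (x p) * (star (ι (R l p)) * (ι (R l q) * x q)) :=
            Finset.sum_congr rfl fun p _ => Finset.sum_comm
        _ = ∑ l, ∑ p, ∑ q, star (x p) * (star (ι (R l p)) * (ι (R l q) * x q)) := Finset.sum_comm
        _ = _ := Finset.sum_congr rfl fun l _ => Finset.sum_comm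
    have e' : ∑ p, ∑ q, star (x p) * ι (((r : ℂ) • 1 + c • E : CStarMatrix (Fin n) (Fin n) B) p q)
        * x q = r • S + c • X := by
      have hent : ∀ p q, ι (((r : ℂ) • 1 + c • E : CStarMatrix (Fin n) (Fin n) B) p q)
          = (if p = q then (r : ℂ) • (1 : Q) else 0) + c • ι (E p q) := by
        intro p q
        rw [CStarMatrix.add_apply, SC.cstar_smul_apply, SC.cstar_smul_apply, CStarMatrix.one_apply,
          map_add, map_smul, map_smul, apply_ite ι, map_one, map_zero, smul_ite, smul_zero]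
      simp only [hent]
      simp only [add_mul, mul_add, Finset.sum_add_distrib, mul_ite, ite_mul, mul_zero,
        zero_mul, Finset.sum_ite_eq, Finset.mem_univ, if_true, mul_smul_comm, smul_mul_assoc,
        mul_one, ← Finset.smul_sum, ← hS, ← hX, Complex.coe_smul]
    rw [← e', e]
    exact Finset.sum_nonneg fun l _ => star_mul_self_nonneg _
  have h1 := key (-1) R (by rw [neg_one_smul, ← sub_eq_add_neg]; exact hR)
  have h2 := key 1 R' (by rw [one_smul]; exact hR')
  rw [neg_one_smul, ← sub_eq_add_neg] at h1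
  rw [one_smul] at h2
  have hS1 : r • S ≤ (r * ‖S‖) • (1 : Q) := by
    rw [← smul_smul]
    exact smul_le_smul_of_nonneg_left (self_le_norm_smul_one (.of_nonneg hS0) le_rfl) hr0
  obtain ⟨R₁, hR₁⟩ := CStarAlgebra.nonneg_iff_eq_star_mul_self.1
    (sub_nonneg.2 ((sub_nonneg.1 h1).trans hS1))
  obtain ⟨R₂, hR₂⟩ := CStarAlgebra.nonneg_iff_eq_star_mul_self.1
    (h2.trans (add_le_add hS1 le_rfl))
  refine SC.norm_le_of_two_squares (R := R₁) (R' := R₂) (mul_nonneg hr0 (norm_nonneg _)) ?_ ?_
  · rw [Complex.coe_smul]; exact hR₁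
  · rw [Complex.coe_smul]; exact hR₂

end Vale.Agent.P095.W
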