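import Vale.Agent.P095.W.Defs
import Vale.Agent.P095.Induced

/-!
P095, Theorem W: a unital map of Z(2,3) into the central sequence algebra rules out characters.
-/

namespace Vale.Agent.P095.W

open Filter Vale.Agent.P101 Vale.Agent.P095
open scoped Topology BoundedContinuousFunction

variable {A : Type} [NonUnitalCStarAlgebra A]

noncomputable local instance cSeqCStarConverse (w : Ultrafilter ℕ) :
    CStarAlgebra (centralSeq (w : Filter ℕ) (Unitization ℂ A)) :=
  StarSubalgebra.cstarAlgebra _ (h_closed := isClosed_centralSeq w)

/-- A unital map of Z(2,3) into the central sequence algebra leaves it without characters. -/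
theorem noChar_of_map {w : Ultrafilter ℕ} {G : Type} {α : G → A ≃⋆ₐ[ℂ] A}
    {φ : ZTwoThree → centralSeq (w : Filter ℕ) (Unitization ℂ A)}
    (h : IsFixedHomModAnn (w : Filter ℕ) α φ) : NoChar A w := by
  intro χ hχ
  have e : ∀ a b : centralSeq (w : Filter ℕ) (Unitization ℂ A),
      (∀ x : A, Tendsto (fun n => (a.1 n - b.1 n) * (x : Unitization ℂ A)) (w : Filter ℕ) (𝓝 0)) →
      χ a = χ b := by
    intro a b hab
    have := hχ (a - b) hab
    rwa [map_sub, sub_eq_zero] at this
  let ψ : ZTwoThree →⋆ₐ[ℂ] ℂ :=
    { toFun := fun f => χ (φ f)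
      map_one' := by
        rw [← map_one χ]
        exact e _ 1 (h.one 1 fun t => rfl)
      map_mul' := fun f g => by
        rw [← map_mul χ]
        exact e _ (φ f * φ g) (h.mul f g (f * g) fun t => rfl)
      map_zero' := by
        have := e _ (φ 0 + φ 0) (h.add 0 0 0 fun t => by simp)
        rw [map_add] at this
        simpa using this
      map_add' := fun f g => by
        rw [← map_add χ]
        exact e _ (φ f + φ g) (h.add f g (f + g) fun t => rfl)
      commutes' := fun c => by
        show χ (φ (algebraMap ℂ ZTwoThree c)) = algebraMap ℂ ℂ c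
        rw [Algebra.algebraMap_eq_smul_one, Algebra.algebraMap_eq_smul_one]
        have h1 := e _ (c • φ 1) (h.smul c 1 (c • 1) fun t => rfl)
        have h2 := e _ 1 (h.one 1 fun t => rfl)
        rw [h1, map_smul, h2, map_one]
      map_star' := fun f => by
        rw [← map_star χ]
        exact e _ (star (φ f)) (h.star_map f (star f) fun t => rfl) }
  obtain ⟨y, s, h1, h2, h3⟩ := DimDrop.exists_starAlgHom_iff.1 ⟨ψ⟩
  have hy : y = 0 := mul_self_eq_zero.1 h1
  subst hy
  have hs : s = 0 := by simpa using h3.symm
  subst hs
  simp at h2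

end Vale.Agent.P095.W
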