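import Vale.Agent.P095.W.Pins
import Vale.Agent.P095.SC.Amplify

/-!
P095, Theorem W, block W4: random arrays over a nonunital nuclear algebra. The unitization of a
nuclear algebra is nuclear (a completely positive contraction extends to the unitizations), so the
unital block applies to it.
-/

namespace Vale.Agent.P095.W

open Filter Matrix Vale.Agent.P095.SN
open scoped Topology Matrix.Norms.L2Operator MatrixOrder Kronecker ComplexOrder

variable {A : Type} [NonUnitalCStarAlgebra A]

/-- A filter of self-adjoint contractions acting as a unit in the limit. -/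
theorem exists_unit_filter (A : Type) [NonUnitalCStarAlgebra A] :
    ∃ l : Filter A, l.NeBot ∧ (∀ᶠ e in l, star e = e ∧ ‖e‖ ≤ 1) ∧
      (∀ x, Tendsto (fun e => e * x) l (𝓝 x)) ∧ ∀ x, Tendsto (fun e => x * e) l (𝓝 x) := by
  let := CStarAlgebra.spectralOrder A
  have := CStarAlgebra.spectralOrderedRing A
  have h := CStarAlgebra.increasingApproximateUnit A
  exact ⟨_, h.neBot, h.eventually_star_eq.and h.eventually_norm, h.tendsto_mul_right,
    h.tendsto_mul_left⟩

/-- A completely positive map out of matrices stays one into the unitization. -/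
theorem isPos_inr_form {n m : ℕ} {ψ : Matrix (Fin n) (Fin n) ℂ →ₗ[ℂ] A} (hψ : IsCPFrom ψ)
    (T : Fin m → Matrix (Fin n) (Fin n) ℂ) (b : Fin m → Unitization ℂ A) :
    IsPos (∑ i, ∑ j, star (b i) * (ψ ((T i).conjTranspose * T j) : Unitization ℂ A) * b j) := by
  let := CStarAlgebra.spectralOrder (Unitization ℂ A)
  have := CStarAlgebra.spectralOrderedRing (Unitization ℂ A)
  obtain ⟨l, hl, he, hl1, hl2⟩ := exists_unit_filter A
  set X := ∑ i, ∑ j, star (b i) * (ψ ((T i).conjTranspose * T j) : Unitization ℂ A) * b j with hX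
  have hX0 : X = ((X.snd : A) : Unitization ℂ A) := by
    refine Unitization.ext ?_ (Unitization.snd_inr ℂ _).symm
    have hf : ∀ {ι : Type} (s : Finset ι) (f : ι → Unitization ℂ A),
        (∑ i ∈ s, f i).fst = ∑ i ∈ s, (f i).fst := fun s f =>
      map_sum (Unitization.fstHom ℂ A) f s
    simp [hX, hf]
  have hlim : Tendsto (fun e : A => ((e * X.snd * e : A) : Unitization ℂ A)) l (𝓝 X) := by
    have h1 : Tendsto (fun e : A => e * X.snd * e) l (𝓝 X.snd) := by
      have h0 : Tendsto (fun e : A => ‖e * X.snd - X.snd‖ + ‖X.snd * e - X.snd‖) l (𝓝 0) := by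
        simpa using ((hl1 X.snd).sub_const X.snd).norm.add ((hl2 X.snd).sub_const X.snd).norm
      refine tendsto_iff_norm_sub_tendsto_zero.2
        (squeeze_zero' (Eventually.of_forall fun e => norm_nonneg _) ?_ h0)
      filter_upwards [he] with e he'
      calc ‖e * X.snd * e - X.snd‖ = ‖(e * X.snd - X.snd) * e + (X.snd * e - X.snd)‖ := by
            rw [sub_mul]; abel_nf
        _ ≤ ‖e * X.snd - X.snd‖ + ‖X.snd * e - X.snd‖ :=
          (norm_add_le _ _).trans (add_le_add_left
            ((norm_mul_le _ _).trans (mul_le_of_le_one_right (norm_nonneg _) he'.2)) _)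
    rw [hX0]
    exact ((Unitization.isometry_inr (𝕜 := ℂ) (A := A)).continuous.tendsto _).comp h1
  have hpos : 0 ≤ X := by
    refine ge_of_tendsto hlim ?_
    filter_upwards [he] with e he'
    obtain ⟨z, hz⟩ := hψ m T fun j => (b j * (e : Unitization ℂ A)).snd
    have hc : ∀ j, b j * (e : Unitization ℂ A)
        = (((b j * (e : Unitization ℂ A)).snd : A) : Unitization ℂ A) := fun j => by
      refine Unitization.ext ?_ (Unitization.snd_inr ℂ _).symm
      simp
    have e1 : ((e * X.snd * e : A) : Unitization ℂ A)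
        = ((star z * z : A) : Unitization ℂ A) := by
      rw [Unitization.inr_mul, Unitization.inr_mul, ← hX0, hz, hX]
      have hs : ∀ {ι : Type} (s : Finset ι) (f : ι → A),
          ((∑ i ∈ s, f i : A) : Unitization ℂ A) = ∑ i ∈ s, (f i : Unitization ℂ A) := fun s f =>
        map_sum (Unitization.inrNonUnitalStarAlgHom ℂ A) f s
      simp only [hs, Unitization.inr_mul, Unitization.inr_star, ← hc, star_mul, Finset.mul_sum,
        Finset.sum_mul, mul_assoc]
      rw [← Unitization.inr_star, he'.1]
    rw [e1, Unitization.inr_mul, Unitization.inr_star]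
    exact star_mul_self_nonneg _
  obtain ⟨w, hw⟩ := CStarAlgebra.nonneg_iff_eq_star_mul_self.1 hpos
  exact ⟨w, hw.symm⟩

/-- A completely positive contraction into matrices, extended to the unitization. -/
noncomputable def extendTo {n : ℕ} (φ : A →ₗ[ℂ] Matrix (Fin n) (Fin n) ℂ) :
    Unitization ℂ A →ₗ[ℂ] Matrix (Fin (n + 1)) (Fin (n + 1)) ℂ where
  toFun b := Matrix.of (Fin.cases (Fin.cases b.fst fun _ => 0)
    fun i => Fin.cases 0 fun j => φ b.snd i j + if i = j then b.fst else 0)
  map_add' b b' := by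
    ext i j
    cases i using Fin.cases <;> cases j using Fin.cases <;>
      simp [map_add, add_add_add_comm, ite_add_zero]
  map_smul' r b := by
    ext i j
    cases i using Fin.cases <;> cases j using Fin.cases <;>
      simp [map_smul, mul_add, mul_ite]

/-- A completely positive contraction out of matrices, extended to the unitization. -/
noncomputable def extendFrom {n : ℕ} (ψ : Matrix (Fin n) (Fin n) ℂ →ₗ[ℂ] A) :
    Matrix (Fin (n + 1)) (Fin (n + 1)) ℂ →ₗ[ℂ] Unitization ℂ A where
  toFun T := (ψ (T.submatrix Fin.succ Fin.succ) : Unitization ℂ A)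
    + T 0 0 • (1 - (ψ 1 : Unitization ℂ A))
  map_add' T T' := by
    rw [Matrix.submatrix_add, Pi.add_apply, Pi.add_apply, map_add, Unitization.inr_add,
      Matrix.add_apply, add_smul]
    abel
  map_smul' r T := by
    rw [Matrix.submatrix_smul, Pi.smul_apply, Pi.smul_apply, map_smul, Unitization.inr_smul,
      Matrix.smul_apply, RingHom.id_apply, smul_add, smul_assoc]

theorem extendFrom_extendTo {n : ℕ} (φ : A →ₗ[ℂ] Matrix (Fin n) (Fin n) ℂ)
    (ψ : Matrix (Fin n) (Fin n) ℂ →ₗ[ℂ] A) (b : Unitization ℂ A) :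
    extendFrom ψ (extendTo φ b) - b = ((ψ (φ b.snd) - b.snd : A) : Unitization ℂ A) := by
  have e : (extendTo φ b).submatrix Fin.succ Fin.succ = φ b.snd + b.fst • 1 := by
    ext i j
    by_cases h : i = j <;> simp [extendTo, h]
  have e0 : extendTo φ b 0 0 = b.fst := by simp [extendTo]
  show (ψ _ : Unitization ℂ A) + _ - b = _
  rw [e, e0, map_add, map_smul]
  refine Unitization.ext ?_ ?_ <;> simp [sub_eq_add_neg]

theorem isCPFromMatrix_extendFrom {n : ℕ} {ψ : Matrix (Fin n) (Fin n) ℂ →ₗ[ℂ] A}
    (hψ : IsCPFrom ψ) (h1 : ∀ T, ‖ψ T‖ ≤ ‖T‖) : IsCPFromMatrix (extendFrom ψ) := by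
  classical
  intro m T b
  have hp : IsPos ((ψ 1 : A) : Unitization ℂ A) := by
    simpa using isPos_inr_form hψ (fun _ : Fin 1 => (1 : Matrix (Fin n) (Fin n) ℂ)) fun _ => 1
  have hn : ‖((ψ 1 : A) : Unitization ℂ A)‖ ≤ 1 := by
    rw [Unitization.norm_inr]
    refine (h1 1).trans ?_
    rcases subsingleton_or_nontrivial (Matrix (Fin n) (Fin n) ℂ) with h | h
    · simp [Subsingleton.elim (1 : Matrix (Fin n) (Fin n) ℂ) 0]
    · exact le_of_eq norm_one
  obtain ⟨w, hw⟩ := SC.isPos_norm_sub hp hn
  rw [Complex.ofReal_one, one_smul] at hw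
  let R : Fin (n + 1) → Fin m → Matrix (Fin n) (Fin n) ℂ := fun s p =>
    Matrix.of fun r a => if (r : ℕ) = 0 then T p s a.succ else 0
  have hb : ∀ p q, ((T p).conjTranspose * T q).submatrix Fin.succ Fin.succ
      = ∑ s, (R s p).conjTranspose * R s q := by
    intro p q
    ext i j
    simp only [Matrix.submatrix_apply, Matrix.mul_apply, Matrix.sum_apply,
      Matrix.conjTranspose_apply, R, Matrix.of_apply]
    refine Finset.sum_congr rfl fun s _ => ?_
    rw [Finset.sum_eq_single (⟨0, i.pos⟩ : Fin n)]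
    · simp
    · intro r _ hr
      have : (r : ℕ) ≠ 0 := fun h => hr (Fin.ext h)
      simp [this]
    · simp
  have hs : ∀ {ι : Type} (s : Finset ι) (f : ι → A),
      ((∑ i ∈ s, f i : A) : Unitization ℂ A) = ∑ i ∈ s, (f i : Unitization ℂ A) := fun s f =>
    map_sum (Unitization.inrNonUnitalStarAlgHom ℂ A) f s
  have e : (∑ p, ∑ q, star (b p) * extendFrom ψ ((T p).conjTranspose * T q) * b q)
      = (∑ s, ∑ p, ∑ q, star (b p) * (ψ ((R s p).conjTranspose * R s q) : Unitization ℂ A) * b q)
        + ∑ s, star (∑ p, T p s 0 • (w * b p)) * ∑ p, T p s 0 • (w * b p) := by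
    have e1 : ∀ p q, star (b p) * extendFrom ψ ((T p).conjTranspose * T q) * b q
        = (∑ s, star (b p) * (ψ ((R s p).conjTranspose * R s q) : Unitization ℂ A) * b q)
          + ∑ s, star (T p s 0 • (w * b p)) * (T q s 0 • (w * b q)) := by
      intro p q
      show star (b p) * ((ψ _ : Unitization ℂ A) + _) * b q = _
      rw [mul_add, add_mul, hb, map_sum, hs, Finset.mul_sum, Finset.sum_mul]
      congr 1
      rw [← hw, Matrix.mul_apply, Finset.sum_smul, Finset.mul_sum, Finset.sum_mul]
      refine Finset.sum_congr rfl fun s _ => ?_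
      simp only [Matrix.conjTranspose_apply, star_smul, star_mul, smul_mul_assoc, mul_smul_comm,
        smul_smul, mul_assoc, mul_comm (T q s 0)]
    simp only [e1, Finset.sum_add_distrib, star_sum, Finset.sum_mul_sum]
    congr 1
    all_goals
      refine (Finset.sum_congr rfl fun p _ => Finset.sum_comm).trans ?_
      exact Finset.sum_comm
  rw [e]
  exact SC.isPos_add (SC.isPos_sum _ _ fun s _ => isPos_inr_form hψ (R s) b)
    (isPos_sum_star_mul_self _ _)

/-- The extension of a completely positive contraction is completely positive. -/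
theorem isCPToMatrix_extendTo {n : ℕ} {φ : A →ₗ[ℂ] Matrix (Fin n) (Fin n) ℂ}
    (hφ : IsCPTo φ) (h1 : ∀ a, ‖φ a‖ ≤ ‖a‖) : IsCPToMatrix (extendTo φ) := by
  classical
  intro m b
  obtain ⟨l, hl, he, hl1, hl2⟩ := exists_unit_filter A
  let lam : Fin m → ℂ := fun p => (b p).fst
  let a : Fin m → A := fun p => (b p).snd
  let M : Matrix (Fin m × Fin n) (Fin m × Fin n) ℂ := Matrix.of fun x y =>
    φ (star (a x.1) * a y.1 + star (lam x.1) • a y.1 + lam y.1 • star (a x.1)) x.2 y.2
      + if x.2 = y.2 then star (lam x.1) * lam y.1 else 0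
  let Me : A → Matrix (Fin m × Fin n) (Fin m × Fin n) ℂ := fun e => Matrix.of fun x y =>
    φ (star (a x.1) * a y.1 + star (lam x.1) • (e * a y.1) + lam y.1 • (star (a x.1) * e)) x.2 y.2
      + if x.2 = y.2 then star (lam x.1) * lam y.1 else 0
  have hM : M.PosSemidef := by
    rw [← nonneg_iff_posSemidef]
    have hlim : Tendsto Me l (𝓝 M) := by
      refine tendsto_pi_nhds.2 fun x => tendsto_pi_nhds.2 fun y => ?_
      have hcφ : Continuous φ := AddMonoidHomClass.continuous_of_bound φ 1 (by simpa using h1)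
      refine Tendsto.add_const _ ((((continuous_apply y.2).comp
        ((continuous_apply x.2).comp hcφ)).tendsto _).comp ?_)
      exact (tendsto_const_nhds.add ((hl1 _).const_smul _)).add ((hl2 _).const_smul _)
    refine ge_of_tendsto hlim ?_
    filter_upwards [he] with e he'
    rw [nonneg_iff_posSemidef]
    have hsq : (φ (star e * e)).PosSemidef :=
      (hφ 1 fun _ => e).submatrix fun i => ((0 : Fin 1), i)
    have hone : ((1 : Matrix (Fin n) (Fin n) ℂ) - φ (star e * e)).PosSemidef := by
      rw [← Matrix.le_iff]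
      refine (CStarAlgebra.norm_le_one_iff_of_nonneg _ (nonneg_iff_posSemidef.2 hsq)).1 ?_
      exact ((h1 _).trans (norm_mul_le _ _)).trans
        (mul_le_one₀ (by rw [norm_star]; exact he'.2) (norm_nonneg _) he'.2)
    have hsum := (hφ m fun p => a p + lam p • e).add
      ((Matrix.posSemidef_vecMulVec_star_self lam).kronecker hone)
    have e1 : Me e = (Matrix.of fun x y : Fin m × Fin n =>
          φ (star (a x.1 + lam x.1 • e) * (a y.1 + lam y.1 • e)) x.2 y.2)
        + (vecMulVec (star lam) lam) ⊗ₖ ((1 : Matrix (Fin n) (Fin n) ℂ) - φ (star e * e)) := by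
      ext x y
      simp only [Me, Matrix.of_apply, Matrix.add_apply, Matrix.kroneckerMap_apply,
        Matrix.vecMulVec_apply, Pi.star_apply, Matrix.sub_apply, Matrix.one_apply, star_add,
        star_smul, he'.1, add_mul, mul_add, smul_mul_assoc, mul_smul_comm, map_add, map_smul,
        Matrix.smul_apply, smul_eq_mul]
      split_ifs <;> ring
    rw [e1]
    exact hsum
  let V : Matrix (Fin m × Fin n) (Fin m × Fin (n + 1)) ℂ := Matrix.of fun x y =>
    if x.1 = y.1 ∧ y.2 = x.2.succ then 1 else 0
  let u : Fin m × Fin (n + 1) → ℂ := fun x => if x.2 = 0 then lam x.1 else 0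
  convert (hM.conjTranspose_mul_mul_same V).add (Matrix.posSemidef_vecMulVec_star_self u) using 1
  ext ⟨p, i⟩ ⟨q, j⟩
  simp only [Matrix.add_apply, Matrix.vecMulVec_apply, Pi.star_apply, Matrix.of_apply]
  cases i using Fin.cases <;> cases j using Fin.cases <;>
    simp [V, u, M, lam, a, extendTo, Matrix.mul_apply, Fintype.sum_prod_type, ite_and,
      Fin.succ_inj, Fin.succ_ne_zero, (Fin.succ_ne_zero _).symm, apply_ite (starRingEnd ℂ)]
  ring

/-- The unitization of a nuclear algebra is nuclear. -/
theorem isNuclear_unitization (hA : IsNuclearA A) : IsNuclear (Unitization ℂ A) := by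
  classical
  intro S ε hε
  obtain ⟨n, φ, ψ, hφ, hψ, hφ1, hψ1, happ⟩ := hA (S.image fun b => b.snd) ε hε
  refine ⟨n + 1, extendTo φ, extendFrom ψ, isCPToMatrix_extendTo hφ hφ1,
    isCPFromMatrix_extendFrom hψ hψ1, fun b hb => ?_⟩
  rw [extendFrom_extendTo, Unitization.norm_inr]
  exact happ _ (Finset.mem_image_of_mem _ hb)

theorem amplifyAPin : AmplifyAPin := by
  intro hM A _ hA a b L ha hb hL k z δ hδ hbδ h1 h2
  have hs : ∀ f : Fin k → A,
      ((∑ i, f i : A) : Unitization ℂ A) = ∑ i, (f i : Unitization ℂ A) := fun f =>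
    map_sum (Unitization.inrNonUnitalStarAlgHom ℂ A) f _
  refine SC.amplifyPin hM (Unitization ℂ A) (isNuclear_unitization hA) a b L ha hb hL k
    (fun i => (z i : Unitization ℂ A)) δ hδ hbδ ?_ ?_
  · simpa [← Unitization.inr_star, ← Unitization.inr_mul, ← hs, Unitization.norm_inr] using h1
  · simpa [← Unitization.inr_star, ← Unitization.inr_mul, ← hs, Unitization.norm_inr] using h2

end Vale.Agent.P095.W
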