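import Vale.Agent.P095.W.Pins
import Vale.Agent.P095.SI.Assemble
import Vale.Agent.P095.Induced

/-!
P095, Theorem W, W6: averaging exact solutions over a Foelner set modulo the kernel of the action on
the central sequence algebra, and the diagonal.
-/

namespace Vale.Agent.P095.W

open Filter Vale.Agent.P101 Vale.Agent.P095 Vale.Agent.P095.Rel Vale.Agent.P095.Tracial
open scoped Topology BoundedContinuousFunction

universe u v

section Diagonal

variable {B : Type u} [CStarAlgebra B] [TopologicalSpace.SeparableSpace B] {G : Type v} [Group G]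
  (β : G →* (B ≃⋆ₐ[ℂ] B)) {S : Set B} (hS : ∀ g, ∀ s ∈ S, β g s ∈ S) (w : Ultrafilter ℕ)

noncomputable local instance cseqAssemble : CStarAlgebra (centralSeq (w : Filter ℕ) B) :=
  StarSubalgebra.cstarAlgebra _ (h_closed := isClosed_centralSeq w)

/-- A class of small norm is small against finitely many fixed elements on late representatives. -/
theorem eventually_small_class (n : ℕ) {r ε : ℝ} (hr : 0 < r) (hε : 0 < ε)
    (hεr : ∀ l : Fin (n + 1), 2 * ε * ‖relDense S l‖ ≤ r / 2)
    (f : centralSeq (w : Filter ℕ) B) (hf : ‖Ideal.Quotient.mk (annIdeal S w) f‖ ≤ ε) :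
    ∀ᶠ k in (w : Filter ℕ), SmallAt S ((f : ℕ →ᵇ B) k) n r := by
  obtain ⟨U, hUq, hU⟩ := Submodule.Quotient.norm_mk_lt (Ideal.Quotient.mk (annIdeal S w) f) hε
  have h := annSeq_of_mk_eq w (f := f) (g := U) hUq.symm
  filter_upwards [eventually_small S w h n (half_pos hr)] with k hk l
  obtain ⟨h1, h2⟩ := hk l
  have hUk : ‖(U : ℕ →ᵇ B) k‖ ≤ 2 * ε := by
    have := (U : ℕ →ᵇ B).norm_coe_le_norm k
    have hU' : ‖(U : ℕ →ᵇ B)‖ < ‖Ideal.Quotient.mk (annIdeal S w) f‖ + ε := hU
    linarith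
  have bound : ∀ x z : B, ‖z‖ ≤ 2 * ε → ‖(x - z) * relDense S l‖ ≤ r / 2 →
      ‖x * relDense S l‖ ≤ r := fun x z hz hxz => by
    calc ‖x * relDense S l‖ = ‖(x - z) * relDense S l + z * relDense S l‖ := by
          rw [sub_mul, sub_add_cancel]
      _ ≤ r / 2 + 2 * ε * ‖relDense S l‖ := (norm_add_le _ _).trans (add_le_add hxz
          ((norm_mul_le _ _).trans (mul_le_mul_of_nonneg_right hz (norm_nonneg _))))
      _ ≤ r := by linarith [hεr l]
  exact ⟨bound _ _ hUk h1, bound _ _ ((norm_star _).trans_le hUk) (by simpa using h2)⟩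

include hS in
/-- Almost fixed solutions for every finite subset give a solution fixed by the group. -/
theorem exists_fixed_drop_eps [Countable G] (hw : (w : Filter ℕ) ≤ cofinite)
    (h : ∀ (T : Finset G) (ε : ℝ), 0 < ε → ∃ y s : RelQuot S w, DropRelations y s ∧
      ∀ g ∈ T, ‖relAct β hS w g y - y‖ ≤ ε ∧ ‖relAct β hS w g s - s‖ ≤ ε) :
    ∃ y s : RelQuot S w,
      (∀ g, relAct β hS w g y = y ∧ relAct β hS w g s = s) ∧ DropRelations y s := by
  classical
  obtain ⟨e, he⟩ := exists_surjective_nat G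
  have key : ∀ n : ℕ, ∃ a b : B, ApproxRel β S e n (1 / ((n : ℝ) + 1)) a b := by
    intro n
    set r : ℝ := 1 / ((n : ℝ) + 1) with hr_def
    have hr : 0 < r := by positivity
    set D : ℝ := ∑ l : Fin (n + 1), ‖relDense S l‖ with hD_def
    have hD : 0 ≤ D := Finset.sum_nonneg fun l _ => norm_nonneg _
    set ε : ℝ := r / (4 * (D + 1)) with hε_def
    have hε : 0 < ε := by positivity
    have hεr : ∀ l : Fin (n + 1), 2 * ε * ‖relDense S l‖ ≤ r / 2 := fun l => by
      have hl : ‖relDense S l‖ ≤ D + 1 :=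
        (Finset.single_le_sum (fun i _ => norm_nonneg (relDense S (i : Fin (n + 1))))
          (Finset.mem_univ l)).trans (by linarith)
      calc 2 * ε * ‖relDense S l‖ ≤ 2 * ε * (D + 1) :=
            mul_le_mul_of_nonneg_left hl (by positivity)
        _ = r / 2 := by rw [hε_def]; field_simp; ring
    obtain ⟨y, s, hrel, hfix⟩ := h (Finset.univ.image fun i : Fin (n + 1) => e i) ε hε
    obtain ⟨hy1, hs1⟩ := norm_le_one_of_dropRelations hrel
    obtain ⟨Y, rfl, hY⟩ := Submodule.Quotient.norm_mk_lt y zero_lt_one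
    obtain ⟨T, rfl, hT⟩ := Submodule.Quotient.norm_mk_lt s zero_lt_one
    obtain ⟨r1, r2, r3⟩ := hrel
    have small : ∀ {u : ℕ → B}, Tendsto u (w : Filter ℕ) (𝓝 0) →
        ∀ᶠ k in (w : Filter ℕ), ‖u k‖ ≤ r := by
      intro u hu
      filter_upwards [Metric.tendsto_nhds.1 hu r hr] with k hk
      rw [dist_zero_right] at hk
      exact hk.le
    have hYn : ∀ k, ‖(Y : ℕ →ᵇ B) k‖ ≤ 2 := fun k =>
      ((Y : ℕ →ᵇ B).norm_coe_le_norm k).trans (hY.le.trans (by linarith))
    have hTn : ∀ k, ‖(T : ℕ →ᵇ B) k‖ ≤ 2 := fun k =>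
      ((T : ℕ →ᵇ B).norm_coe_le_norm k).trans (hT.le.trans (by linarith))
    have n1 := annSeq_of_mk_eq w (f := Y * Y) (g := 0) (r1.trans (map_zero _).symm)
    have n2 := annSeq_of_mk_eq w (f := star T * T) (g := 1 - star Y * Y - Y * star Y) r2
    have n3 := annSeq_of_mk_eq w (f := star Y * Y * T) (g := T) r3
    have hcls : ∀ i : Fin (n + 1),
        ‖Ideal.Quotient.mk (annIdeal S w) (centralAct β w (e i) Y - Y)‖ ≤ ε ∧
        ‖Ideal.Quotient.mk (annIdeal S w) (centralAct β w (e i) T - T)‖ ≤ ε := fun i =>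
      hfix (e i) (Finset.mem_image.2 ⟨i, Finset.mem_univ _, rfl⟩)
    obtain ⟨k, hk1, hk2, hk3, hk4, hk5⟩ := ((eventually_small S w n1 n hr).and
      ((eventually_small S w n2 n hr).and ((eventually_small S w n3 n hr).and
      ((eventually_all.2 fun i : Fin (n + 1) =>
        (eventually_small_class w n hr hε hεr _ (hcls i).1).and
          (eventually_small_class w n hr hε hεr _ (hcls i).2)).and
      (eventually_all.2 fun l : Fin (n + 1) => (small (Y.2 (TopologicalSpace.denseSeq B l))).and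
        (small (T.2 (TopologicalSpace.denseSeq B l)))))))).exists
    refine ⟨(Y : ℕ →ᵇ B) k, (T : ℕ →ᵇ B) k, ⟨hYn k, hTn k⟩, ?_, hk2, hk3, hk4, hk5⟩
    simpa using hk1
  choose a b hab using key
  exact exists_of_approxRel β hS w hw he hab

end Diagonal

variable {A : Type} [NonUnitalCStarAlgebra A] {G : Type} [Group G]

noncomputable local instance cseqAssembleA (w : Ultrafilter ℕ) :
    CStarAlgebra (centralSeq (w : Filter ℕ) (Unitization ℂ A)) :=
  StarSubalgebra.cstarAlgebra _ (h_closed := isClosed_centralSeq w)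

variable (α : G →* (A ≃⋆ₐ[ℂ] A)) (w : Ultrafilter ℕ)

lemma actF_one (x : FA A w) : actF α w 1 x = x := by
  rw [show actF α w 1 = _ from relAct_one (unitAct α) (unitAct_mem α) w]; rfl

lemma actF_mul (g h : G) (x : FA A w) : actF α w (g * h) x = actF α w g (actF α w h x) := by
  rw [show actF α w (g * h) = _ from relAct_mul (unitAct α) (unitAct_mem α) w g h]; rfl

/-- The induced action, as a homomorphism into automorphisms. -/
noncomputable def actEquiv : G →* (FA A w ≃⋆ₐ[ℂ] FA A w) where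
  toFun g := StarAlgEquiv.ofBijective (actF α w g)
    ⟨Function.LeftInverse.injective (g := actF α w g⁻¹) fun x => by
        rw [← actF_mul, inv_mul_cancel, actF_one],
      Function.RightInverse.surjective (g := actF α w g⁻¹) fun x => by
        rw [← actF_mul, mul_inv_cancel, actF_one]⟩
  map_one' := StarAlgEquiv.ext fun x => actF_one α w x
  map_mul' g h := StarAlgEquiv.ext fun x => actF_mul α w g h x

/-- The elements fixing the central sequence algebra, as a subgroup. -/
def inKerSubgroup : Subgroup G where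
  carrier := {d | InKer α w d}
  one_mem' := fun x => actF_one α w x
  mul_mem' := fun {d e} hd he x => by rw [actF_mul, he, hd]
  inv_mem' := fun {d} hd x => by
    conv_lhs => rw [← hd x]
    rw [← actF_mul, inv_mul_cancel, actF_one]

/-- Translates in one class agree. -/
lemma actF_out (g : G) (x : FA A w) :
    actF α w (g : G ⧸ inKerSubgroup α w).out x = actF α w g x := by
  have h : g⁻¹ * (g : G ⧸ inKerSubgroup α w).out ∈ inKerSubgroup α w :=
    QuotientGroup.eq.1 (QuotientGroup.out_eq' _).symm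
  calc actF α w (g : G ⧸ inKerSubgroup α w).out x
      = actF α w (g * (g⁻¹ * (g : G ⧸ inKerSubgroup α w).out)) x := by rw [mul_inv_cancel_left]
    _ = actF α w g x := by rw [actF_mul, h x]

/-- The translates of an element indexed by the classes. -/
noncomputable def transl (s : FA A w) (c : G ⧸ inKerSubgroup α w) : FA A w :=
  actF α w c.out s

/-- The average over classes. -/
noncomputable def avg (Φ : Finset G) (C : Finset (G ⧸ inKerSubgroup α w)) (s : FA A w) : FA A w :=
  ∑ c ∈ C, (SI.weight (inKerSubgroup α w) Φ c : ℂ) • transl α w s c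

variable {α w}

lemma avg_star_mul {Φ : Finset G} {C : Finset (G ⧸ inKerSubgroup α w)} {a b : FA A w}
    (hab : ∀ c ∈ C, ∀ c' ∈ C, c ≠ c' → star a * actF α w (c.out⁻¹ * c'.out) b = 0) :
    star (avg α w Φ C a) * avg α w Φ C b = ∑ c ∈ C,
      ((SI.weight (inKerSubgroup α w) Φ c ^ 2 : ℝ) : ℂ) • actF α w c.out (star a * b) := by
  classical
  simp only [avg, transl, star_sum, Finset.sum_mul, Finset.mul_sum, star_smul, Complex.star_def,
    Complex.conj_ofReal, smul_mul_smul_comm, ← Complex.ofReal_mul]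
  refine Finset.sum_congr rfl fun c hc => ?_
  rw [Finset.sum_eq_single c (fun c' hc' hne => ?_) (fun h => absurd hc h)]
  · rw [map_mul, map_star, sq]
  · rw [show c.out = c'.out * (c'.out⁻¹ * c.out) from (mul_inv_cancel_left _ _).symm, actF_mul,
      ← map_star, ← map_mul, hab c' hc' c hc hne, map_zero, smul_zero]

lemma avg_shift {Φ : Finset G} (hΦ : Φ.Nonempty) {C : Finset (G ⧸ inKerSubgroup α w)} {k : G}
    (hC : ∀ h ∈ Φ, (h : G ⧸ inKerSubgroup α w) ∈ C)
    (hkC : ∀ h ∈ Φ, ((k * h : G) : G ⧸ inKerSubgroup α w) ∈ C) {e : ℝ}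
    (hk : (Nat.card {h // h ∈ Φ ∧ k * h ∉ Φ} : ℝ) ≤ e * Φ.card) {s : FA A w} (hs : ‖s‖ ≤ 1)
    (horth : ∀ c ∈ C, ∀ c' ∈ C, c ≠ c' → star s * actF α w (c.out⁻¹ * c'.out) s = 0) :
    ‖actF α w k (avg α w Φ C s) - avg α w Φ C s‖ ≤ Real.sqrt (2 * e) := by
  have h := SI.average_shift (α := actEquiv α w) (N := inKerSubgroup α w) hΦ C (transl α w s) hC
    hkC le_rfl (fun c _ => (NonUnitalStarAlgHom.norm_apply_le _ _).trans hs)
    (fun c hc c' hc' hne => by
      rw [transl, transl, show c'.out = c.out * (c.out⁻¹ * c'.out) from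
          (mul_inv_cancel_left _ _).symm, actF_mul, ← map_star, ← map_mul,
        horth c hc c' hc' hne, map_zero, norm_zero]
      simp)
    (fun h _ => by
      show ‖actF α w k (transl α w s _) - _‖ ≤ _
      rw [transl, transl, MulAction.Quotient.smul_coe, smul_eq_mul, actF_out, actF_out,
        ← actF_mul, sub_self, norm_zero])
    hk
  simp only [mul_zero, zero_add, add_zero] at h
  exact h

lemma norm_actF_mul_sub_le (g : G) (a b : FA A w) (ha : ‖a‖ ≤ 1) (hb : ‖b‖ ≤ 1) :
    ‖actF α w g (a * b) - a * b‖ ≤ ‖actF α w g a - a‖ + ‖actF α w g b - b‖ := by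
  rw [map_mul, show actF α w g a * actF α w g b - a * b
    = (actF α w g a - a) * actF α w g b + a * (actF α w g b - b) by
      rw [sub_mul, mul_sub]; abel]
  refine (norm_add_le _ _).trans (add_le_add ((norm_mul_le _ _).trans ?_)
    ((norm_mul_le _ _).trans (mul_le_of_le_one_left (norm_nonneg _) ha)))
  exact mul_le_of_le_one_right (norm_nonneg _) ((NonUnitalStarAlgHom.norm_apply_le _ _).trans hb)

lemma norm_le_one_of_isometry {a : FA A w} (h : star a * a = 1) : ‖a‖ ≤ 1 := by
  rcases subsingleton_or_nontrivial (FA A w) with h' | h'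
  · rw [Subsingleton.elim a 0, norm_zero]; exact zero_le_one
  · have := CStarRing.norm_star_mul_self (x := a)
    rw [h, CStarRing.norm_one] at this
    nlinarith [norm_nonneg a]

/-- Two almost invariant isometries with orthogonal ranges give almost invariant relations. -/
lemma drop_of_isometries {R₁ R₂ : FA A w} (h11 : star R₁ * R₁ = 1) (h22 : star R₂ * R₂ = 1)
    (h21 : star R₂ * R₁ = 0) :
    ∃ y s : FA A w, DropRelations y s ∧ ∀ (g : G) (ε : ℝ), 0 ≤ ε →
      ‖actF α w g R₁ - R₁‖ ≤ ε → ‖actF α w g R₂ - R₂‖ ≤ ε →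
      ‖actF α w g y - y‖ ≤ 5 * ε ∧ ‖actF α w g s - s‖ ≤ 5 * ε := by
  have h12 : star R₁ * R₂ = 0 := by
    have := congrArg star h21
    rwa [star_mul, star_star, star_zero] at this
  have k11 : ∀ z, star R₁ * (R₁ * z) = z := fun z => by rw [← mul_assoc, h11, one_mul]
  have k22 : ∀ z, star R₂ * (R₂ * z) = z := fun z => by rw [← mul_assoc, h22, one_mul]
  have k12 : ∀ z, star R₁ * (R₂ * z) = 0 := fun z => by rw [← mul_assoc, h12, zero_mul]
  have k21 : ∀ z, star R₂ * (R₁ * z) = 0 := fun z => by rw [← mul_assoc, h21, zero_mul]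
  have hn1 := norm_le_one_of_isometry h11
  have hn2 := norm_le_one_of_isometry h22
  obtain ⟨p, hp⟩ : ∃ p : FA A w, p = 1 - R₁ * star R₁ - R₂ * star R₂ := ⟨_, rfl⟩
  have hps : star p = p := by rw [hp]; simp only [star_sub, star_mul, star_star, star_one]
  have hpp : p * p = p := by
    rw [hp]
    simp only [sub_mul, mul_sub, one_mul, mul_one, mul_assoc, k11, k22, k12, k21, mul_zero]
    abel
  have hp1 : ‖p‖ ≤ 1 := by
    have := CStarRing.norm_star_mul_self (x := p)
    rw [hps, hpp] at this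
    rcases (norm_nonneg p).eq_or_lt with h | h
    · rw [← h]; exact zero_le_one
    · nlinarith
  refine ⟨R₂ * star R₁, R₁ * p, ⟨?_, ?_, ?_⟩, fun g ε hε e1 e2 => ?_⟩
  · rw [mul_assoc, k12, mul_zero]
  · rw [star_mul, hps, mul_assoc, k11, hpp]
    simp only [star_mul, star_star, mul_assoc, k22, k11]
    exact hp
  · simp only [star_mul, star_star, mul_assoc, k11, k22]
  · have e1' : ‖actF α w g (star R₁) - star R₁‖ ≤ ε := by
      rwa [map_star, ← star_sub, norm_star]
    have e2' : ‖actF α w g (star R₂) - star R₂‖ ≤ ε := by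
      rwa [map_star, ← star_sub, norm_star]
    have e11 := norm_actF_mul_sub_le (α := α) g R₁ (star R₁) hn1 ((norm_star _).trans_le hn1)
    have e22 := norm_actF_mul_sub_le (α := α) g R₂ (star R₂) hn2 ((norm_star _).trans_le hn2)
    have e21 := norm_actF_mul_sub_le (α := α) g R₂ (star R₁) hn2 ((norm_star _).trans_le hn1)
    have ep : ‖actF α w g p - p‖ ≤ ‖actF α w g (R₁ * star R₁) - R₁ * star R₁‖
        + ‖actF α w g (R₂ * star R₂) - R₂ * star R₂‖ := by
      rw [hp, show actF α w g (1 - R₁ * star R₁ - R₂ * star R₂)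
            - (1 - R₁ * star R₁ - R₂ * star R₂)
          = -(actF α w g (R₁ * star R₁) - R₁ * star R₁)
            - (actF α w g (R₂ * star R₂) - R₂ * star R₂) by
        rw [map_sub, map_sub, map_one]; abel]
      exact (norm_sub_le _ _).trans (by rw [norm_neg])
    have eS := norm_actF_mul_sub_le (α := α) g R₁ p hn1 hp1
    constructor <;> linarith

theorem solution_almost_fixed (hG : Foelner G) (hT : SolveTrace α w) (hN : SolveTraceless α w)
    (K : Finset G) {ε : ℝ} (hε : 0 < ε) :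
    ∃ y s : FA A w, DropRelations y s ∧
      ∀ g ∈ K, ‖actF α w g y - y‖ ≤ ε ∧ ‖actF α w g s - s‖ ≤ ε := by
  classical
  obtain ⟨Φ, hΦne, hΦ⟩ := hG K (ε ^ 2 / 50) (by positivity)
  set N := inKerSubgroup α w with hN_def
  set C := (Φ ∪ (K ×ˢ Φ).image fun p : G × G => p.1 * p.2).image fun h : G => (h : G ⧸ N) with hC
  have hΦC : ∀ h ∈ Φ, (h : G ⧸ N) ∈ C := fun h hh =>
    Finset.mem_image_of_mem _ (Finset.mem_union_left _ hh)
  have hKC : ∀ k ∈ K, ∀ h ∈ Φ, ((k * h : G) : G ⧸ N) ∈ C := fun k hk h hh =>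
    Finset.mem_image_of_mem _ (Finset.mem_union_right _
      (Finset.mem_image.2 ⟨(k, h), Finset.mem_product.2 ⟨hk, hh⟩, rfl⟩))
  set Δ := C.offDiag.image fun p : (G ⧸ N) × (G ⧸ N) => p.1.out⁻¹ * p.2.out with hΔ
  have hΔN : ∀ d ∈ Δ, ¬ InKer α w d := by
    intro d hd hker
    obtain ⟨⟨c, c'⟩, hcc, rfl⟩ := Finset.mem_image.1 hd
    have : (c.out : G ⧸ N) = (c'.out : G ⧸ N) := QuotientGroup.eq.2 hker
    rw [QuotientGroup.out_eq', QuotientGroup.out_eq'] at this
    exact (Finset.mem_offDiag.1 hcc).2.2 this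
  have hmem : ∀ c ∈ C, ∀ c' ∈ C, c ≠ c' → c.out⁻¹ * c'.out ∈ Δ := fun c hc c' hc' hne =>
    Finset.mem_image.2 ⟨(c, c'), Finset.mem_offDiag.2 ⟨hc, hc', hne⟩, rfl⟩
  have hsum : (∑ c ∈ C, ((SI.weight N Φ c ^ 2 : ℝ) : ℂ)) = 1 := by
    rw [← Complex.ofReal_sum, SI.weight_sum hΦne C hΦC, Complex.ofReal_one]
  have hsqrt : Real.sqrt (2 * (ε ^ 2 / 50)) ≤ ε / 5 :=
    Real.sqrt_le_iff.2 ⟨by positivity, by nlinarith⟩
  by_cases htr : ∃ τ, IsTraceOn (⊤ : StarSubalgebra ℂ (FA A w)) τ
  · obtain ⟨y, s, ⟨r1, r2, r3⟩, hy, hs⟩ := hT htr Δ hΔN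
    have horth := fun c hc c' hc' hne => hs _ (hmem c hc c' hc' hne)
    obtain ⟨-, hs1⟩ := norm_le_one_of_dropRelations (y := y) (s := s) ⟨r1, r2, r3⟩
    refine ⟨y, avg α w Φ C s, ⟨r1, ?_, ?_⟩, fun g hg => ⟨?_, ?_⟩⟩
    · rw [avg_star_mul horth]
      simp only [r2, map_sub, map_mul, map_star, map_one, hy, ← Finset.sum_smul]
      rw [hsum, one_smul]
    · simp only [avg, transl, Finset.mul_sum, mul_smul_comm]
      refine Finset.sum_congr rfl fun c _ => ?_
      congr 1
      conv_rhs => rw [← r3, map_mul, map_mul, map_star, hy]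
    · rw [hy, sub_self, norm_zero]; exact hε.le
    · exact (avg_shift hΦne hΦC (hKC g hg) (hΦ g hg) hs1 horth).trans (hsqrt.trans (by linarith))
  · obtain ⟨s, s', hss, hss', hs's, hd⟩ := hN htr Δ hΔN
    have horth : ∀ a ∈ [s, s'], ∀ b ∈ [s, s'], ∀ c ∈ C, ∀ c' ∈ C, c ≠ c' →
        star a * actF α w (c.out⁻¹ * c'.out) b = 0 := fun a ha b hb c hc c' hc' hne =>
      hd _ (hmem c hc c' hc' hne) a ha b hb
    set R₁ := avg α w Φ C s with hR₁
    set R₂ := avg α w Φ C s' with hR₂
    have h11 : star R₁ * R₁ = 1 := by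
      rw [hR₁, avg_star_mul (horth s (by simp) s (by simp))]
      simp only [hss, map_one, ← Finset.sum_smul]
      rw [hsum, one_smul]
    have h22 : star R₂ * R₂ = 1 := by
      rw [hR₂, avg_star_mul (horth s' (by simp) s' (by simp))]
      simp only [hss', map_one, ← Finset.sum_smul]
      rw [hsum, one_smul]
    have h21 : star R₂ * R₁ = 0 := by
      rw [hR₁, hR₂, avg_star_mul (horth s' (by simp) s (by simp))]
      simp [hs's]
    obtain ⟨y, t, hrel, hfix⟩ := drop_of_isometries (α := α) h11 h22 h21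
    refine ⟨y, t, hrel, fun g hg => ?_⟩
    obtain ⟨b1, b2⟩ := hfix g (ε / 5) (by positivity)
      ((avg_shift hΦne hΦC (hKC g hg) (hΦ g hg) (norm_le_one_of_isometry hss)
        (horth s (by simp) s (by simp))).trans hsqrt)
      ((avg_shift hΦne hΦC (hKC g hg) (hΦ g hg) (norm_le_one_of_isometry hss')
        (horth s' (by simp) s' (by simp))).trans hsqrt)
    constructor <;> linarith

theorem assemblePin : AssemblePin := by
  intro A _ _ w hw G _ _ α hG hT hN
  obtain ⟨y, s, hfix, hrel⟩ := exists_fixed_drop_eps (unitAct α) (unitAct_mem α) w hw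
    fun T ε hε => solution_almost_fixed hG hT hN T hε
  let E := fixedRel (unitAct α) (unitAct_mem α) w
  have hE : Nonempty (ZTwoThree →⋆ₐ[ℂ] E) :=
    DimDrop.exists_starAlgHom_iff.2 ⟨⟨y, fun g => (hfix g).1⟩, ⟨s, fun g => (hfix g).2⟩,
      Subtype.ext hrel.1, Subtype.ext hrel.2.1, Subtype.ext hrel.2.2⟩
  exact exists_isFixedHomModAnn (fun g => α g) (quotHom (annIdeal (inrSet A) w))
    Ideal.Quotient.mk_surjective (quotHom_eq_zero_iff w) E hE
    fun g f hf a => tendsto_of_fixed α w (hf g) a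

end Vale.Agent.P095.W
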