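import Vale.Agent.P095.W.CompareParts

/-!
P095, Theorem W, block W5b (notes/P095/helper5_W.md): random arrays at one index and central pieces
carry an element under a given one.
-/

namespace Vale.Agent.P095.W

open Filter Vale.Agent.P101 Vale.Agent.P095 Vale.Agent.P095.Rel Vale.Agent.P095.Tracial
open scoped Topology BoundedContinuousFunction

noncomputable local instance cseqCarrier {A : Type} [NonUnitalCStarAlgebra A] (w : Ultrafilter ℕ) :
    CStarAlgebra (centralSeq (w : Filter ℕ) (Unitization ℂ A)) :=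
  StarSubalgebra.cstarAlgebra _ (h_closed := isClosed_centralSeq w)

/-- The pieces at the level fitting a rectangular array. -/
lemma exists_pieces_indexed {F : Type*} [CStarAlgebra F] (h : PiecesF F) {n₁ K n₂ : ℕ}
    (h1 : 0 < n₁ * K) (h2 : 4 * (n₁ * K) = n₂) :
    ∃ (d : F) (u : Fin n₁ × Fin K → F) (v : Fin n₂ → F),
      (∀ μ ν, star (u μ) * u ν = if μ = ν then star d * d else 0) ∧
      ∑ p, star (v p) * (star d * d) * v p = 1 := by
  classical
  obtain ⟨d, u, v, hu, hv⟩ := h (Nat.log 2 (2 * (n₁ * K)))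
  have hlo := Nat.pow_log_le_self 2 (x := 2 * (n₁ * K)) (by omega)
  have hhi := Nat.lt_pow_succ_log_self one_lt_two (2 * (n₁ * K))
  rw [Nat.succ_eq_add_one, pow_succ] at hhi
  let ρ : Fin n₁ × Fin K → Fin (2 ^ Nat.log 2 (2 * (n₁ * K))) :=
    fun μ => Fin.castLE (by omega) (finProdFinEquiv μ)
  have hρ : Function.Injective ρ := (Fin.castLE_injective _).comp finProdFinEquiv.injective
  let σ : Fin (2 ^ (Nat.log 2 (2 * (n₁ * K)) + 1)) → Fin n₂ :=
    Fin.castLE (by rw [pow_succ]; omega)
  have hσ : Function.Injective σ := Fin.castLE_injective _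
  refine ⟨d, u ∘ ρ, Function.extend σ v 0, fun μ ν => ?_, ?_⟩
  · refine (hu (ρ μ) (ρ ν)).trans ?_
    simp only [hρ.eq_iff]
  · rw [← hv]
    refine (Fintype.sum_of_injective σ hσ _ _ (fun p hp => ?_) fun p => ?_).symm
    · rw [Function.extend_apply' _ _ _ (by simpa using hp)]; simp
    · rw [hσ.extend_apply]

/-- The square of an element carried by exact pieces, compared with an element fixed by them. -/
lemma norm_carried_le {B Q : Type*} [CStarAlgebra B] [PartialOrder B] [StarOrderedRing B]
    [CStarAlgebra Q] (j : B →⋆ₐ[ℂ] Q) {ι : Type} [Fintype ι] [DecidableEq ι] {n : ℕ} {g e' c : B}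
    (hes : star e' = e') (he1 : ‖e'‖ ≤ 1) {U : ι → Q} {V : Fin n → Q} {D : Q}
    (hUc : ∀ μ, Commute (U μ) (j g)) (hDc : ∀ b, Commute D (j b))
    {T : ι → Fin n → B}
    (hUU : ∀ μ ν q, star (U μ) * U ν * j (g * T ν q)
      = if μ = ν then star D * D * j (g * T ν q) else 0)
    (hTc : ∑ p, star (D * V p) * j c * (D * V p) = j c)
    (hTe : ∑ p, star (D * V p) * j (e' * e') * (D * V p) = j (e' * e'))
    {E : CStarMatrix (Fin n) (Fin n) B} (hE : IsSelfAdjoint E)
    (hEe : ∀ p q, E p q = (∑ μ, star (g * T μ p) * (g * T μ q)) - if p = q then c else 0)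
    (hEc : ∀ p q, e' * E p q * e' = E p q) {r : ℝ} (hr : ‖E‖ ≤ r) :
    ‖star (j g * ∑ μ, ∑ p, U μ * j (T μ p) * V p) * (j g * ∑ μ, ∑ p, U μ * j (T μ p) * V p)
      - j c‖ ≤ r := by
  obtain ⟨W, hWd⟩ : ∃ W : ι → Fin n → B, ∀ μ p, W μ p = g * T μ p :=
    ⟨_, fun _ _ => rfl⟩
  simp only [← hWd] at hUU hEe
  have hs : j g * (∑ μ, ∑ p, U μ * j (T μ p) * V p) = ∑ μ, ∑ p, U μ * j (W μ p) * V p := by
    simp only [Finset.mul_sum, hWd, map_mul, ← mul_assoc, (hUc _).eq]
  have key : ∀ μ ν p q, star (U μ * j (W μ p) * V p) * (U ν * j (W ν q) * V q)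
      = if μ = ν then star (D * V p) * j (star (W μ p) * W μ q) * (D * V q) else 0 := by
    intro μ ν p q
    have e : star (U μ * j (W μ p) * V p) * (U ν * j (W ν q) * V q)
        = star (V p) * (star (j (W μ p)) * (star (U μ) * U ν * j (W ν q))) * V q := by
      simp only [star_mul, mul_assoc]
    rw [e, hUU]
    split_ifs with hμν
    · subst hμν
      have c1 := ((hDc (W μ p)).star_star).eq
      rw [star_mul, map_mul, map_star]
      calc star (V p) * (star (j (W μ p)) * (star D * D * j (W μ q))) * V q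
          = star (V p) * ((star (j (W μ p)) * star D) * (D * j (W μ q))) * V q := by
            simp only [mul_assoc]
        _ = _ := by rw [← c1, (hDc _).eq]; simp only [mul_assoc]
    · simp
  have hss : star (∑ μ, ∑ p, U μ * j (W μ p) * V p) * (∑ μ, ∑ p, U μ * j (W μ p) * V p)
      = ∑ p, ∑ q, star (D * V p) * j (∑ μ, star (W μ p) * W μ q) * (D * V q) :=
    calc _ = ∑ μ, ∑ p, ∑ ν, ∑ q, star (U μ * j (W μ p) * V p) * (U ν * j (W ν q) * V q) := by
          rw [star_sum, Finset.sum_mul]
          refine Finset.sum_congr rfl fun μ _ => ?_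
          rw [star_sum, Finset.sum_mul]
          refine Finset.sum_congr rfl fun p _ => ?_
          rw [Finset.mul_sum]
          exact Finset.sum_congr rfl fun ν _ => Finset.mul_sum _ _ _
      _ = ∑ μ, ∑ p, ∑ q, star (D * V p) * j (star (W μ p) * W μ q) * (D * V q) := by
          simp only [key, Finset.sum_ite_irrel, Finset.sum_const_zero, Finset.sum_ite_eq,
            Finset.mem_univ, if_true]
      _ = _ := by
          rw [Finset.sum_comm]
          refine Finset.sum_congr rfl fun p _ => ?_
          rw [Finset.sum_comm]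
          refine Finset.sum_congr rfl fun q _ => ?_
          rw [map_sum, Finset.mul_sum, Finset.sum_mul]
  have hdiff : star (∑ μ, ∑ p, U μ * j (W μ p) * V p) * (∑ μ, ∑ p, U μ * j (W μ p) * V p) - j c
      = ∑ p, ∑ q, star (j e' * (D * V p)) * j (E p q) * (j e' * (D * V q)) := by
    rw [hss]
    nth_rewrite 1 [← hTc]
    rw [← Finset.sum_sub_distrib]
    refine Finset.sum_congr rfl fun p _ => ?_
    have e1 : star (D * V p) * j c * (D * V p)
        = ∑ q, star (D * V p) * j (if p = q then c else 0) * (D * V q) := by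
      rw [Finset.sum_eq_single p (fun q _ hq => by rw [if_neg hq.symm]; simp)
        (fun h => absurd (Finset.mem_univ p) h), if_pos rfl]
    rw [e1, ← Finset.sum_sub_distrib]
    refine Finset.sum_congr rfl fun q _ => ?_
    rw [← sub_mul, ← mul_sub, ← map_sub, ← hEe]
    nth_rewrite 1 [← hEc p q]
    simp only [map_mul, star_mul, ← map_star, hes, mul_assoc]
  rw [hs, hdiff]
  refine (norm_form_le j hE hr _).trans ?_
  have hsum : ∑ p, star (j e' * (D * V p)) * (j e' * (D * V p)) = j (e' * e') := by
    refine Eq.trans ?_ hTe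
    refine Finset.sum_congr rfl fun p _ => ?_
    simp only [map_mul, star_mul, ← map_star, hes, mul_assoc]
  rw [hsum]
  refine mul_le_of_le_one_right ((norm_nonneg E).trans hr)
    ((NonUnitalStarAlgHom.norm_apply_le j _).trans ?_)
  exact (norm_mul_le _ _).trans (mul_le_one₀ he1 (norm_nonneg _) he1)

variable {A : Type} [NonUnitalCStarAlgebra A]

/-- Orthogonality of the pieces, on the algebra. -/
lemma pieces_orth (w : Ultrafilter ℕ) {a b d : CSeq A w} {x : Unitization ℂ A} (hx : InA x)
    {P : Prop} [Decidable P]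
    (h : star (cls a) * cls b = if P then star (cls d) * cls d else 0) :
    star (toSeq w a) * toSeq w b * iota w x
      = if P then star (toSeq w d) * toSeq w d * iota w x else 0 := by
  obtain ⟨x, rfl⟩ := hx.exists_inr
  have h0 : cls (star a * b) = cls (if P then star d * d else 0) := by
    refine Eq.trans ?_ (Eq.trans h ?_)
    · rfl
    · split_ifs
      · rfl
      · exact (map_zero _).symm
  have h2 := toSeq_mul_of_cls w h0 x
  rw [map_mul, map_star] at h2
  refine h2.trans ?_
  split_ifs
  · rw [map_mul, map_star]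
  · rw [map_zero, zero_mul]

/-- The covering by the pieces, on the algebra. -/
lemma pieces_cover (w : Ultrafilter ℕ) {n : ℕ} {d : CSeq A w} {v : Fin n → CSeq A w}
    (hv : ∑ p, star (cls (v p)) * (star (cls d) * cls d) * cls (v p) = 1)
    {x : Unitization ℂ A} (hx : InA x) :
    ∑ p, star (toSeq w d * toSeq w (v p)) * iota w x * (toSeq w d * toSeq w (v p)) = iota w x := by
  obtain ⟨x, rfl⟩ := hx.exists_inr
  have h0 : cls (∑ p, star (v p) * (star d * d) * v p) = cls (1 : CSeq A w) := by
    refine Eq.trans ?_ (hv.trans (map_one _).symm)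
    refine (map_sum (Ideal.Quotient.mk (annIdeal (inrSet A) w)) _ _).trans ?_
    rfl
  have h2 := toSeq_mul_of_cls w h0 x
  rw [map_one, one_mul, map_sum, Finset.sum_mul] at h2
  refine Eq.trans ?_ h2
  refine Finset.sum_congr rfl fun p _ => ?_
  rw [← map_mul, mul_assoc, ← (toSeq_comm w (d * v p) (x : Unitization ℂ A)).eq, ← mul_assoc,
    ← map_star, ← map_mul]
  simp only [star_mul, mul_assoc]

/-- An array over the algebra, pushed through central pieces, becomes one element at one index. -/
lemma exists_carried [PartialOrder (Unitization ℂ A)] [StarOrderedRing (Unitization ℂ A)]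
    (w : Ultrafilter ℕ) {ι : Type} [Fintype ι] [DecidableEq ι] {n : ℕ} {d : FA A w}
    {u : ι → FA A w} {v : Fin n → FA A w}
    (hu : ∀ μ ν, star (u μ) * u ν = if μ = ν then star d * d else 0)
    (hv : ∑ p, star (v p) * (star d * d) * v p = 1)
    {g e' c : Unitization ℂ A} (hg : InA g) (he : InA e') (hes : star e' = e') (he1 : ‖e'‖ ≤ 1)
    (hc : InA c) (T : ι → Fin n → Unitization ℂ A)
    {E : CStarMatrix (Fin n) (Fin n) (Unitization ℂ A)} (hE : IsSelfAdjoint E)
    (hEe : ∀ p q, E p q
      = (∑ μ, star (g * T μ p) * (g * T μ q)) - if p = q then c else 0)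
    (hEc : ∀ p q, e' * E p q * e' = E p q) {r : ℝ} (hr : ‖E‖ ≤ r) {ε : ℝ} (hε : 0 < ε) :
    ∃ y : Unitization ℂ A, ‖star (g * y) * (g * y) - c‖ ≤ r + ε := by
  obtain ⟨dl, rfl⟩ := Ideal.Quotient.mk_surjective d
  choose ul hul using fun μ => Ideal.Quotient.mk_surjective (u μ)
  choose vl hvl using fun p => Ideal.Quotient.mk_surjective (v p)
  obtain rfl : u = fun μ => cls (ul μ) := funext fun μ => (hul μ).symm
  obtain rfl : v = fun p => cls (vl p) := funext fun p => (hvl p).symm
  have h := norm_carried_le (iota w) (U := fun μ => toSeq w (ul μ)) (V := fun p => toSeq w (vl p))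
    (D := toSeq w dl) hes he1 (fun μ => toSeq_comm w (ul μ) g) (fun b => toSeq_comm w dl b)
    (T := T) (fun μ ν q => pieces_orth w (hg.mul_right _) (hu μ ν))
    (pieces_cover w hv hc) (pieces_cover w hv (he.mul_left _)) hE hEe hEc hr
  obtain ⟨f, hf⟩ : ∃ f, sq w f = ∑ μ, ∑ p, toSeq w (ul μ) * iota w (T μ p) * toSeq w (vl p) :=
    Ideal.Quotient.mk_surjective _
  rw [← hf, iota_apply, iota_apply, ← map_mul, ← map_star, ← map_mul, ← map_sub] at h
  obtain ⟨m, hm⟩ := (eventually_norm_le w h hε).exists
  exact ⟨f m, by simpa using hm⟩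

theorem carrierPin : CarrierPin := by
  intro hM hA A _ w hw hn hP L K hL hK g e' r hg he hes he1 hr k z hz δ hδ hbδ hz1 hz2 p₀ hp ε hε
  let := CStarAlgebra.spectralOrder (Unitization ℂ A)
  have := CStarAlgebra.spectralOrderedRing (Unitization ℂ A)
  obtain ⟨Q, v, hQ, hv⟩ := hA hM A hn 1 (4 * K * L) L one_pos (by positivity) hL k z δ hδ
    (by simpa using hbδ) hz1 hz2
  obtain ⟨d, u, x, hu, hx⟩ := exists_pieces_indexed hP (n₁ := L * 1 * Q) (K := K)
    (n₂ := 4 * K * L * Q) (by positivity) (by ring)
  set S : Fin (L * 1 * Q) → Fin (4 * K * L * Q) → Unitization ℂ A :=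
    fun r p => ∑ i, v i r p • (z i : Unitization ℂ A) with hS
  set c : Unitization ℂ A := ∑ i, star (z i : Unitization ℂ A) * z i with hc
  have hc' : ((∑ i, star (z i) * z i : A) : Unitization ℂ A) = c := by
    rw [hc, show ((∑ i, star (z i) * z i : A) : Unitization ℂ A)
      = Unitization.inrNonUnitalStarAlgHom ℂ A (∑ i, star (z i) * z i) from rfl, map_sum]
    simp
  have heS : ∀ r p, e' * S r p = S r p := fun r p => by
    simp only [hS, Finset.mul_sum, mul_smul_comm, (hz _).1]
  have hSe : ∀ r p, S r p * e' = S r p := fun r p => by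
    simp only [hS, Finset.sum_mul, smul_mul_assoc, (hz _).2]
  have hent : ∀ p q, (SC.gram S - SC.diagConst (4 * K * L * Q) c) p q
      = (∑ r, star (S r p) * S r q) - if p = q then c else 0 := by
    intro p q
    rw [CStarMatrix.sub_apply]; rfl
  obtain ⟨y, hy⟩ := exists_carried w hu hx hg he hes he1 (c := c) (hc' ▸ inA_inr _)
    (fun μ p => r μ.2 * S μ.1 p) (E := SC.gram S - SC.diagConst (4 * K * L * Q) c)
    (by
      refine CStarMatrix.ext fun p q => ?_
      rw [CStarMatrix.star_apply, hent, hent, star_sub, star_sum, apply_ite star, star_zero]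
      congr 1
      · simp
      · rcases eq_or_ne p q with rfl | h
        · simp [hc, star_sum]
        · simp [h, h.symm])
    (fun p q => by
      rw [hent]
      congr 1
      rw [Fintype.sum_prod_type]
      refine Finset.sum_congr rfl fun r' _ => ?_
      nth_rewrite 1 [← heS r' q]
      rw [← hr, Finset.sum_mul, Finset.mul_sum]
      refine Finset.sum_congr rfl fun l _ => ?_
      simp only [star_mul, mul_assoc])
    (fun p q => by
      rw [hent, mul_sub, sub_mul, Finset.mul_sum, Finset.sum_mul]
      congr 1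
      · refine Finset.sum_congr rfl fun r' _ => ?_
        nth_rewrite 2 [← hSe r' q]
        nth_rewrite 2 [← hSe r' p]
        simp only [star_mul, hes, mul_assoc]
      · split_ifs
        · simp only [hc, Finset.mul_sum, Finset.sum_mul]
          refine Finset.sum_congr rfl fun i _ => ?_
          rw [show e' * (star (z i : Unitization ℂ A) * z i) * e'
            = star ((z i : Unitization ℂ A) * e') * ((z i : Unitization ℂ A) * e') by
              simp only [star_mul, hes, mul_assoc], (hz i).2]
        · simp)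
    hv hε
  refine ⟨g * y, hg.mul_right y, ?_, ?_⟩
  · rw [← mul_assoc, hp, sub_self, norm_zero]; exact hε.le
  · rw [hc']; exact hy

end Vale.Agent.P095.W
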