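import Vale.Agent.P095.W.CompareParts

/-!
P095, Theorem W, block W5a: the certificate at a late index. The sums of squares in the central
sequence algebra are lifted, compressed by the given element and slightly shrunk.
-/

namespace Vale.Agent.P095.W

open Filter Vale.Agent.P101 Vale.Agent.P095 Vale.Agent.P095.Rel Vale.Agent.P095.Tracial
open scoped Topology BoundedContinuousFunction

noncomputable local instance cseqCertW {A : Type} [NonUnitalCStarAlgebra A] (w : Ultrafilter ℕ) :
    CStarAlgebra (centralSeq (w : Filter ℕ) (Unitization ℂ A)) :=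
  StarSubalgebra.cstarAlgebra _ (h_closed := isClosed_centralSeq w)

/-- Domination in all traces by a scalar gives sums of squares with small reversed sum. -/
theorem exists_squares_of_trace_small {F : Type} [CStarAlgebra F] (hCert : SC.CertPin.{0}) {a : F}
    (ha : SN.IsPos a) {δ : ℝ} (hδ : 0 < δ)
    (hτ : ∀ τ, IsTraceOn (⊤ : StarSubalgebra ℂ F) τ → (τ a).re ≤ δ) {ε : ℝ} (hε : 0 < ε) :
    ∃ (k : ℕ) (y : Fin k → F), ‖(∑ i, star (y i) * y i) - a‖ ≤ ε ∧
      ‖∑ i, y i * star (y i)‖ ≤ δ + ε := by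
  let := CStarAlgebra.spectralOrder F
  have := CStarAlgebra.spectralOrderedRing F
  have hb : SN.IsPos ((δ : ℂ) • (1 : F)) := by
    refine ⟨(Real.sqrt δ : ℂ) • 1, ?_⟩
    rw [star_smul, star_one, Complex.star_def, Complex.conj_ofReal, smul_mul_smul_comm, one_mul,
      ← Complex.ofReal_mul, Real.mul_self_sqrt hδ.le]
  obtain ⟨k, y, h1, ⟨z, hz⟩⟩ := hCert F a _ ha hb (fun τ h => by
    rw [h.smul _ _ trivial, h.one, mul_one, Complex.ofReal_re]
    exact hτ τ h) ε hε
  refine ⟨k, y, h1, ?_⟩
  have h2 : ∑ i, y i * star (y i) ≤ (δ + ε) • (1 : F) := by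
    rw [← sub_nonneg, add_smul]
    have h := star_mul_self_nonneg z
    rwa [hz, Algebra.algebraMap_eq_smul_one, Complex.coe_smul] at h
  refine (CStarAlgebra.norm_le_norm_of_nonneg_of_le
    (Finset.sum_nonneg fun i _ => mul_star_self_nonneg _) h2).trans ?_
  rcases subsingleton_or_nontrivial F with hs | hn
  · rw [Subsingleton.elim ((δ + ε) • (1 : F)) 0, norm_zero]; positivity
  · rw [norm_smul, norm_one, mul_one, Real.norm_of_nonneg (by positivity)]

variable {A : Type} [NonUnitalCStarAlgebra A] (w : Ultrafilter ℕ)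

/-- A central sequence compressed by a fixed element. -/
noncomputable def compress (c : ℂ) (β : Unitization ℂ A) (f : CSeq A w) :
    ℕ →ᵇ Unitization ℂ A :=
  c • (BoundedContinuousFunction.const ℕ β * (f : ℕ →ᵇ Unitization ℂ A)
    * BoundedContinuousFunction.const ℕ β)

theorem compress_apply (c : ℂ) (β : Unitization ℂ A) (f : CSeq A w) (n : ℕ) :
    compress w c β f n = c • (β * (f : ℕ →ᵇ Unitization ℂ A) n * β) := rfl

theorem sq_compress (c : ℂ) (β : Unitization ℂ A) (f : CSeq A w) :
    sq w (compress w c β f) = c • (iota w β * toSeq w f * iota w β) := by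
  rw [compress, map_smul, map_mul, map_mul]
  rfl

/-- Products of two compressions. -/
theorem compress_mul (c : ℂ) (β : Unitization ℂ A) (f g : CSeq A w) :
    (c • (iota w β * toSeq w f * iota w β)) * (c • (iota w β * toSeq w g * iota w β))
      = (c * c) • (toSeq w (f * g) * iota w (β * β * (β * β))) := by
  rw [smul_mul_smul_comm]
  congr 1
  have h1 : iota w β * toSeq w f = toSeq w f * iota w β := (toSeq_comm w f β).eq.symm
  have h2 : iota w β * toSeq w g = toSeq w g * iota w β := (toSeq_comm w g β).eq.symm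
  have h3 : Commute (iota w β * iota w β) (toSeq w g) :=
    ((toSeq_comm w g β).mul_right (toSeq_comm w g β)).symm
  simp only [map_mul]
  rw [h1, h2]
  calc toSeq w f * iota w β * iota w β * (toSeq w g * iota w β * iota w β)
      = toSeq w f * ((iota w β * iota w β) * toSeq w g) * (iota w β * iota w β) := by
        simp only [mul_assoc]
    _ = _ := by rw [h3.eq]; simp only [mul_assoc]

theorem sq_sum_compress {k : ℕ} (r : ℝ) {β : Unitization ℂ A} (hβ : star β = β)
    (f : Fin k → CSeq A w) :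
    sq w (∑ i, star (compress w (r : ℂ) β (f i)) * compress w (r : ℂ) β (f i))
        = ((r * r : ℝ) : ℂ) • (toSeq w (∑ i, star (f i) * f i) * iota w (β * β * (β * β))) ∧
      sq w (∑ i, compress w (r : ℂ) β (f i) * star (compress w (r : ℂ) β (f i)))
        = ((r * r : ℝ) : ℂ) • (toSeq w (∑ i, f i * star (f i)) * iota w (β * β * (β * β))) := by
  have hι : star (iota w β) = iota w β := by rw [← map_star, hβ]
  have hs : ∀ g : CSeq A w, star ((r : ℂ) • (iota w β * toSeq w g * iota w β))
      = (r : ℂ) • (iota w β * toSeq w (star g) * iota w β) := fun g => by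
    rw [star_smul, star_mul, star_mul, hι, map_star, Complex.star_def, Complex.conj_ofReal,
      mul_assoc]
  constructor
  all_goals
    simp only [map_sum, map_mul, map_star, sq_compress, Finset.sum_mul, Finset.smul_sum]
    refine Finset.sum_congr rfl fun i _ => ?_
    rw [hs, compress_mul, ← Complex.ofReal_mul]
    simp only [map_mul, map_star]

/-- The classes bound the compressed sums. -/
theorem norm_compress_bounds {b : A} (hbs : star b = b) (hb1 : ‖b‖ ≤ 1) {k : ℕ} {r ε d : ℝ}
    (hr : r * r ≤ 1) (hr' : 1 - r * r ≤ 2 * ε) (q : CSeq A w)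
    (hq1 : ‖cls q‖ ≤ 1) (f : Fin k → CSeq A w) (h1 : ‖cls ((∑ i, star (f i) * f i) - q)‖ ≤ ε)
    (h2 : ‖cls (∑ i, f i * star (f i))‖ ≤ d) :
    ‖sq w (∑ i, star (compress w (r : ℂ) (b : Unitization ℂ A) (f i))
        * compress w (r : ℂ) (b : Unitization ℂ A) (f i))‖ ≤ r * r * (1 + ε) ∧
      ‖sq w (∑ i, compress w (r : ℂ) (b : Unitization ℂ A) (f i)
        * star (compress w (r : ℂ) (b : Unitization ℂ A) (f i)))‖ ≤ d ∧
      ‖sq w ((∑ i, star (compress w (r : ℂ) (b : Unitization ℂ A) (f i))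
        * compress w (r : ℂ) (b : Unitization ℂ A) (f i)) - (q : ℕ →ᵇ Unitization ℂ A)
          * BoundedContinuousFunction.const ℕ ((b * b * (b * b) : A) : Unitization ℂ A))‖
        ≤ 3 * ε := by
  set c : A := b * b * (b * b) with hc
  have hcn : ‖c‖ ≤ 1 := by
    have h : ‖b * b‖ ≤ 1 := (norm_mul_le _ _).trans (mul_le_one₀ hb1 (norm_nonneg _) hb1)
    exact (norm_mul_le _ _).trans (mul_le_one₀ h (norm_nonneg _) h)
  have hβ : (b : Unitization ℂ A) * b * (b * b) = (c : Unitization ℂ A) := by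
    simp only [hc, Unitization.inr_mul]
  obtain ⟨e1, e2⟩ := sq_sum_compress w r (β := (b : Unitization ℂ A))
    (by rw [← Unitization.inr_star, hbs]) f
  rw [hβ] at e1 e2
  have hle : ∀ g : CSeq A w, ‖toSeq w g * iota w (c : Unitization ℂ A)‖ ≤ ‖cls g‖ := fun g =>
    (norm_toSeq_mul_le w g c).trans (mul_le_of_le_one_right (norm_nonneg _) hcn)
  set Q := toSeq w q * iota w (c : Unitization ℂ A) with hQ
  set X := toSeq w (∑ i, star (f i) * f i) * iota w (c : Unitization ℂ A) with hX
  have hXQ : ‖X - Q‖ ≤ ε := by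
    rw [hX, hQ, ← sub_mul, ← map_sub]
    exact (hle _).trans h1
  have hQ1 : ‖Q‖ ≤ 1 := (hle q).trans hq1
  have hrr : 0 ≤ r * r := mul_self_nonneg r
  refine ⟨?_, ?_, ?_⟩
  · rw [e1, norm_smul, Complex.norm_real, Real.norm_of_nonneg hrr]
    exact mul_le_mul_of_nonneg_left (by linarith [norm_le_norm_add_norm_sub' X Q]) hrr
  · rw [e2, norm_smul, Complex.norm_real, Real.norm_of_nonneg hrr]
    exact (mul_le_of_le_one_left (norm_nonneg _) hr).trans ((hle _).trans h2)
  · rw [map_sub, map_mul, e1, ← iota_apply, ← toSeq_apply, ← hQ]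
    have e : ((r * r : ℝ) : ℂ) • X - Q
        = ((r * r : ℝ) : ℂ) • (X - Q) - ((1 - r * r : ℝ) : ℂ) • Q := by
      push_cast
      rw [smul_sub, sub_smul, one_smul]
      abel
    rw [e]
    refine (norm_sub_le _ _).trans ?_
    rw [norm_smul, norm_smul, Complex.norm_real, Complex.norm_real, Real.norm_of_nonneg hrr,
      Real.norm_of_nonneg (sub_nonneg.2 hr)]
    nlinarith [norm_nonneg (X - Q), norm_nonneg Q]

/-- Evaluations of compressions are in the algebra and form the sums. -/
theorem exists_values {b : A} {k : ℕ} (c : ℂ) (f : Fin k → CSeq A w) (n : ℕ) :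
    ∃ z : Fin k → A,
      (∀ e : Unitization ℂ A, e * (b : Unitization ℂ A) = b → (b : Unitization ℂ A) * e = b →
        ∀ i, e * (z i : Unitization ℂ A) = z i ∧ (z i : Unitization ℂ A) * e = z i) ∧
      ((∑ i, star (z i) * z i : A) : Unitization ℂ A)
        = (∑ i, star (compress w c (b : Unitization ℂ A) (f i))
          * compress w c (b : Unitization ℂ A) (f i)) n ∧
      ((∑ i, z i * star (z i) : A) : Unitization ℂ A)
        = (∑ i, compress w c (b : Unitization ℂ A) (f i)
          * star (compress w c (b : Unitization ℂ A) (f i))) n := by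
  refine ⟨fun i => (compress w c (b : Unitization ℂ A) (f i) n).snd, ?_⟩
  have hA : ∀ i, (((compress w c (b : Unitization ℂ A) (f i) n).snd : A) : Unitization ℂ A)
      = compress w c (b : Unitization ℂ A) (f i) n := fun i => by
    refine Unitization.ext ?_ (Unitization.snd_inr ℂ _)
    simp [compress_apply]
  have hinr : ∀ g : Fin k → A,
      ((∑ i, g i : A) : Unitization ℂ A) = ∑ i, (g i : Unitization ℂ A) := fun g =>
    map_sum (Unitization.inrNonUnitalStarAlgHom ℂ A) g _
  refine ⟨fun e he he' i => ?_, ?_, ?_⟩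
  · rw [hA, compress_apply, mul_smul_comm, smul_mul_assoc, ← mul_assoc, ← mul_assoc, he,
      mul_assoc _ (b : Unitization ℂ A) e, he']
    exact ⟨rfl, rfl⟩
  all_goals
    simp only [hinr, Unitization.inr_mul, Unitization.inr_star, hA,
      BoundedContinuousFunction.coe_sum, Finset.sum_apply, BoundedContinuousFunction.coe_mul,
      BoundedContinuousFunction.coe_star, Pi.mul_apply, Pi.star_apply]

/-- W5a: the certificate at a late index. -/
theorem certWPin : CertWPin := by
  intro hCert A _ w _ b hbs hb1 δ hδ q hq hq1 hτ η hη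
  obtain ⟨ε, hε, hεη, hε1⟩ : ∃ ε : ℝ, 0 < ε ∧ 4 * ε ≤ η ∧ ε ≤ 1 / 4 :=
    ⟨min (η / 4) (1 / 4), lt_min (by positivity) (by norm_num),
      by linarith [min_le_left (η / 4) (1 / 4)], min_le_right _ _⟩
  obtain ⟨k, y, hy1, hy2⟩ := exists_squares_of_trace_small hCert hq hδ hτ hε
  choose f hf using fun i => Ideal.Quotient.mk_surjective (I := annIdeal (inrSet A) w) (y i)
  obtain ⟨κ, hκ, hκ1, hκ2⟩ : ∃ κ : ℝ,
      κ * κ = 1 / (1 + 2 * ε) ∧ κ * κ ≤ 1 ∧ 1 - κ * κ ≤ 2 * ε := by
    have h : 1 / (1 + 2 * ε) ≤ 1 := by rw [div_le_one (by positivity)]; linarith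
    have h' : 1 - 1 / (1 + 2 * ε) ≤ 2 * ε := by
      rw [sub_le_iff_le_add, ← sub_le_iff_le_add', le_div_iff₀ (by positivity)]
      nlinarith
    exact ⟨Real.sqrt (1 / (1 + 2 * ε)), Real.mul_self_sqrt (by positivity),
      by rwa [Real.mul_self_sqrt (by positivity)], by rwa [Real.mul_self_sqrt (by positivity)]⟩
  have hcls : ∀ g : CSeq A w, cls g = quotHom (annIdeal (inrSet A) w) g := fun g => rfl
  have hy : ∀ i, quotHom (annIdeal (inrSet A) w) (f i) = y i := hf
  have h1 : ‖cls ((∑ i, star (f i) * f i) - q)‖ ≤ ε := by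
    rw [hcls, map_sub, map_sum]
    simp only [map_mul, map_star, hy]
    exact hy1
  have h2 : ‖cls (∑ i, f i * star (f i))‖ ≤ δ + ε := by
    rw [hcls, map_sum]
    simp only [map_mul, map_star, hy]
    exact hy2
  obtain ⟨n1, n2, n3⟩ := norm_compress_bounds w hbs hb1 hκ1 hκ2 q
    ((Submodule.Quotient.norm_mk_le _ q).trans hq1) f h1 h2
  obtain ⟨ε', hε', hgap⟩ : ∃ ε' : ℝ, 0 < ε' ∧ κ * κ * (1 + ε) + ε' ≤ 1 := by
    refine ⟨ε / (1 + 2 * ε), by positivity, ?_⟩
    rw [hκ, div_mul_eq_mul_div, ← add_div, div_le_one (by positivity)]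
    linarith
  filter_upwards [eventually_norm_le w n1 hε', eventually_norm_le w n2 hε,
    eventually_norm_le w n3 hε] with n e1 e2 e3
  obtain ⟨z, hz, hz1, hz2⟩ := exists_values w (b := b) (κ : ℂ) f n
  refine ⟨k, z, hz, ?_, ?_, ?_⟩
  · rw [← Unitization.norm_inr (𝕜 := ℂ), hz1]
    exact e1.trans hgap
  · rw [← Unitization.norm_inr (𝕜 := ℂ), hz2]
    linarith
  · rw [hz1]
    simp only [BoundedContinuousFunction.coe_sub, BoundedContinuousFunction.coe_mul,
      Pi.sub_apply, Pi.mul_apply, BoundedContinuousFunction.const_apply] at e3 ⊢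
    linarith

end Vale.Agent.P095.W
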