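import Vale.Agent.P095.W.CompareParts

/-!
P095, Theorem W, block W5: the support at one index, and the roots below it at late indices
(notes/P095/helper5_W.md).
-/

namespace Vale.Agent.P095.W

open Filter Vale.Agent.P101 Vale.Agent.P095 Vale.Agent.P095.Rel Vale.Agent.P095.Tracial
open Vale.Agent.P095.SI Vale.Agent.P095.SN
open scoped Topology BoundedContinuousFunction

variable {A : Type} [NonUnitalCStarAlgebra A]

noncomputable local instance stageCStar (w : Ultrafilter ℕ) :
    CStarAlgebra (centralSeq (w : Filter ℕ) (Unitization ℂ A)) :=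
  StarSubalgebra.cstarAlgebra _ (h_closed := isClosed_centralSeq w)

lemma cls_mul {w : Ultrafilter ℕ} (a b : CSeq A w) : cls (a * b) = cls a * cls b :=
  map_mul (Ideal.Quotient.mk (annIdeal (inrSet A) w)) a b

lemma cls_star {w : Ultrafilter ℕ} (a : CSeq A w) : cls (star a) = star (cls a) :=
  map_star (quotHom (annIdeal (inrSet A) w)) a

/-- The positive element of the algebra built at one index from a root of a class and a fixed
element. -/
noncomputable def supp {w : Ultrafilter ℕ} (f : CSeq A w) (g : A) (m : ℕ) : Unitization ℂ A :=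
  star ((f : ℕ →ᵇ Unitization ℂ A) m * (g : Unitization ℂ A))
    * ((f : ℕ →ᵇ Unitization ℂ A) m * (g : Unitization ℂ A))

/-- The support built at a late index has large norm and is almost fixed by a central unit of the
class. -/
lemma eventually_support (hI : IsometryPin) {w : Ultrafilter ℕ} (hw : (w : Filter ℕ) ≤ cofinite)
    (hS : IsTopSimple A) {E f c : CSeq A w} (hf : cls (star f * f) = cls c)
    (hc : ‖cls c‖ = 1) (hE : cls E * cls c = cls c) {g : A} (hg : star g = g) (hg1 : ‖g‖ = 1)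
    {η : ℝ} (hη : 0 < η) :
    ∀ᶠ m in (w : Filter ℕ), 3 / 4 ≤ ‖supp f g m‖ ∧
      ‖(E : ℕ →ᵇ Unitization ℂ A) m * supp f g m - supp f g m‖ ≤ η := by
  set gB : Unitization ℂ A := (g : Unitization ℂ A) with hgB
  have hgs : star gB = gB := by rw [hgB, ← Unitization.inr_star, hg]
  have h1 := hI A w hw hS f g
  have hn : ‖cls f‖ = 1 := by
    have e : star (cls f) * cls f = cls c := by rw [← hf, cls_mul, cls_star]
    have h : ‖cls f‖ * ‖cls f‖ = 1 := by
      rw [← CStarRing.norm_star_mul_self, e, hc]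
    nlinarith [norm_nonneg (cls f)]
  rw [hn, hg1, one_mul] at h1
  have ev1 : ∀ᶠ m in (w : Filter ℕ), 3 / 4 ≤ ‖supp f g m‖ := by
    filter_upwards [h1.eventually (eventually_gt_nhds (show (7 : ℝ) / 8 < 1 by norm_num))] with m hm
    rw [supp, CStarRing.norm_star_mul_self]
    nlinarith
  set Gs := star (toSeq w f * iota w gB) * (toSeq w f * iota w gB) with hGs
  have key : toSeq w E * Gs = Gs := by
    have e1 : Gs = toSeq w (star f * f) * iota w gB * iota w gB := by
      have hc : iota w gB * toSeq w (star f) = toSeq w (star f) * iota w gB :=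
        (toSeq_comm w (star f) gB).symm.eq
      rw [hGs, map_mul, star_mul, ← map_star, ← map_star, hgs, hc]
      simp only [mul_assoc]
      rw [← mul_assoc (iota w gB) (toSeq w f), (toSeq_comm w f gB).symm.eq, mul_assoc]
    have e2 : toSeq w (E * (star f * f)) * iota w gB = toSeq w (star f * f) * iota w gB := by
      refine toSeq_mul_of_cls w ?_ g
      show cls (E * (star f * f)) = cls (star f * f)
      rw [cls_mul, hf, hE]
    rw [e1, ← mul_assoc, ← mul_assoc, ← map_mul, e2]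
  have hseq : sq w ((E : ℕ →ᵇ Unitization ℂ A)
      * (star ((f : ℕ →ᵇ Unitization ℂ A) * BoundedContinuousFunction.const ℕ gB)
        * ((f : ℕ →ᵇ Unitization ℂ A) * BoundedContinuousFunction.const ℕ gB))
      - star ((f : ℕ →ᵇ Unitization ℂ A) * BoundedContinuousFunction.const ℕ gB)
        * ((f : ℕ →ᵇ Unitization ℂ A) * BoundedContinuousFunction.const ℕ gB)) = 0 := by
    simp only [map_sub, map_mul, map_star, ← toSeq_apply, ← iota_apply]
    rw [sub_eq_zero]
    exact key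
  filter_upwards [ev1, eventually_norm_le w (r := 0) (le_of_eq (by rw [hseq, norm_zero])) hη]
    with m hm1 hm2
  refine ⟨hm1, ?_⟩
  simpa [supp, hgB] using hm2

lemma norm_pow_four_sub_le {F : Type*} [CStarAlgebra F] {b y : F} (hb : ‖b‖ ≤ 1) {t : ℝ}
    (h : ‖b * y - y‖ ≤ t) : ‖b * b * (b * b) * y - y‖ ≤ 4 * t := by
  have hm : ∀ z : F, ‖b * z‖ ≤ ‖z‖ := fun z =>
    (norm_mul_le _ _).trans (mul_le_of_le_one_left (norm_nonneg _) hb)
  rw [show b * b * (b * b) * y - y = b * (b * (b * (b * y - y))) + b * (b * (b * y - y))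
    + (b * (b * y - y) + (b * y - y)) by simp only [mul_sub, mul_assoc]; abel]
  refine (norm_add_le _ _).trans ((add_le_add (norm_add_le _ _) (norm_add_le _ _)).trans ?_)
  linarith [hm (b * y - y), hm (b * (b * y - y)), hm (b * (b * (b * y - y)))]

/-- An almost unit of a finite set below a positive element, with its realisation. -/
lemma exists_absorber_set (hS : IsTopSimple A) {g : Unitization ℂ A} (hg : InA g) (hg0 : g ≠ 0)
    (X : Finset (Unitization ℂ A)) (hX : ∀ x ∈ X, InA x) {η : ℝ} (hη : 0 < η) :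
    ∃ (K : ℕ) (r : Fin K → Unitization ℂ A) (e' : Unitization ℂ A) (b : A), 0 < K ∧
      (∑ l, star (g * r l) * (g * r l)) = e' ∧ star e' = e' ∧ ‖e'‖ ≤ 1 ∧ InA e' ∧
      star b = b ∧ ‖b‖ ≤ 1 ∧ e' * (b : Unitization ℂ A) = b ∧ (b : Unitization ℂ A) * e' = b ∧
      ∀ x ∈ X, ‖((b * b * (b * b) : A) : Unitization ℂ A) * x - x‖ ≤ η ∧
        ‖x * ((b * b * (b * b) : A) : Unitization ℂ A) - x‖ ≤ η := by
  classical
  set M : ℝ := ∑ x ∈ X, ‖x‖ with hM
  have hM0 : 0 ≤ M := Finset.sum_nonneg fun x _ => norm_nonneg x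
  set t : ℝ := η / (4 * (M + 2)) with ht
  have ht0 : 0 < t := by positivity
  obtain ⟨e, hes, he1, hex⟩ := exists_unit (X.image fun x => x.snd) ht0
  set eB : Unitization ℂ A := (e : Unitization ℂ A) with heB
  have heBs : star eB = eB := by rw [heB, ← Unitization.inr_star, hes]
  obtain ⟨K, r, e', bB, hK, hsum, he's, he'1, he'A, hbs, hb1, hbA, heb, hbe⟩ :=
    exists_absorber hS hg hg0 (inA_inr e) heBs ht0
  obtain ⟨b, rfl⟩ := hbA.exists_inr
  have hb2 : ‖eB * (b : Unitization ℂ A) - eB‖ ≤ t := by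
    rw [← norm_star, star_sub, star_mul, hbs, heBs]
    exact hbe
  refine ⟨K, r, e', b, hK, hsum, he's, he'1, he'A,
    Unitization.inr_injective (R := ℂ) (by rw [Unitization.inr_star]; exact hbs),
    (Unitization.norm_inr (𝕜 := ℂ) b).symm.le.trans hb1, heb, ?_, fun x hx => ?_⟩
  · have := congrArg star heb
    rwa [star_mul, hbs, he's] at this
  obtain ⟨xa, rfl⟩ := (hX x hx).exists_inr
  have hxe := hex xa (Finset.mem_image.2 ⟨(xa : Unitization ℂ A), hx, Unitization.snd_inr ℂ xa⟩)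
  have hx1 : ‖eB * (xa : Unitization ℂ A) - xa‖ ≤ t := by
    rw [heB, ← Unitization.inr_mul, ← Unitization.inr_sub, Unitization.norm_inr]; exact hxe.1
  have hx2 : ‖(xa : Unitization ℂ A) * eB - xa‖ ≤ t := by
    rw [heB, ← Unitization.inr_mul, ← Unitization.inr_sub, Unitization.norm_inr]; exact hxe.2
  set xB : Unitization ℂ A := (xa : Unitization ℂ A) with hxB
  set bB : Unitization ℂ A := (b : Unitization ℂ A) with hbB
  have hxM : ‖xB‖ ≤ M := Finset.single_le_sum (fun z _ => norm_nonneg z) hx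
  have hbm : ∀ z, ‖bB * z‖ ≤ ‖z‖ := fun z =>
    (norm_mul_le _ _).trans (mul_le_of_le_one_left (norm_nonneg _) hb1)
  have k1 : ‖bB * xB - xB‖ ≤ η / 4 := by
    rw [show bB * xB - xB = (bB * eB - eB) * xB - bB * (eB * xB - xB) + (eB * xB - xB) by
      noncomm_ring]
    refine (norm_add_le _ _).trans ((add_le_add (norm_sub_le _ _) le_rfl).trans ?_)
    have h1 := (norm_mul_le (bB * eB - eB) xB).trans (mul_le_mul hbe hxM (norm_nonneg _) ht0.le)
    have h2 := hbm (eB * xB - xB)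
    have h3 : t * (M + 2) = η / 4 := by rw [ht]; field_simp
    linarith
  have k2 : ‖bB * star xB - star xB‖ ≤ η / 4 := by
    rw [show bB * star xB - star xB = star (xB * bB - xB) by rw [star_sub, star_mul, hbs],
      norm_star, show xB * bB - xB = xB * (eB * bB - eB) - (xB * eB - xB) * bB + (xB * eB - xB) by
        noncomm_ring]
    refine (norm_add_le _ _).trans ((add_le_add (norm_sub_le _ _) le_rfl).trans ?_)
    have h1 := (norm_mul_le xB (eB * bB - eB)).trans (mul_le_mul hxM hb2 (norm_nonneg _) hM0)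
    have h2 := (norm_mul_le (xB * eB - xB) bB).trans (mul_le_of_le_one_right (norm_nonneg _) hb1)
    have h3 : t * (M + 2) = η / 4 := by rw [ht]; field_simp
    linarith
  simp only [Unitization.inr_mul, ← hbB]
  refine ⟨(norm_pow_four_sub_le hb1 k1).trans (by linarith), ?_⟩
  rw [← norm_star, star_sub, star_mul, star_mul, star_mul, hbs]
  exact (norm_pow_four_sub_le hb1 k2).trans (by linarith)

/-- At late indices a trace-small element has roots in the range of a support. -/
lemma eventually_root (hC : CertWPin) (hK : CarrierPin) (hCert : SC.CertPin.{0})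
    (hM : SC.MatrixPin) (hAmp : AmplifyAPin) {w : Ultrafilter ℕ}
    (hw : (w : Filter ℕ) ≤ cofinite) (hS : IsTopSimple A) (hN : IsNuclearA A)
    (hP : PiecesF (FA A w)) {x₀ G : Unitization ℂ A} (hx₀ : InA x₀) (hG : G = star x₀ * x₀)
    (hG3 : 3 / 4 ≤ ‖G‖) (X : Finset (Unitization ℂ A)) (hX : ∀ x ∈ X, InA x) {e : ℝ}
    (he : 0 < e) (he1 : e ≤ 1) :
    ∃ δ : ℝ, 0 < δ ∧ ∀ q : CSeq A w, IsPos (cls q) → ‖q‖ ≤ 1 →
      (∀ τ, IsTraceOn (⊤ : StarSubalgebra ℂ (FA A w)) τ → (τ (cls q)).re ≤ δ) →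
      ∀ᶠ n in (w : Filter ℕ), ∃ w₀ f : Unitization ℂ A, ‖w₀‖ ≤ 4 ∧ InA (G * w₀) ∧
        ‖G * w₀‖ ≤ 2 ∧ ‖f‖ ≤ 1 ∧ ‖star (G * w₀) * (G * w₀) - f‖ ≤ e ∧
        ∀ x ∈ X, ‖f * x - (q : ℕ →ᵇ Unitization ℂ A) n * x‖ ≤ e ∧
          ‖x * f - (q : ℕ →ᵇ Unitization ℂ A) n * x‖ ≤ e := by
  let := CStarAlgebra.spectralOrder (Unitization ℂ A)
  have := CStarAlgebra.spectralOrderedRing (Unitization ℂ A)
  have hG0 : 0 ≤ G := hG ▸ star_mul_self_nonneg x₀
  obtain ⟨g, hgg, ρ, hρ, hρg⟩ := exists_level hG0 (show (0 : ℝ) < 1 / 2 by norm_num)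
  have hgA : InA g := by
    rw [← hρg]
    exact ((hG ▸ hx₀.mul_left (star x₀) : InA G).mul_right _).mul_right _
  have hg0 : g ≠ 0 := fun h0 => by
    obtain ⟨-, -, h2⟩ := cut_spec (show (0 : ℝ) ≤ 1 / 2 by norm_num) hG0
    rw [← hgg, h0, mul_zero, zero_sub, norm_neg] at h2
    linarith
  obtain ⟨K, r, e', b, hK0, hsum, he's, he'1, he'A, hbs, hb1, heb, hbe, hbX⟩ :=
    exists_absorber_set hS hgA hg0 X hX (show 0 < e / 4 by positivity)
  set L : ℕ := ⌈(240 / e) ^ 2⌉₊ + 1 with hL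
  have hL0 : 0 < L := Nat.succ_pos _
  have hLe : 30 / Real.sqrt L ≤ e / 8 := by
    have h1 : (240 / e) ^ 2 ≤ (L : ℝ) := by
      rw [hL]; push_cast; linarith [Nat.le_ceil ((240 / e) ^ 2)]
    have h2 : 240 / e ≤ Real.sqrt L := Real.le_sqrt_of_sq_le h1
    rw [div_le_iff₀ (Real.sqrt_pos.2 (by exact_mod_cast hL0))]
    rw [div_le_iff₀ he] at h2
    nlinarith
  set δ : ℝ := 1 / (16 * K * L) with hδ
  have hKR : (0 : ℝ) < K := by exact_mod_cast hK0
  have hLR : (0 : ℝ) < L := by exact_mod_cast hL0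
  refine ⟨δ, by positivity, fun q hq hq1 hqτ => ?_⟩
  have hev := hC hCert A w hw b hbs hb1 δ (by positivity) q hq hq1 hqτ (min δ (e / 8))
    (lt_min (by positivity) (by positivity))
  have hcomm : ∀ᶠ n in (w : Filter ℕ), ∀ x ∈ X,
      ‖(q : ℕ →ᵇ Unitization ℂ A) n * x - x * (q : ℕ →ᵇ Unitization ℂ A) n‖ ≤ e / 4 := by
    rw [Finset.eventually_all]
    intro x _
    filter_upwards [Metric.tendsto_nhds.1 (q.2 x) (e / 4) (by positivity)] with n hn
    rw [dist_zero_right] at hn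
    exact hn.le
  filter_upwards [hev, hcomm] with n ⟨k, z, hz, hz1, hz2, hzq⟩ hqx
  set qn := (q : ℕ →ᵇ Unitization ℂ A) n with hqn
  have hδ' : ((4 * K * L : ℕ) : ℝ) * (δ + min δ (e / 8)) < 1 := by
    have h1 : min δ (e / 8) ≤ δ := min_le_left _ _
    have h2 : ((4 * K * L : ℕ) : ℝ) * δ = 1 / 4 := by rw [hδ]; push_cast; field_simp; norm_num
    nlinarith [show (0 : ℝ) ≤ ((4 * K * L : ℕ) : ℝ) from Nat.cast_nonneg _]
  obtain ⟨v, hvA, hpv, hvf⟩ := hK hM hAmp A w hw hN hP L K hL0 hK0 g e' r hgA he'A he's he'1 hsum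
    k z (hz e' heb hbe) (δ + min δ (e / 8)) (add_pos (by positivity) (lt_min (by positivity)
      (by positivity))) hδ' hz1 hz2 (G * ρ) hρg (e / 32) (by positivity)
  set b4 : Unitization ℂ A := ((b * b * (b * b) : A) : Unitization ℂ A) with hb4
  have hqn1 : ‖qn‖ ≤ 1 := ((q : ℕ →ᵇ Unitization ℂ A).norm_coe_le_norm n).trans hq1
  have hb4n : ‖b4‖ ≤ 1 := by
    rw [hb4, Unitization.norm_inr]
    have hbb : ‖b * b‖ ≤ 1 := (norm_mul_le _ _).trans (mul_le_one₀ hb1 (norm_nonneg _) hb1)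
    exact (norm_mul_le _ _).trans (mul_le_one₀ hbb (norm_nonneg _) hbb)
  have hf1 : ‖qn * b4‖ ≤ 1 := (norm_mul_le _ _).trans (mul_le_one₀ hqn1 (norm_nonneg _) hb4n)
  have hvf' : ‖star v * v - qn * b4‖ ≤ e / 4 + e / 32 := by
    refine (norm_sub_le_norm_sub_add_norm_sub _
      ((∑ i, star (z i) * z i : A) : Unitization ℂ A) _).trans ?_
    linarith [(min_le_right δ (e / 8))]
  have hv : ‖v‖ ≤ 3 / 2 := by
    have h1 : ‖v‖ * ‖v‖ ≤ 1 + (e / 4 + e / 32) := by
      rw [← CStarRing.norm_star_mul_self]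
      linarith [norm_le_norm_add_norm_sub' (star v * v) (qn * b4)]
    nlinarith [norm_nonneg v]
  have hGw : ‖G * (ρ * v) - v‖ ≤ e / 32 := by rwa [← mul_assoc]
  have hGwn : ‖G * (ρ * v)‖ ≤ 2 := by
    linarith [norm_le_norm_add_norm_sub' (G * (ρ * v)) v]
  refine ⟨ρ * v, qn * b4, ?_, by rw [← mul_assoc]; exact hvA.mul_left _, hGwn, hf1, ?_,
    fun x hx => ⟨?_, ?_⟩⟩
  · refine (norm_mul_le _ _).trans ((mul_le_mul hρ hv (norm_nonneg _) (by norm_num)).trans ?_)
    norm_num
  · set v' := G * (ρ * v) with hv'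
    refine (norm_sub_le_norm_sub_add_norm_sub _ (star v * v) _).trans ?_
    have h1 : ‖star v' * v' - star v * v‖ ≤ e / 32 * 2 + 2 * (e / 32) := by
      rw [show star v' * v' - star v * v = star (v' - v) * v' + star v * (v' - v) by
        rw [star_sub, sub_mul, mul_sub]; abel]
      refine (norm_add_le _ _).trans (add_le_add ?_ ?_) <;> refine (norm_mul_le _ _).trans ?_
      · rw [norm_star]; exact mul_le_mul hGw hGwn (norm_nonneg _) (by positivity)
      · rw [norm_star]; exact mul_le_mul (by linarith) hGw (norm_nonneg _) zero_le_two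
    linarith
  · rw [mul_assoc, ← mul_sub]
    refine (norm_mul_le _ _).trans ((mul_le_of_le_one_left (norm_nonneg _) hqn1).trans ?_)
    linarith [(hbX x hx).1]
  · rw [show x * (qn * b4) - qn * x = -((qn * x - x * qn) * b4) + qn * (x * b4 - x) by
      noncomm_ring]
    refine (norm_add_le _ _).trans ?_
    rw [norm_neg]
    have h1 := (norm_mul_le (qn * x - x * qn) b4).trans (mul_le_of_le_one_right (norm_nonneg _) hb4n)
    have h2 := (norm_mul_le qn (x * b4 - x)).trans (mul_le_of_le_one_left (norm_nonneg _) hqn1)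
    linarith [hqx x hx, (hbX x hx).2]

end Vale.Agent.P095.W
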