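import Vale.Agent.P095.W.CompareSol
import Vale.Agent.P095.W.CompareStage

/-!
P095, Theorem W, block W5: the comparison from the two inner steps
(notes/P095/helper5_W.md).
-/

namespace Vale.Agent.P095.W

open Filter Vale.Agent.P101 Vale.Agent.P095 Vale.Agent.P095.Rel Vale.Agent.P095.Tracial
open Vale.Agent.P095.SI Vale.Agent.P095.SN
open scoped Topology BoundedContinuousFunction

noncomputable local instance compareCStar {A : Type} [NonUnitalCStarAlgebra A]
    (w : Ultrafilter ℕ) : CStarAlgebra (centralSeq (w : Filter ℕ) (Unitization ℂ A)) :=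
  StarSubalgebra.cstarAlgebra _ (h_closed := isClosed_centralSeq w)

variable {A : Type} [NonUnitalCStarAlgebra A]

lemma inr_sum {ι : Type*} (s : Finset ι) (f : ι → A) :
    ((∑ i ∈ s, f i : A) : Unitization ℂ A) = ∑ i ∈ s, (f i : Unitization ℂ A) :=
  map_sum (Unitization.inrNonUnitalStarAlgHom ℂ A) f s

/-- The factorization read in the unitization. -/
lemma factor_inr {N : ℕ} (c d : Fin N → A) (l : Fin N → Fin N → ℂ) (h a : A) :
    ‖(∑ i, ∑ j, l i j • (star (c i : Unitization ℂ A) * (c j : Unitization ℂ A)))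
        - (a : Unitization ℂ A)‖ = ‖(∑ i, ∑ j, l i j • (star (c i) * c j)) - a‖ ∧
      ∀ i j, ‖(h : Unitization ℂ A) * (star (d i : Unitization ℂ A) * a * d j) * h
        - l i j • ((h : Unitization ℂ A) * h)‖
        = ‖h * (star (d i) * a * d j) * h - l i j • (h * h)‖ := by
  constructor
  · rw [← Unitization.norm_inr (𝕜 := ℂ) ((∑ i, ∑ j, l i j • (star (c i) * c j)) - a),
      Unitization.inr_sub]
    simp only [inr_sum, Unitization.inr_smul, Unitization.inr_mul, Unitization.inr_star]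
  · intro i j
    rw [← Unitization.norm_inr (𝕜 := ℂ) (h * (star (d i) * a * d j) * h - l i j • (h * h))]
    simp only [Unitization.inr_sub, Unitization.inr_smul, Unitization.inr_mul, Unitization.inr_star]

/-- The data before the index: almost unit, factorization, margins. -/
structure Setup (S : Finset A) (ε : ℝ) where
  /-- The number of terms. -/
  N : ℕ
  /-- The almost unit. -/
  u : Unitization ℂ A
  /-- The outer coefficients. -/
  c : Fin N → Unitization ℂ A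
  /-- The inner coefficients. -/
  d : Fin N → Unitization ℂ A
  /-- The values. -/
  l : Unitization ℂ A → Fin N → Fin N → ℂ
  /-- The carrier of the values. -/
  h : Unitization ℂ A
  /-- The set on which values are taken. -/
  X : Finset (Unitization ℂ A)
  /-- The margin. -/
  κ : ℝ
  hκ : 0 < κ
  hκ1 : κ ≤ 1 / 16
  hκε : 10 * κ * (1 + ∑ a ∈ S, ‖a‖) ≤ ε
  hκε2 : 10 * κ * (1 + ∑ a ∈ S, ‖a‖) * (1 + 3 * ∑ a ∈ S, ‖a‖) ≤ ε ^ 2
  hκε3 : 4 * κ ≤ ε
  uA : InA u
  hu : star u = u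
  hu1 : ‖u‖ ≤ 1
  cA : ∀ i, InA (c i)
  XA : ∀ x ∈ X, InA x
  hh : star h = h
  huu : u * u ∈ X
  hX : ∀ a ∈ S, ∀ y ∈ [star (a : Unitization ℂ A) * a, star (a : Unitization ℂ A),
    (a : Unitization ℂ A)], u * y * u ∈ X ∧ ‖u * y * u - y‖ ≤ 2 * κ
  hua : ∀ a ∈ S, ‖u * u * (a : Unitization ℂ A) - a‖ ≤ 2 * κ
  hfac : ∀ x ∈ X, ‖(∑ i, ∑ j, l x i j • (star (c i) * c j)) - x‖ ≤ κ ∧
    ∑ i, ∑ j, ‖c i‖ * ‖c j‖ * ‖h * (star (d i) * x * d j) * h - l x i j • (h * h)‖ ≤ κ
  /-- The first element under the carrier. -/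
  g : A
  /-- The second element under the carrier. -/
  g' : A
  hg : star g = g
  hg' : star g' = g'
  hg1 : ‖g‖ = 1
  hg1' : ‖g'‖ = 1
  hhg : h * (g : Unitization ℂ A) = g
  hhg' : h * (g' : Unitization ℂ A) = g'
  hgg : g * g' = 0

/-- The data exist. -/
lemma exists_setup (hsp : HasSplit A) (hF : FactorA A) (S : Finset A) {ε : ℝ} (hε : 0 < ε) :
    Nonempty (Setup S ε) := by
  classical
  set M : ℝ := ∑ a ∈ S, ‖a‖ with hM
  have hM0 : 0 ≤ M := Finset.sum_nonneg fun a _ => norm_nonneg a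
  obtain ⟨κ, hκ, h1, h2, h3, h4⟩ : ∃ κ : ℝ, 0 < κ ∧ κ ≤ 1 / 16 ∧ 10 * κ * (1 + M) ≤ ε ∧
      10 * κ * (1 + M) * (1 + 3 * M) ≤ ε ^ 2 ∧ 4 * κ ≤ ε := by
    refine ⟨min (min (1 / 16) (ε / 4)) (min (ε / (10 * (1 + M)))
      (ε ^ 2 / (10 * (1 + M) * (1 + 3 * M)))), lt_min (lt_min (by norm_num) (by positivity))
      (lt_min (by positivity) (by positivity)), (min_le_left _ _).trans (min_le_left _ _), ?_, ?_,
      ?_⟩
    · have h := (le_div_iff₀ (show 0 < 10 * (1 + M) by positivity)).1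
        ((min_le_right (min (1 / 16) (ε / 4)) _).trans (min_le_left (ε / (10 * (1 + M)))
          (ε ^ 2 / (10 * (1 + M) * (1 + 3 * M)))))
      linarith
    · have h := (le_div_iff₀ (show 0 < 10 * (1 + M) * (1 + 3 * M) by positivity)).1
        ((min_le_right (min (1 / 16) (ε / 4)) _).trans (min_le_right (ε / (10 * (1 + M)))
          (ε ^ 2 / (10 * (1 + M) * (1 + 3 * M)))))
      linarith
    · have h := (min_le_left (min (1 / 16) (ε / 4)) (min (ε / (10 * (1 + M)))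
          (ε ^ 2 / (10 * (1 + M) * (1 + 3 * M))))).trans (min_le_right _ _)
      linarith
  set S' : Finset A := S.image (fun a => star a * a) ∪ S.image star ∪ S with hS'
  set M' : ℝ := ∑ y ∈ S', ‖y‖ with hM'
  obtain ⟨u, hus, hu1, hux⟩ := exists_unit S' hκ
  set S'' : Finset A := S'.image (fun y => u * y * u) ∪ {u * u} with hS''
  obtain ⟨N, c, d, lam, h, h₀, hpair, hfac⟩ := hF S'' κ hκ
  obtain ⟨g, g', hg, hg', hg1, hg1', hhg, hhg', hgg⟩ := hsp h h₀ hpair
  obtain ⟨z, hz⟩ := hpair.1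
  have hun : ‖(u : Unitization ℂ A)‖ ≤ 1 := by rwa [Unitization.norm_inr]
  refine ⟨{ N := N, u := (u : Unitization ℂ A), c := fun i => (c i : Unitization ℂ A),
            d := fun i => (d i : Unitization ℂ A), l := fun x => lam x.snd,
            h := (h : Unitization ℂ A),
            X := S''.image fun y : A => (y : Unitization ℂ A), κ := κ, hκ := hκ, hκ1 := h1,
            hκε := h2, hκε2 := h3, hκε3 := h4, uA := inA_inr u,
            hu := by rw [← Unitization.inr_star, hus], hu1 := hun, cA := fun i => inA_inr _,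
            XA := ?_, hh := ?_, huu := ?_, hX := ?_, hua := ?_, hfac := ?_, g := g, g' := g',
            hg := hg, hg' := hg', hg1 := hg1, hg1' := hg1',
            hhg := by rw [← Unitization.inr_mul, hhg], hhg' := by rw [← Unitization.inr_mul, hhg'],
            hgg := hgg }⟩
  · intro x hx
    obtain ⟨y, -, rfl⟩ := Finset.mem_image.1 hx
    exact inA_inr y
  · rw [← Unitization.inr_star, ← hz, star_mul, star_star]
  · rw [← Unitization.inr_mul]
    exact Finset.mem_image_of_mem _ (by simp [hS''])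
  · intro a ha y hy
    obtain ⟨b, hb, rfl⟩ : ∃ b ∈ S', (b : Unitization ℂ A) = y := by
      simp only [List.mem_cons, List.not_mem_nil, or_false] at hy
      rcases hy with rfl | rfl | rfl
      · exact ⟨star a * a, Finset.mem_union_left _ (Finset.mem_union_left _
          (Finset.mem_image_of_mem _ ha)), by rw [Unitization.inr_mul, Unitization.inr_star]⟩
      · exact ⟨star a, Finset.mem_union_left _ (Finset.mem_union_right _
          (Finset.mem_image_of_mem _ ha)), Unitization.inr_star _⟩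
      · exact ⟨a, Finset.mem_union_right _ ha, rfl⟩
    simp only [← Unitization.inr_mul, ← Unitization.inr_sub, Unitization.norm_inr]
    refine ⟨Finset.mem_image_of_mem _ (Finset.mem_union_left _ (Finset.mem_image_of_mem _ hb)), ?_⟩
    rw [show u * b * u - b = (u * b - b) * u + (b * u - b) by rw [sub_mul]; abel]
    refine (norm_add_le _ _).trans ?_
    linarith [(hux b hb).2, (norm_mul_le (u * b - b) u).trans
      (mul_le_of_le_one_right (norm_nonneg _) hu1), (hux b hb).1]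
  · intro a ha
    simp only [← Unitization.inr_mul, ← Unitization.inr_sub, Unitization.norm_inr]
    have hb : a ∈ S' := Finset.mem_union_right _ ha
    rw [show u * u * a - a = u * (u * a - a) + (u * a - a) by rw [mul_sub, mul_assoc]; abel]
    refine (norm_add_le _ _).trans ?_
    linarith [(hux a hb).1, (norm_mul_le u (u * a - a)).trans
      (mul_le_of_le_one_left (norm_nonneg _) hu1)]
  · intro x hx
    obtain ⟨y, hy, rfl⟩ := Finset.mem_image.1 hx
    simp only [Unitization.snd_inr]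
    obtain ⟨e1, e2⟩ := factor_inr c d (lam y) h y
    rw [e1]
    refine ⟨(hfac y hy).1, le_trans (le_of_eq ?_) (hfac y hy).2⟩
    refine Finset.sum_congr rfl fun i _ => Finset.sum_congr rfl fun j _ => ?_
    rw [e2, Unitization.norm_inr, Unitization.norm_inr]

variable {S : Finset A} {ε : ℝ}

/-- One root gives one element. -/
lemma Setup.element (T : Setup S ε) {G w₀ f q P Q : Unitization ℂ A} {Lam e η : ℝ} (he : 0 ≤ e)
    (hη : 0 ≤ η) (heL : e * Lam ≤ T.κ)
    (hLam : ∀ x ∈ T.X, ∑ i, ∑ j, ‖T.l x i j‖ * ((‖T.c i‖ + 1) * (‖T.c j‖ + 1)) ≤ Lam)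
    (hhG : T.h * G = G) (hw₀ : ‖w₀‖ ≤ 4) (hv2 : ‖G * w₀‖ ≤ 2) (hf : ‖f‖ ≤ 1) (hq : ‖q‖ ≤ 1)
    (hvf : ‖star (G * w₀) * (G * w₀) - f‖ ≤ e)
    (hfc : ∀ i, ‖star (T.c i) * f - f * star (T.c i)‖ ≤ e)
    (hfx : ∀ x ∈ T.X, ‖f * x - q * x‖ ≤ T.κ) (hPG : ‖P * G - G‖ ≤ η) (hQG : ‖Q * G - G‖ ≤ η)
    (hPd : ∀ i, ‖P * (T.u * T.d i) - T.u * T.d i * P‖ ≤ η)
    (hQd : ∀ i, ‖Q * (T.u * T.d i) - T.u * T.d i * Q‖ ≤ η)
    (hηC : 6 * η * ∑ i, (‖T.u * T.d i‖ + 1) * ‖T.c i‖ ≤ ε) (hε : 0 ≤ ε) :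
    ∃ t : A, (t : Unitization ℂ A) = solElt T.u T.c T.d (G * w₀) ∧ ‖t‖ ≤ 2 ∧
      ‖P * (t : Unitization ℂ A) - t‖ ≤ ε ∧ ‖Q * (t : Unitization ℂ A) - t‖ ≤ ε ∧
      ∀ a ∈ S, ‖t * a - a * t‖ ≤ ε ∧
        ‖((star t * t : A) : Unitization ℂ A) * (a : Unitization ℂ A)
          - q * (a : Unitization ℂ A)‖ ≤ ε := by
  obtain ⟨hconj, hsq, hs2⟩ := solution_of_root T.c T.d T.l he heL T.hκ1 T.hu T.hh
    (show T.h * (G * w₀) = G * w₀ by rw [← mul_assoc, hhG]) hv2 hvf hf hfc T.X hLam T.hfac hfx hq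
    T.huu T.hu1
  set s := solElt T.u T.c T.d (G * w₀) with hs
  have hsA : InA s := InA.sum _ _ fun i _ => ((T.uA.mul_right _).mul_right _).mul_right _
  obtain ⟨t, ht⟩ := hsA.exists_inr
  have hcarry : ∀ R : Unitization ℂ A, ‖R * G - G‖ ≤ η →
      (∀ i, ‖R * (T.u * T.d i) - T.u * T.d i * R‖ ≤ η) → ‖R * (t : Unitization ℂ A) - t‖ ≤ ε := by
    intro R hRG hRd
    have h4 : ‖R * (G * w₀) - G * w₀‖ ≤ 4 * η := by
      rw [← mul_assoc, ← sub_mul]
      exact (norm_mul_le _ _).trans ((mul_le_mul hRG hw₀ (norm_nonneg _) hη).trans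
        (le_of_eq (mul_comm _ _)))
    rw [ht, hs]
    refine (carry_estimate T.c (fun i => T.u * T.d i) hη hv2 hRd h4).trans ?_
    linarith
  refine ⟨t, ht, ?_, hcarry P hPG hPd, hcarry Q hQG hQd, fun a ha => ?_⟩
  · rw [← Unitization.norm_inr (𝕜 := ℂ) t, ht]; exact hs2
  have haM : ‖(a : Unitization ℂ A)‖ ≤ ∑ b ∈ S, ‖b‖ := by
    rw [Unitization.norm_inr]
    exact Finset.single_le_sum (fun b _ => norm_nonneg b) ha
  have hκ0 := T.hκ.le
  set E := 10 * T.κ * (1 + ∑ b ∈ S, ‖b‖) with hE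
  have hmon : 10 * T.κ * (1 + ‖(a : Unitization ℂ A)‖) ≤ E :=
    mul_le_mul_of_nonneg_left (by linarith) (by positivity)
  have hle : 10 * T.κ ≤ E :=
    le_mul_of_one_le_right (by positivity) (by linarith [norm_nonneg (a : Unitization ℂ A)])
  have h4 := (hsq (a : Unitization ℂ A) (T.hua a ha)).trans hmon
  refine ⟨?_, ?_⟩
  · have hy := fun y hy => (hconj y (T.hX a ha y hy).1 (T.hX a ha y hy).2).trans hle
    have h := comm_conj (hy _ (by simp)) (hy _ (by simp)) (hy _ (by simp)) h4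
    rw [← Unitization.norm_inr (𝕜 := ℂ) (t * a - a * t), Unitization.inr_sub,
      Unitization.inr_mul, Unitization.inr_mul, ht]
    refine h.trans (Real.sqrt_le_iff.2 ⟨hε, le_trans ?_ T.hκε2⟩)
    exact mul_le_mul_of_nonneg_left (by linarith) (le_trans (by positivity) hle)
  · rw [Unitization.inr_mul, Unitization.inr_star, ht]
    exact h4.trans T.hκε

/-- Two roots with orthogonal supports give orthogonal elements. -/
lemma Setup.orth (T : Setup S ε) {G G' w₀ w₀' : Unitization ℂ A} (hG' : star G' = G')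
    (hhG : T.h * G = G) (hhG' : T.h * G' = G') (hGG : G' * G = 0) (hv : ‖G * w₀‖ ≤ 2)
    (hv' : ‖G' * w₀'‖ ≤ 2) {t t' : A} (ht : (t : Unitization ℂ A) = solElt T.u T.c T.d (G * w₀))
    (ht' : (t' : Unitization ℂ A) = solElt T.u T.c T.d (G' * w₀')) : ‖(star t' * t : A)‖ ≤ ε := by
  rw [← Unitization.norm_inr (𝕜 := ℂ), Unitization.inr_mul, Unitization.inr_star, ht, ht',
    solElt_eq, solElt_eq, star_mul, T.hu, mul_assoc, ← mul_assoc T.u, ← mul_assoc]
  refine (cross_estimate T.c T.d (T.l (T.u * T.u)) T.hh (v := G * w₀) (v' := G' * w₀')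
    (by rw [← mul_assoc, hhG]) (by rw [← mul_assoc, hhG']) ?_ hv hv'
    (T.hfac _ T.huu).2).trans T.hκε3
  rw [star_mul, hG', mul_assoc, ← mul_assoc G', hGG, zero_mul, mul_zero]

/-- The comparison from the two inner steps. -/
theorem comparePin_of (hC : CertWPin) (hK : CarrierPin) : ComparePin := by
  intro hI hCert hM hAmp A _ _ w hw hS hN hsp hFac hP E P c hc hc1 hEc hPc S ε hε
  classical
  obtain ⟨T⟩ := exists_setup hsp hFac S hε
  obtain ⟨z, hz⟩ := hc
  obtain ⟨f, rfl⟩ := Ideal.Quotient.mk_surjective z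
  have hf : cls (star f * f) = cls c := by rw [cls_mul, cls_star]; exact hz
  set Lam : ℝ := ∑ x ∈ T.X, ∑ i, ∑ j, ‖T.l x i j‖ * ((‖T.c i‖ + 1) * (‖T.c j‖ + 1)) with hLam
  have hLam0 : 0 ≤ Lam := Finset.sum_nonneg fun x _ =>
    Finset.sum_nonneg fun i _ => Finset.sum_nonneg fun j _ => by positivity
  have hLamx : ∀ x ∈ T.X, ∑ i, ∑ j, ‖T.l x i j‖ * ((‖T.c i‖ + 1) * (‖T.c j‖ + 1)) ≤ Lam :=
    fun x hx => Finset.single_le_sum
      (f := fun x => ∑ i, ∑ j, ‖T.l x i j‖ * ((‖T.c i‖ + 1) * (‖T.c j‖ + 1)))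
      (fun x _ => Finset.sum_nonneg fun i _ => Finset.sum_nonneg fun j _ => by positivity) hx
  obtain ⟨e, he, he1, heκ, heL⟩ : ∃ e : ℝ, 0 < e ∧ e ≤ 1 ∧ e ≤ T.κ ∧ e * Lam ≤ T.κ := by
    refine ⟨T.κ / (Lam + 1), div_pos T.hκ (by positivity), ?_, ?_, ?_⟩
    · rw [div_le_iff₀ (by positivity)]; linarith [T.hκ1]
    · rw [div_le_iff₀ (by positivity)]; nlinarith [T.hκ]
    · rw [div_mul_eq_mul_div, div_le_iff₀ (by positivity)]; nlinarith [T.hκ]
  set C : ℝ := ∑ i, (‖T.u * T.d i‖ + 1) * ‖T.c i‖ with hC'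
  have hC0 : 0 ≤ C := Finset.sum_nonneg fun i _ => by positivity
  set η : ℝ := ε / (6 * (C + 1)) with hη
  have hη0 : 0 < η := by positivity
  have hηC : 6 * η * C ≤ ε := by
    rw [hη, mul_div_assoc', div_mul_eq_mul_div, div_le_iff₀ (by positivity)]
    nlinarith
  have hcomm : ∀ R : CSeq A w, ∀ᶠ m in (w : Filter ℕ), ∀ i,
      ‖(R : ℕ →ᵇ Unitization ℂ A) m * (T.u * T.d i)
        - T.u * T.d i * (R : ℕ →ᵇ Unitization ℂ A) m‖ ≤ η := fun R => by
    refine eventually_all.2 fun i => ?_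
    filter_upwards [Metric.tendsto_nhds.1 (R.2 (T.u * T.d i)) η hη0] with n hn
    rw [dist_zero_right] at hn
    exact hn.le
  filter_upwards [eventually_support hI hw hS hf hc1 hEc T.hg T.hg1 hη0,
    eventually_support hI hw hS hf hc1 hPc T.hg T.hg1 hη0,
    eventually_support hI hw hS hf hc1 hEc T.hg' T.hg1' hη0,
    eventually_support hI hw hS hf hc1 hPc T.hg' T.hg1' hη0, hcomm E, hcomm P]
    with m hEg hPg hEg' hPg' hEd hPd
  set fm := (f : ℕ →ᵇ Unitization ℂ A) m with hfm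
  have hgs : ∀ g : A, star g = g → star (g : Unitization ℂ A) = g := fun g hg => by
    rw [← Unitization.inr_star, hg]
  have hhG : ∀ g : A, star g = g → T.h * (g : Unitization ℂ A) = g →
      T.h * supp f g m = supp f g m := fun g hg hhg => by
    rw [supp, ← hfm, star_mul, hgs g hg, ← mul_assoc, ← mul_assoc T.h, hhg]
  have hGG : supp f T.g' m * supp f T.g m = 0 := by
    have h0 : (T.g' : Unitization ℂ A) * (T.g : Unitization ℂ A) = 0 := by
      rw [← Unitization.inr_mul, show T.g' * T.g = 0 by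
        rw [← T.hg, ← T.hg', ← star_mul, T.hgg, star_zero], Unitization.inr_zero]
    rw [supp, supp, ← hfm, star_mul, star_mul, hgs _ T.hg, hgs _ T.hg']
    simp only [mul_assoc]
    rw [← mul_assoc (T.g' : Unitization ℂ A) (T.g : Unitization ℂ A), h0]
    simp
  set Y : Finset (Unitization ℂ A) :=
    T.X ∪ Finset.univ.image T.c ∪ Finset.univ.image (fun i => star (T.c i)) with hY
  have hYA : ∀ x ∈ Y, InA x := by
    intro x hx
    simp only [hY, Finset.mem_union, Finset.mem_image, Finset.mem_univ, true_and] at hx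
    rcases hx with (hx | ⟨i, rfl⟩) | ⟨i, rfl⟩
    · exact T.XA x hx
    · exact T.cA i
    · exact (T.cA i).star
  obtain ⟨δ₁, hδ₁, hr₁⟩ := eventually_root hC hK hCert hM hAmp hw hS hN hP
    (x₀ := fm * (T.g : Unitization ℂ A)) ((inA_inr _).mul_left _) (G := supp f T.g m) rfl hEg.1
    Y hYA (half_pos he) (by linarith)
  obtain ⟨δ₂, hδ₂, hr₂⟩ := eventually_root hC hK hCert hM hAmp hw hS hN hP
    (x₀ := fm * (T.g' : Unitization ℂ A)) ((inA_inr _).mul_left _) (G := supp f T.g' m) rfl hEg'.1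
    Y hYA (half_pos he) (by linarith)
  refine ⟨min δ₁ δ₂, lt_min hδ₁ hδ₂, fun q hq hq1 hqτ => ?_⟩
  filter_upwards [hr₁ q hq hq1 fun τ hτ => (hqτ τ hτ).trans (min_le_left _ _),
    hr₂ q hq hq1 fun τ hτ => (hqτ τ hτ).trans (min_le_right _ _)] with n
    ⟨w₁, f₁, hw₁, _, hv₁, hf₁, hvf₁, hY₁⟩ ⟨w₂, f₂, hw₂, _, hv₂, hf₂, hvf₂, hY₂⟩
  set qn := (q : ℕ →ᵇ Unitization ℂ A) n with hqn
  have hqn1 : ‖qn‖ ≤ 1 := ((q : ℕ →ᵇ Unitization ℂ A).norm_coe_le_norm n).trans hq1
  have hfc : ∀ f' : Unitization ℂ A,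
      (∀ x ∈ Y, ‖f' * x - qn * x‖ ≤ e / 2 ∧ ‖x * f' - qn * x‖ ≤ e / 2) →
      (∀ i, ‖star (T.c i) * f' - f' * star (T.c i)‖ ≤ e) ∧
        ∀ x ∈ T.X, ‖f' * x - qn * x‖ ≤ T.κ := fun f' h => by
    refine ⟨fun i => ?_, fun x hx => (h x (by simp [hY, hx])).1.trans (by linarith)⟩
    obtain ⟨k1, k2⟩ := h (star (T.c i)) (by simp [hY])
    refine (norm_sub_le_norm_sub_add_norm_sub _ (qn * star (T.c i)) _).trans ?_
    rw [norm_sub_rev (qn * star (T.c i))]
    linarith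
  obtain ⟨hfc₁, hfx₁⟩ := hfc f₁ hY₁
  obtain ⟨hfc₂, hfx₂⟩ := hfc f₂ hY₂
  obtain ⟨s, hs, hs1, hsE, hsP, hsS⟩ := T.element (G := supp f T.g m) (w₀ := w₁) he.le hη0.le heL
    hLamx (hhG _ T.hg T.hhg) hw₁ hv₁ hf₁ hqn1 (hvf₁.trans (by linarith)) hfc₁ hfx₁ hEg.2 hPg.2
    hEd hPd hηC hε.le
  obtain ⟨s', hs', hs1', hsE', hsP', hsS'⟩ := T.element (G := supp f T.g' m) (w₀ := w₂) he.le
    hη0.le heL hLamx (hhG _ T.hg' T.hhg') hw₂ hv₂ hf₂ hqn1 (hvf₂.trans (by linarith)) hfc₂ hfx₂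
    hEg'.2 hPg'.2 hEd hPd hηC hε.le
  refine ⟨s, s', T.orth (by rw [supp, star_mul, star_star]) (hhG _ T.hg T.hhg)
    (hhG _ T.hg' T.hhg') hGG hv₁ hv₂ hs hs', fun t ht => ?_⟩
  simp only [List.mem_cons, List.not_mem_nil, or_false] at ht
  rcases ht with rfl | rfl
  · exact ⟨hs1, hsE, hsP, hsS⟩
  · exact ⟨hs1', hsE', hsP', hsS'⟩

end Vale.Agent.P095.W
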