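import Vale.Agent.P101.DropN.Hom.ZPair
import Vale.Agent.P101.DropN.HomMod
import Vale.Agent.P095.Statement

/-!
P095, Theorem W: homomorphisms of Z(n,n+1) into the fixed algebra of the central sequence algebra, on
representatives.
-/

namespace Vale.Agent.P095.W

open Filter Vale.Agent.P101
open scoped Topology BoundedContinuousFunction

variable {A : Type} [NonUnitalCStarAlgebra A]

/-- `f` is fixed by the action modulo the sequences annihilating `A`. -/
def FixedModAnn (w : Filter ℕ) {G : Type} (α : G → A ≃⋆ₐ[ℂ] A)
    (f : ℕ →ᵇ Unitization ℂ A) : Prop :=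
  ∀ (g : G) (a : A),
    Tendsto (fun k => (unitMap (α g) (f k) - f k) * (a : Unitization ℂ A)) w (𝓝 0)

/-- Some map of Z(n+1,n+2) into the central sequences induces, modulo those annihilating `A`, a
unital *-homomorphism into the fixed algebra. -/
def HasFixedDropN (w : Filter ℕ) {G : Type} (α : G → A ≃⋆ₐ[ℂ] A) (n : ℕ) : Prop :=
  DropN.HasMapMod (SetLike.coe (DropN.ZPair (n + 1) (n + 2))) w (AnnNull w) (FixedModAnn w α)

end Vale.Agent.P095.W
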