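import Vale.Agent.P095.W.Copies
import Vale.Agent.P101.DropN.Lift
import Vale.Agent.P095.W.DropNDef

/-!
P095, Theorem W: the relations of every Z(n,n+1) in the fixed algebra of the central sequence algebra.
-/

namespace Vale.Agent.P095.W

open Filter Vale.Agent.P101 Vale.Agent.P101.DropN Vale.Agent.P095 Vale.Agent.P095.Rel
  Vale.Agent.P095.Tracial
open scoped Topology BoundedContinuousFunction

universe u v

section Fixed

variable {B : Type u} [CStarAlgebra B] [TopologicalSpace.SeparableSpace B] {G : Type v} [Group G]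
  (β : G →* (B ≃⋆ₐ[ℂ] B)) {S : Set B} (hS : ∀ g, ∀ s ∈ S, β g s ∈ S) (w : Ultrafilter ℕ)

noncomputable local instance cseqDropN : CStarAlgebra (centralSeq (w : Filter ℕ) B) :=
  StarSubalgebra.cstarAlgebra _ (h_closed := isClosed_centralSeq w)

include hS in
/-- A pair with fixed relations gives the relations of every Z(n,n+1) in the fixed algebra. -/
theorem exists_dropN_fixed [Countable G] (hw : (w : Filter ℕ) ≤ cofinite) {y s : RelQuot S w}
    (hfix : ∀ g, relAct β hS w g y = y ∧ relAct β hS w g s = s) (hrel : DropRelations y s)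
    (n : ℕ) [NeZero n] :
    ∃ (x : Fin n → fixedRel β hS w) (t : fixedRel β hS w), DropNRel x t := by
  classical
  obtain ⟨ys, ss, h1, h2⟩ := exists_commPairs_of_copy (F := fixedRel β hS w) fun T => by
    obtain ⟨y', s', hfix', hrel', hc⟩ := exists_fixed_copy β hS w hw hfix hrel
      (T.image fun x : fixedRel β hS w => (x : RelQuot S w))
    refine ⟨(⟨y', fun g => (hfix' g).1⟩, ⟨s', fun g => (hfix' g).2⟩),
      ⟨Subtype.ext hrel'.1, Subtype.ext hrel'.2.1, Subtype.ext hrel'.2.2⟩, fun b hb => ?_⟩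
    obtain ⟨⟨c1, c2⟩, c3, c4⟩ := hc _ (Finset.mem_image_of_mem _ hb)
    exact ⟨⟨Subtype.ext c1.eq, Subtype.ext c2.eq⟩, Subtype.ext c3.eq, Subtype.ext c4.eq⟩
  exact exists_dropN ys ss h1 h2 n

end Fixed

section Main

variable {A : Type} [NonUnitalCStarAlgebra A]

noncomputable local instance cseqDropNA (w : Ultrafilter ℕ) :
    CStarAlgebra (centralSeq (w : Filter ℕ) (Unitization ℂ A)) :=
  StarSubalgebra.cstarAlgebra _ (h_closed := isClosed_centralSeq w)

/-- Theorem W with the relations of every Z(n,n+1), from the blocks. -/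
theorem fixedDropN_of_blocks (hLift : LiftFPin) (hFirst : FirstPin) (hIso : IsometryPin)
    (hEvents : EventsPin) (hFactor : FactorAPin) (hCert : SC.CertPin.{0}) (hMatrix : SC.MatrixPin)
    (hAmp : AmplifyAPin) (hPieces : PiecesFPin) (hCompare : ComparePin) (hSolve : SolvePin)
    [TopologicalSpace.SeparableSpace A]
    (hS : IsTopSimple A) (hN : IsNuclearA A)
    (w : Ultrafilter ℕ) (hw : (w : Filter ℕ) ≤ cofinite) (hno : NoChar A w)
    (G : Type) [Group G] [Countable G] (hG : Foelner G) (α : G →* (A ≃⋆ₐ[ℂ] A)) (n : ℕ) :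
    HasFixedDropN (w : Filter ℕ) (fun g => α g) n := by
  classical
  obtain ⟨hsp, hfac⟩ := hFactor A w hw hS hno hN
  have hL := hLift A w hw hno G hG α
  obtain ⟨h1, h2⟩ := hSolve A w hw hS G α hL (hFirst hIso A w hw hS G α hL)
    (hEvents hIso A w hw hS G α)
    (hCompare hIso hCert hMatrix hAmp A w hw hS hN hsp hfac (hPieces A w hw hno))
  obtain ⟨y, s, hfix, hrel⟩ := exists_fixed_drop_eps (unitAct α) (unitAct_mem α) w hw
    fun T ε hε => solution_almost_fixed hG h1 h2 T hε
  obtain ⟨x, t, hxt⟩ := exists_dropN_fixed (unitAct α) (unitAct_mem α) w hw hfix hrel (n + 1)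
  let E := fixedRel (unitAct α) (unitAct_mem α) w
  obtain ⟨ψ⟩ := Hom.exists_starAlgHom hxt
  obtain ⟨φ, hφ, hhom⟩ := exists_lift_isHomMod (quotHom (annIdeal (inrSet A) w))
    Ideal.Quotient.mk_surjective (Null := AnnNull (w : Filter ℕ)) (quotHom_eq_zero_iff w)
    (E.subtype.comp ψ)
  exact ⟨φ, hhom, fun f g a => tendsto_of_fixed α w
    (((hφ f).symm ▸ (ψ f).2 : quotHom (annIdeal (inrSet A) w) (φ f) ∈ E) g) a⟩

end Main

end Vale.Agent.P095.W
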