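import Vale.Agent.P095.SI.Event

/-!
P095, Theorem W, W2: the algebra of exact events, in any C*-algebra with an automorphism.
-/

namespace Vale.Agent.P095.W

variable {F : Type*} [CStarAlgebra F]

lemma mem_six {T : Type*} [DecidableEq T] (a b c d e f : T) :
    a ∈ ({a, b, c, d, e, f} : Finset T) ∧ b ∈ ({a, b, c, d, e, f} : Finset T) ∧
      c ∈ ({a, b, c, d, e, f} : Finset T) ∧ d ∈ ({a, b, c, d, e, f} : Finset T) ∧
      e ∈ ({a, b, c, d, e, f} : Finset T) ∧ f ∈ ({a, b, c, d, e, f} : Finset T) := by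
  simp

lemma forall_six {T : Type*} [DecidableEq T] {a b c d e f : T} {P : T → Prop} (ha : P a) (hb : P b)
    (hc : P c) (hd : P d) (he : P e) (hf : P f) : ∀ x ∈ ({a, b, c, d, e, f} : Finset T), P x := by
  simp [ha, hb, hc, hd, he, hf]

section Relations

variable {n : ℕ}

/-- Self-adjointness as a relation. -/
noncomputable def relSelf (i : Fin n) : FreeAlgebra ℂ (Fin n ⊕ Fin n) :=
  FreeAlgebra.ι ℂ (.inl i) - FreeAlgebra.ι ℂ (.inr i)

/-- A product as a relation. -/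
noncomputable def relMul (i j k : Fin n) : FreeAlgebra ℂ (Fin n ⊕ Fin n) :=
  FreeAlgebra.ι ℂ (.inl i) * FreeAlgebra.ι ℂ (.inl j) - FreeAlgebra.ι ℂ (.inl k)

/-- A vanishing product as a relation. -/
noncomputable def relZero (i j : Fin n) : FreeAlgebra ℂ (Fin n ⊕ Fin n) :=
  FreeAlgebra.ι ℂ (.inl i) * FreeAlgebra.ι ℂ (.inl j)

/-- An approximate eigenvector as a relation. -/
noncomputable def relWin (t : ℂ) (a b k z : Fin n) : FreeAlgebra ℂ (Fin n ⊕ Fin n) :=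
  (FreeAlgebra.ι ℂ (.inl a) - FreeAlgebra.ι ℂ (.inl b) - t • 1) * FreeAlgebra.ι ℂ (.inl k)
    - FreeAlgebra.ι ℂ (.inl z) * FreeAlgebra.ι ℂ (.inl k)

variable (x : Fin n → F)

lemma lift_relSelf (i : Fin n) :
    FreeAlgebra.lift ℂ (Sum.elim x fun i => star (x i)) (relSelf i) = 0 ↔ star (x i) = x i := by
  simp only [relSelf, map_sub, FreeAlgebra.lift_ι_apply, Sum.elim_inl, Sum.elim_inr, sub_eq_zero]
  exact eq_comm

lemma lift_relMul (i j k : Fin n) :
    FreeAlgebra.lift ℂ (Sum.elim x fun i => star (x i)) (relMul i j k) = 0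
      ↔ x i * x j = x k := by
  simp [relMul, sub_eq_zero]

lemma lift_relZero (i j : Fin n) :
    FreeAlgebra.lift ℂ (Sum.elim x fun i => star (x i)) (relZero i j) = 0
      ↔ x i * x j = 0 := by
  simp [relZero]

lemma lift_relWin (t : ℂ) (a b k z : Fin n) :
    FreeAlgebra.lift ℂ (Sum.elim x fun i => star (x i)) (relWin t a b k z) = 0
      ↔ (x a - x b - t • 1) * x k = x z * x k := by
  simp [relWin, sub_eq_zero]

end Relations

/-- A norm one element near a spectral value, with complex scalars. -/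
lemma exists_window_smul [Nontrivial F] {ρ : ℝ} (hρ : 0 < ρ) {c : F} (hc : IsSelfAdjoint c)
    {t : ℝ} (ht : t ∈ spectrum ℝ c) :
    ∃ k Z : F, (c - (t : ℂ) • 1) * k = Z * k ∧ ‖Z‖ ≤ 2 * ρ ∧ ‖k‖ = 1 := by
  obtain ⟨Z, h1, h2, h3⟩ := SI.exists_window hρ hc ht
  exact ⟨_, Z, by rw [Complex.coe_smul]; exact h1, h2, h3⟩

variable (β : F ≃⋆ₐ[ℂ] F)

/-- Adding a late copy of a moved element to a sum of such copies. -/
lemma sum_step {n : ℕ} {X k Z c₀ c₁ k' Z' : F} {s t δ ρ : ℝ} (hXs : star X = X) (hXn : ‖X‖ ≤ n)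
    (hXc : ‖X * β X - β X * X‖ ≤ 2 * n) (hXm : n * (δ / 2) ≤ |s|) (ht : |t| = δ)
    (hρ : 4 * ρ ≤ δ / 2) (hcs : star c₀ = c₀) (hc₀n : ‖c₀‖ ≤ 1) (hc₁n : ‖c₁‖ ≤ 1)
    (hc₁ : β c₀ = c₁) (hZ : ‖Z‖ ≤ 2 * ρ) (hZk : (X - β X - (s : ℂ) • 1) * k = Z * k)
    (hZ' : ‖Z'‖ ≤ 2 * ρ) (hZk' : (c₀ - c₁ - (t : ℂ) • 1) * k' = Z' * k') (hv : ‖k' * k‖ = 1)
    (hk'Y : Commute k' (X - β X)) (hk'Z : Commute k' Z) (hcX : Commute c₀ (β X))
    (hcX' : Commute c₁ X) :
    ∃ X' : F, star X' = X' ∧ ‖X'‖ ≤ (n + 1 : ℕ) ∧ ‖X' * β X' - β X' * X'‖ ≤ 2 * (n + 1 : ℕ) ∧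
      (n + 1 : ℕ) * (δ / 2) ≤ ‖X' - β X'‖ := by
  have hYv : ‖(X - β X - (s : ℂ) • 1) * (k' * k)‖ ≤ 2 * ρ := by
    have h1 : Commute k' (X - β X - (s : ℂ) • 1) :=
      hk'Y.sub_right ((Commute.one_right _).smul_right _)
    rw [← mul_assoc, ← h1.eq, mul_assoc, hZk, ← mul_assoc, hk'Z.eq, mul_assoc]
    refine (norm_mul_le _ _).trans ?_
    rw [hv, mul_one]; exact hZ
  have hcv : ‖(c₀ - c₁ - (t : ℂ) • 1) * (k' * k)‖ ≤ 2 * ρ := by
    rw [← mul_assoc, hZk', mul_assoc]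
    refine (norm_mul_le _ _).trans ?_
    rw [hv, mul_one]; exact hZ'
  have key : ∀ σ : ℝ, |σ| = 1 → ∀ X' : F, X' = X + (σ : ℂ) • c₀ →
      star X' = X' ∧ ‖X'‖ ≤ (n + 1 : ℕ) ∧ ‖X' * β X' - β X' * X'‖ ≤ 2 * (n + 1 : ℕ) ∧
      |s + σ * t| - 4 * ρ ≤ ‖X' - β X'‖ := by
    intro σ hσ X' hX'
    have hsm : ∀ y : F, ‖(σ : ℂ) • y‖ = ‖y‖ := fun y => by
      rw [norm_smul, Complex.norm_real, Real.norm_eq_abs, hσ, one_mul]
    refine ⟨?_, ?_, ?_, ?_⟩
    · rw [hX', star_add, star_smul, hXs, hcs, Complex.star_def, Complex.conj_ofReal]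
    · rw [hX']
      refine (norm_add_le _ _).trans ?_
      rw [hsm]; push_cast; linarith
    · have e : X' * β X' - β X' * X' = (X * β X - β X * X) + (c₀ * c₁ - c₁ * c₀) := by
        rw [hX', map_add, map_smul, hc₁]
        simp only [add_mul, mul_add, smul_mul_assoc, mul_smul_comm, smul_add, smul_smul]
        rw [hcX.eq, hcX'.eq, ← Complex.ofReal_mul, ← abs_mul_abs_self, hσ, one_mul,
          Complex.ofReal_one, one_smul, one_smul]
        abel
      rw [e]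
      refine (norm_add_le _ _).trans ?_
      have h3 : ‖c₀ * c₁‖ ≤ 1 :=
        (norm_mul_le _ _).trans (mul_le_one₀ hc₀n (norm_nonneg _) hc₁n)
      have h4 : ‖c₁ * c₀‖ ≤ 1 :=
        (norm_mul_le _ _).trans (mul_le_one₀ hc₁n (norm_nonneg _) hc₀n)
      push_cast
      linarith [norm_sub_le (c₀ * c₁) (c₁ * c₀)]
    · have e : (X' - β X') - (((s + σ * t : ℝ)) : ℂ) • 1
          = (X - β X - (s : ℂ) • 1) + (σ : ℂ) • (c₀ - c₁ - (t : ℂ) • 1) := by
        rw [hX', map_add, map_smul, hc₁, Complex.ofReal_add, Complex.ofReal_mul, add_smul,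
          mul_smul]
        simp only [smul_sub]
        abel
      have h1 : |s + σ * t| = ‖(((s + σ * t : ℝ)) : ℂ) • (k' * k)‖ := by
        rw [norm_smul, Complex.norm_real, Real.norm_eq_abs, hv, mul_one]
      have h2 : (((s + σ * t : ℝ)) : ℂ) • (k' * k) = (X' - β X') * (k' * k)
          - ((X - β X - (s : ℂ) • 1) * (k' * k)
            + (σ : ℂ) • ((c₀ - c₁ - (t : ℂ) • 1) * (k' * k))) := by
        rw [← smul_mul_assoc (σ : ℂ), ← add_mul, ← e, sub_mul _ (_ • (1 : F)), smul_one_mul, sub_sub_cancel]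
      have h3 : ‖(X' - β X') * (k' * k)‖ ≤ ‖X' - β X'‖ :=
        (norm_mul_le _ _).trans (by rw [hv, mul_one])
      have h4 := norm_sub_le ((X' - β X') * (k' * k))
        ((X - β X - (s : ℂ) • 1) * (k' * k) + (σ : ℂ) • ((c₀ - c₁ - (t : ℂ) • 1) * (k' * k)))
      have h5 := norm_add_le ((X - β X - (s : ℂ) • 1) * (k' * k))
        ((σ : ℂ) • ((c₀ - c₁ - (t : ℂ) • 1) * (k' * k)))
      rw [hsm] at h5
      rw [← h2] at h4
      linarith
  have hmax : |s| + |t| ≤ |s + 1 * t| ∨ |s| + |t| ≤ |s + -1 * t| := by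
    rcases le_total 0 s with h | h <;> rcases le_total 0 t with h' | h' <;>
      simp only [abs_of_nonneg, abs_of_nonpos, h, h'] <;>
      first
        | (left; linarith [le_abs_self (s + 1 * t), neg_abs_le (s + 1 * t)])
        | (right; linarith [le_abs_self (s + -1 * t), neg_abs_le (s + -1 * t)])
  have hfin : ∀ σ : ℝ, |σ| = 1 → |s| + |t| ≤ |s + σ * t| → ∃ X' : F, star X' = X' ∧
      ‖X'‖ ≤ (n + 1 : ℕ) ∧ ‖X' * β X' - β X' * X'‖ ≤ 2 * (n + 1 : ℕ) ∧
      (n + 1 : ℕ) * (δ / 2) ≤ ‖X' - β X'‖ := fun σ hσ hle => by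
    obtain ⟨g1, g2, g3, g4⟩ := key σ hσ _ rfl
    refine ⟨_, g1, g2, g3, ?_⟩
    rw [ht] at hle
    push_cast
    linarith
  rcases hmax with h | h
  · exact hfin 1 (by norm_num) h
  · exact hfin (-1) (by norm_num) h

/-- Two commuting translates at positive distance give a pair orthogonal to its translate. -/
lemma pair_of_moved [Nontrivial F] {B : F} (hB : IsSelfAdjoint B) (hB1 : ‖B‖ ≤ 1)
    (hBc : Commute B (β B)) {δ : ℝ} (hδ : 0 < δ) (hBd : δ ≤ ‖B - β B‖) :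
    ∃ z y : F, star z = z ∧ star y = y ∧ ‖z * z‖ ≤ 1 ∧ ‖y * y‖ = 1 ∧
      z * z * (y * y) = y * y ∧ z * z * β (z * z) = 0 := by
  obtain ⟨N, c, hc, hfar⟩ := SI.exists_far_pieces (A := F) hδ
  obtain ⟨B', hB'⟩ : ∃ B' : F, B' = β B := ⟨_, rfl⟩
  have hBs' : IsSelfAdjoint B' := by rw [hB']; exact hB.map β
  have hβn : ∀ y : F, ‖β y‖ ≤ ‖y‖ := fun y => NonUnitalStarAlgHom.norm_apply_le β y
  have hB1' : ‖B'‖ ≤ 1 := by rw [hB']; exact (hβn B).trans hB1
  rw [← hB'] at hBc hBd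
  obtain ⟨i, -, j, -, hij, hcw⟩ := hfar B B' hB hBs' hB1 hB1' hBd
  set a := cfc (SI.piece N i) B with ha
  set e := cfc (SI.piece N j) B' with he
  have has : IsSelfAdjoint a := cfc_predicate _ _
  have hes : IsSelfAdjoint e := cfc_predicate _ _
  set a' := β a with ha'
  have haa' : a' = cfc (SI.piece N i) B' := by
    rw [ha', ha, hB']
    exact StarAlgHomClass.map_cfc (S := ℂ) β (SI.piece N i) B
      (hφ := AddMonoidHomClass.continuous_of_bound β 1 fun y => by simpa using hβn y)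
  have hcomm : Commute a a' := by
    rw [haa']
    exact ((hBc.cfc_real (SI.piece N i)).symm.cfc_real (SI.piece N i)).symm
  have hea : e * a' = 0 := by
    rw [haa', he]
    exact SI.cfc_piece_mul_eq_zero N (by rwa [abs_sub_comm]) B'
  obtain ⟨r₀, hr₀⟩ : ∃ r₀ : F, r₀ = a * e * (e * a) := ⟨_, rfl⟩
  have hr₀s : star r₀ = r₀ := by
    rw [hr₀]; simp only [star_mul, has.star_eq, hes.star_eq, mul_assoc]
  have hr₀0 : 0 < ‖r₀‖ := by
    have e1 : r₀ = a * e * star (a * e) := by rw [hr₀, star_mul, has.star_eq, hes.star_eq]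
    rw [e1, CStarRing.norm_self_mul_star]
    exact mul_pos (hc.trans_le hcw) (hc.trans_le hcw)
  have hr₀m : r₀ * β r₀ = 0 := by
    rw [hr₀, map_mul, map_mul, map_mul, ← ha']
    calc a * e * (e * a) * (a' * β e * (β e * a'))
        = a * e * (e * (a * a')) * (β e * (β e * a')) := by simp only [mul_assoc]
      _ = 0 := by rw [hcomm.eq, ← mul_assoc e a' a, hea, zero_mul, mul_zero, zero_mul]
  obtain ⟨r, hr⟩ : ∃ r : F, r = ((‖r₀‖⁻¹ : ℝ) : ℂ) • r₀ := ⟨_, rfl⟩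
  have hrs : IsSelfAdjoint r := by
    rw [hr, isSelfAdjoint_iff, star_smul, hr₀s, Complex.star_def, Complex.conj_ofReal]
  have hr1 : ‖r‖ = 1 := by
    rw [hr, norm_smul, Complex.norm_real, Real.norm_eq_abs, abs_of_nonneg (by positivity),
      inv_mul_cancel₀ hr₀0.ne']
  have hrm : r * β r = 0 := by
    rw [hr, map_smul, smul_mul_smul_comm, hr₀m, smul_zero]
  have hwit0 : ∀ x, 0 ≤ SI.wit x := fun x => le_max_left _ _
  have hzz : cfc SI.platSqrt r * cfc SI.platSqrt r = cfc SI.plat r := by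
    have := SI.star_mul_platSqrt r hrs
    rwa [(cfc_predicate SI.platSqrt r).star_eq] at this
  have hyy : cfc (fun x => Real.sqrt (SI.wit x)) r * cfc (fun x => Real.sqrt (SI.wit x)) r
      = cfc SI.wit r := by
    rw [← cfc_mul (fun x => Real.sqrt (SI.wit x)) (fun x => Real.sqrt (SI.wit x)) r]
    exact cfc_congr fun x _ => Real.mul_self_sqrt (hwit0 x)
  refine ⟨cfc SI.platSqrt r, cfc (fun x => Real.sqrt (SI.wit x)) r, (cfc_predicate (p := IsSelfAdjoint) _ r).star_eq,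
    (cfc_predicate (p := IsSelfAdjoint) _ r).star_eq, ?_, ?_, ?_, ?_⟩
  · rw [hzz]
    exact norm_cfc_le zero_le_one fun x _ => by
      rw [Real.norm_eq_abs, abs_of_nonneg (SI.plat_nonneg x)]; exact SI.plat_le_one x
  · rw [hyy]; exact SI.norm_wit_eq_one hrs (by rw [hr1]; norm_num)
  · rw [hzz, hyy]; exact SI.cfc_plat_mul_wit r hrs
  · rw [hzz, ← norm_eq_zero]
    refine le_antisymm ((SI.norm_plat_mul_le β r hrs).trans ?_) (norm_nonneg _)
    rw [hrm, norm_zero, mul_zero]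

/-- Elements moved by a map are moved already on a self-adjoint contraction. -/
lemma exists_moved_of_ne {x : F} (hx : β x ≠ x) :
    ∃ b : F, IsSelfAdjoint b ∧ ‖b‖ ≤ 1 ∧ β b ≠ b := by
  by_contra hne
  push Not at hne
  refine hx ?_
  have key : ∀ b : F, IsSelfAdjoint b → β b = b := fun b hb => by
    rcases eq_or_ne b 0 with rfl | h0
    · exact map_zero _
    have hr : ((‖b‖⁻¹ : ℝ) : ℂ) ≠ 0 := by simpa using h0
    have h := hne (((‖b‖⁻¹ : ℝ) : ℂ) • b)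
      (by rw [isSelfAdjoint_iff, star_smul, hb.star_eq, Complex.star_def, Complex.conj_ofReal]) (by
      rw [norm_smul, Complex.norm_real, Real.norm_eq_abs, abs_of_nonneg (by positivity),
        inv_mul_cancel₀ (norm_ne_zero_iff.2 h0)])
    rw [map_smul] at h
    exact smul_right_injective _ hr h
  rw [← realPart_add_I_smul_imaginaryPart x, map_add, map_smul, key _ (realPart x).2,
    key _ (imaginaryPart x).2]

/-- Scaling a sum of copies into a contraction. -/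
lemma scale_sum {X : F} {δ : ℝ} (L : ℕ) (hXs : star X = X) (hXn : ‖X‖ ≤ (L + 1 : ℕ))
    (hXc : ‖X * β X - β X * X‖ ≤ 2 * (L + 1 : ℕ)) (hXm : (L + 1 : ℕ) * δ ≤ ‖X - β X‖) :
    ∃ B : F, star B = B ∧ ‖B‖ ≤ 1 ∧ ‖B * β B - β B * B‖ ≤ 3 / ((L : ℝ) + 1) ∧
      δ ≤ ‖B - β B‖ := by
  push_cast at hXn hXc hXm
  have hL : (0 : ℝ) < (L : ℝ) + 1 := by positivity
  obtain ⟨r, hr⟩ : ∃ r : ℝ, r = ((L : ℝ) + 1)⁻¹ := ⟨_, rfl⟩
  have hr0 : 0 ≤ r := by rw [hr]; positivity
  have hrL : r * ((L : ℝ) + 1) = 1 := by rw [hr]; exact inv_mul_cancel₀ hL.ne'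
  have hsm : ∀ z : F, ‖(r : ℂ) • z‖ = r * ‖z‖ := fun z => by
    rw [norm_smul, Complex.norm_real, Real.norm_eq_abs, abs_of_nonneg hr0]
  refine ⟨(r : ℂ) • X, ?_, ?_, ?_, ?_⟩
  · rw [star_smul, hXs, Complex.star_def, Complex.conj_ofReal]
  · rw [hsm]
    calc r * ‖X‖ ≤ r * ((L : ℝ) + 1) := mul_le_mul_of_nonneg_left hXn hr0
      _ = 1 := hrL
  · rw [map_smul, smul_mul_smul_comm, smul_mul_smul_comm, ← smul_sub, ← Complex.ofReal_mul,
      norm_smul, Complex.norm_real, Real.norm_eq_abs, abs_of_nonneg (by positivity)]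
    calc r * r * ‖X * β X - β X * X‖
        ≤ r * r * (2 * ((L : ℝ) + 1)) := mul_le_mul_of_nonneg_left hXc (by positivity)
      _ = (r * ((L : ℝ) + 1)) * (2 * r) := by ring
      _ ≤ 3 / ((L : ℝ) + 1) := by rw [hrL, one_mul, div_eq_mul_inv, ← hr]; linarith
  · rw [map_smul, ← smul_sub, hsm]
    calc δ = r * ((L : ℝ) + 1) * δ := by rw [hrL, one_mul]
      _ ≤ r * ‖X - β X‖ := by rw [mul_assoc]; exact mul_le_mul_of_nonneg_left hXm hr0

/-- Adding one pair to a pair. -/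
lemma pair_mul {z y z' y' p' k' q' : F} (hz : star z = z) (hy : star y = y) (hz' : star z' = z')
    (hy' : star y' = y') (hp : z' * z' = p') (hk : y' * y' = k') (hpk : p' * k' = k')
    (hzy : z * z * (y * y) = y * y) (kz : Commute z' z) (ky : Commute y' y)
    (kpy : Commute p' (y * y)) (kqz : Commute p' (β (z * z)))
    (hq : β p' = q') (hpq : p' * q' = 0) :
    star (z * z') = z * z' ∧ star (y * y') = y * y' ∧ z * z' * (z * z') = z * z * p' ∧
      y * y' * (y * y') = y * y * k' ∧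
      z * z' * (z * z') * (y * y' * (y * y')) = y * y' * (y * y') ∧
      z * z' * (z * z') * β (z * z' * (z * z')) = 0 := by
  have ezz : z * z' * (z * z') = z * z * p' := by rw [kz.mul_mul_mul_comm, hp]
  have eyy : y * y' * (y * y') = y * y * k' := by rw [ky.mul_mul_mul_comm, hk]
  refine ⟨by rw [star_mul, hz, hz', kz.eq], by rw [star_mul, hy, hy', ky.eq], ezz, eyy, ?_, ?_⟩
  · rw [ezz, eyy, kpy.mul_mul_mul_comm, hzy, hpk]
  · rw [ezz, map_mul, hq, mul_assoc, ← mul_assoc p', kqz.eq, mul_assoc _ p', hpq, mul_zero,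
      mul_zero]

end Vale.Agent.P095.W
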