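import Vale.Agent.P095.W.EventsBasic
import Vale.Agent.P095.W.EventsAlg

/-!
P095, Theorem W, W2: events in Kirchberg's central sequence algebra, exactly orthogonal to their
translates by finitely many elements outside the kernel.
-/

namespace Vale.Agent.P095.W

open Filter Vale.Agent.P101 Vale.Agent.P095 Vale.Agent.P095.Rel
open scoped Topology BoundedContinuousFunction

variable {A : Type} [NonUnitalCStarAlgebra A] [TopologicalSpace.SeparableSpace A] {G : Type}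
  [Group G] {α : G →* (A ≃⋆ₐ[ℂ] A)} {w : Ultrafilter ℕ}

noncomputable local instance cseqEventsMain :
    CStarAlgebra (centralSeq (w : Filter ℕ) (Unitization ℂ A)) :=
  StarSubalgebra.cstarAlgebra _ (h_closed := isClosed_centralSeq w)

lemma actEquiv_apply (g : G) (x : FA A w) : actEquiv α w g x = actF α w g x := rfl

/-- A late copy of a moved element and of a window for it. -/
lemma exists_window_copy (hw : (w : Filter ℕ) ≤ cofinite) (hI : IsoNorm A w) (hA : ∃ a : A, a ≠ 0)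
    {d : G} {b k' Z' X Y k Z : FA A w} {t : ℝ} (hbs : IsSelfAdjoint b)
    (hZk' : (b - actF α w d b - (t : ℂ) • 1) * k' = Z' * k') :
    ∃ c₀ c₁ c₂ c₃ : FA A w, star c₀ = c₀ ∧ (c₀ - c₁ - (t : ℂ) • 1) * c₂ = c₃ * c₂ ∧
      actEquiv α w d c₀ = c₁ ∧ ‖c₀‖ = ‖b‖ ∧ ‖c₁‖ = ‖actF α w d b‖ ∧ ‖c₃‖ = ‖Z'‖ ∧
      ‖c₂ * k‖ = ‖k'‖ * ‖k‖ ∧ Commute c₂ Y ∧ Commute c₂ Z ∧
      Commute c₀ (actEquiv α w d X) ∧ Commute c₁ X := by
  classical
  let x : Fin 4 → FA A w := ![b, actF α w d b, k', Z']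
  obtain ⟨c, hcR, hca, hcn, hcT⟩ := exists_event_copy α hw hI hA d x
    {relSelf 0, relWin (t : ℂ) 0 1 2 3}
    (by
      intro p hp
      rw [Finset.mem_insert, Finset.mem_singleton] at hp
      rcases hp with rfl | rfl
      · exact (lift_relSelf x 0).2 hbs.star_eq
      · exact (lift_relWin x _ 0 1 2 3).2 hZk')
    {X, actEquiv α w d X, actF α w d⁻¹ X, Y, k, Z}
  obtain ⟨-, e2, e3, e4, e5, e6⟩ :=
    mem_six X (actEquiv α w d X) (actF α w d⁻¹ X) Y k Z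
  have hc01 : actEquiv α w d (c 0) = c 1 := hca 0 1 rfl
  refine ⟨c 0, c 1, c 2, c 3, (lift_relSelf c 0).1 (hcR _ (Finset.mem_insert_self _ _)),
    (lift_relWin c _ 0 1 2 3).1
      (hcR _ (Finset.mem_insert_of_mem (Finset.mem_singleton_self _))),
    hc01, hcn 0, hcn 1, hcn 3, (hcT 2 k e5).2.2, (hcT 2 Y e4).1, (hcT 2 Z e6).1,
    (hcT 0 _ e2).1, ?_⟩
  have h := (hcT 0 (actF α w d⁻¹ X) e3).1.map (actF α w d)
  rwa [← actF_mul, mul_inv_cancel, actF_one, ← actEquiv_apply, hc01] at h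

/-- Sums of copies of a moved element. -/
lemma exists_event_sum (hw : (w : Filter ℕ) ≤ cofinite) (hI : IsoNorm A w) (hA : ∃ a : A, a ≠ 0)
    {d : G} {b : FA A w} (hbs : IsSelfAdjoint b) (hb1 : ‖b‖ ≤ 1)
    (hbd : 0 < ‖b - actF α w d b‖) (n : ℕ) :
    ∃ X : FA A w, star X = X ∧ ‖X‖ ≤ n ∧
      ‖X * actEquiv α w d X - actEquiv α w d X * X‖ ≤ 2 * n ∧
      n * (‖b - actF α w d b‖ / 2) ≤ ‖X - actEquiv α w d X‖ := by
  have := ev_nontrivial_FA hI hA
  induction n with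
  | zero => exact ⟨0, star_zero _, by simp, by simp, by simp⟩
  | succ n ih =>
    obtain ⟨X, hXs, hXn, hXc, hXm⟩ := ih
    have hbs' : IsSelfAdjoint (actF α w d b) := hbs.map (actF α w d)
    have hXs' : IsSelfAdjoint X := hXs
    have hYs : IsSelfAdjoint (X - actEquiv α w d X) := hXs'.sub (hXs'.map (actEquiv α w d))
    obtain ⟨s, hs, hsY⟩ := SI.exists_abs_eq_norm hYs
    obtain ⟨t, ht, htc⟩ := SI.exists_abs_eq_norm (hbs.sub hbs')
    obtain ⟨ρ, hρ, hρδ⟩ : ∃ ρ : ℝ, 0 < ρ ∧ ρ = ‖b - actF α w d b‖ / 8 := ⟨_, by positivity, rfl⟩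
    obtain ⟨k, Z, hZk, hZ, hk1⟩ := exists_window_smul hρ hYs hs
    obtain ⟨k', Z', hZk', hZ', hk1'⟩ := exists_window_smul hρ (hbs.sub hbs') ht
    obtain ⟨c₀, c₁, c₂, c₃, hcs, hck, hc01, n0, n1, n3, n2, k2, k3, k0, k1⟩ :=
      exists_window_copy (α := α) hw hI hA (X := X) (Y := X - actEquiv α w d X) (k := k) (Z := Z)
        hbs hZk'
    rw [hk1', hk1, mul_one] at n2
    exact sum_step (actEquiv α w d) (δ := ‖b - actF α w d b‖) (ρ := ρ) hXs hXn hXc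
      (hXm.trans (le_of_eq hsY.symm)) htc (by linarith) hcs (n0.trans_le hb1)
      (n1.trans_le ((NonUnitalStarAlgHom.norm_apply_le _ b).trans hb1)) hc01 hZ hZk
      (n3.trans_le hZ') hck n2 k2 k3 k0 k1

/-- One element outside the kernel has an exact pair. -/
lemma exists_event_single (hw : (w : Filter ℕ) ≤ cofinite) (hI : IsoNorm A w) (hA : ∃ a : A, a ≠ 0)
    {d : G} (hd : ¬ InKer α w d) :
    ∃ z y : FA A w, star z = z ∧ star y = y ∧ ‖z * z‖ ≤ 1 ∧ ‖y * y‖ = 1 ∧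
      z * z * (y * y) = y * y ∧ z * z * actF α w d (z * z) = 0 := by
  have := ev_nontrivial_FA hI hA
  obtain ⟨x, hx⟩ : ∃ x, actF α w d x ≠ x := not_forall.1 hd
  obtain ⟨b, hbs, hb1, hbd⟩ := exists_moved_of_ne (actEquiv α w d) hx
  have hδ : 0 < ‖b - actF α w d b‖ := norm_pos_iff.2 (sub_ne_zero.2 (Ne.symm hbd))
  obtain ⟨B, hB, hB1, hBc, hBd⟩ := exists_exact_moved α hw hI hA d
    (δ := ‖b - actF α w d b‖ / 2) fun L => by
      obtain ⟨X, hXs, hXn, hXc, hXm⟩ := exists_event_sum hw hI hA (α := α) (d := d) hbs hb1 hδ (L + 1)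
      exact scale_sum (actEquiv α w d) L hXs hXn hXc hXm
  exact pair_of_moved (actEquiv α w d) hB hB1 hBc (by positivity) hBd

/-- Pairs exactly orthogonal to their translates, beside a given element. -/
def HasPairF (α : G →* (A ≃⋆ₐ[ℂ] A)) (w : Ultrafilter ℕ) (Δ : Finset G) : Prop :=
  ∀ e : FA A w, ‖e‖ = 1 → ∀ T : Finset (FA A w), ∃ z y : FA A w, star z = z ∧ star y = y ∧
    ‖z * z‖ ≤ 1 ∧ ‖y * y‖ ≤ 1 ∧ z * z * (y * y) = y * y ∧ ‖e * (y * y)‖ = 1 ∧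
    (∀ d ∈ Δ, z * z * actF α w d (z * z) = 0) ∧ ∀ a ∈ T, Commute z a ∧ Commute y a

/-- A late copy of a pair orthogonal to its translate. -/
lemma exists_pair_copy (hw : (w : Filter ℕ) ≤ cofinite) (hI : IsoNorm A w) (hA : ∃ a : A, a ≠ 0)
    {d : G} {z y : FA A w} (hz : star z = z) (hy : star y = y) (hzy : z * z * (y * y) = y * y)
    (hzd : z * z * actF α w d (z * z) = 0) (T : Finset (FA A w)) :
    ∃ c : Fin 4 → FA A w,
      (∀ i, ‖c i‖ = ‖(![z, y, z * z, y * y] : Fin 4 → FA A w) i‖) ∧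
      (∀ i, ∀ t ∈ T, Commute (c i) t ∧
        ‖c i * t‖ = ‖(![z, y, z * z, y * y] : Fin 4 → FA A w) i‖ * ‖t‖) ∧
      star (c 0) = c 0 ∧ star (c 1) = c 1 ∧ c 0 * c 0 = c 2 ∧ c 1 * c 1 = c 3 ∧
      c 2 * c 3 = c 3 ∧ c 2 * actEquiv α w d (c 2) = 0 := by
  classical
  let x : Fin 5 → FA A w := ![z, y, z * z, y * y, actF α w d (z * z)]
  obtain ⟨c, hcR, hca, hcn, hcT⟩ := exists_event_copy α hw hI hA d x
    {relSelf 0, relSelf 1, relMul 0 0 2, relMul 1 1 3, relMul 2 3 3, relZero 2 4}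
    (forall_six ((lift_relSelf x 0).2 hz) ((lift_relSelf x 1).2 hy)
      ((lift_relMul x 0 0 2).2 rfl) ((lift_relMul x 1 1 3).2 rfl)
      ((lift_relMul x 2 3 3).2 hzy) ((lift_relZero x 2 4).2 hzd))
    T
  obtain ⟨r1, r2, r3, r4, r5, r6⟩ := mem_six (relSelf (0 : Fin 5)) (relSelf 1) (relMul 0 0 2)
    (relMul 1 1 3) (relMul 2 3 3) (relZero 2 4)
  have hc24 : actEquiv α w d (c 2) = c 4 := hca 2 4 rfl
  have hx : ∀ i : Fin 4, x i.castSucc = (![z, y, z * z, y * y] : Fin 4 → FA A w) i := fun i => by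
    fin_cases i <;> rfl
  refine ⟨fun i => c i.castSucc, fun i => by rw [hcn, hx],
    fun i t ht => ⟨(hcT _ t ht).1, by rw [(hcT _ t ht).2.2, hx]⟩,
    (lift_relSelf c 0).1 (hcR _ r1), (lift_relSelf c 1).1 (hcR _ r2),
    (lift_relMul c 0 0 2).1 (hcR _ r3), (lift_relMul c 1 1 3).1 (hcR _ r4),
    (lift_relMul c 2 3 3).1 (hcR _ r5), ?_⟩
  show c 2 * actEquiv α w d (c 2) = 0
  rw [hc24]
  exact (lift_relZero c 2 4).1 (hcR _ r6)

lemma hasPairF (hw : (w : Filter ℕ) ≤ cofinite) (hI : IsoNorm A w) (hA : ∃ a : A, a ≠ 0)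
    (Δ : Finset G) (hΔ : ∀ d ∈ Δ, ¬ InKer α w d) : HasPairF α w Δ := by
  classical
  induction Δ using Finset.induction_on with
  | empty =>
    intro e he T
    exact ⟨1, 1, star_one _, star_one _, by rw [mul_one, ev_norm_one_FA hI hA],
      by rw [mul_one, ev_norm_one_FA hI hA], by rw [mul_one, mul_one], by rw [mul_one, mul_one, he],
      fun _ h => absurd h (Finset.notMem_empty _),
      fun a _ => ⟨Commute.one_left a, Commute.one_left a⟩⟩
  | @insert d Δ _ ih =>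
    intro e he T
    obtain ⟨z, y, hz, hy, hz1, hy1, hzy, hey, hzd, hT⟩ :=
      ih (fun g hg => hΔ g (Finset.mem_insert_of_mem hg)) e he T
    obtain ⟨z₀, y₀, hz₀, hy₀, hz₀1, hy₀1, hzy₀, hzd₀⟩ :=
      exists_event_single hw hI hA (hΔ d (Finset.mem_insert_self _ _))
    obtain ⟨c, hcn, hcT, m⟩ := exists_pair_copy hw hI hA (α := α) (d := d) hz₀ hy₀ hzy₀ hzd₀
      (T ∪ {z, y, y * y, e * (y * y), actF α w d (z * z), z * z})
    obtain ⟨m1, m2, m3, m4, m5, m6⟩ := m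
    obtain ⟨u1, u2, u3, u4, u5, u6⟩ :=
      mem_six z y (y * y) (e * (y * y)) (actF α w d (z * z)) (z * z)
    have hu : ∀ i, ∀ t ∈ ({z, y, y * y, e * (y * y), actF α w d (z * z), z * z} :
        Finset (FA A w)), Commute (c i) t ∧ ‖c i * t‖
          = ‖(![z₀, y₀, z₀ * z₀, y₀ * y₀] : Fin 4 → FA A w) i‖ * ‖t‖ :=
      fun i t ht => hcT i t (Finset.mem_union_right _ ht)
    obtain ⟨p1, p2, p3, p4, p5, p6⟩ := pair_mul (actEquiv α w d) hz hy m1 m2 m3 m4 m5 hzy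
      (hu 0 z u1).1 (hu 1 y u2).1 (hu 2 (y * y) u3).1 (hu 2 (actF α w d (z * z)) u5).1 rfl m6
    refine ⟨z * c 0, y * c 1, p1, p2, ?_, ?_, p5, ?_, fun g hg => ?_, fun a ha => ?_⟩
    · rw [p3]; exact (norm_mul_le _ _).trans (mul_le_one₀ hz1 (norm_nonneg _)
        ((hcn 2).trans_le hz₀1))
    · rw [p4]; exact (norm_mul_le _ _).trans (mul_le_one₀ hy1 (norm_nonneg _)
        ((hcn 3).trans_le hy₀1.le))
    · rw [p4, ← mul_assoc, ← (hu 3 (e * (y * y)) u4).1.eq,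
        (hu 3 (e * (y * y)) u4).2, hey, mul_one]
      exact hy₀1
    · rcases Finset.mem_insert.1 hg with rfl | hg
      · exact p6
      · rw [p3, map_mul, ← (hu 2 (z * z) u6).1.eq, mul_assoc, ← mul_assoc (z * z),
          hzd g hg, zero_mul, mul_zero]
    · exact ⟨(hT a ha).1.mul_left (hcT 0 a (Finset.mem_union_left _ ha)).1,
        (hT a ha).2.mul_left (hcT 1 a (Finset.mem_union_left _ ha)).1⟩

theorem eventsPin : EventsPin := by
  intro hIso A _ _ w hw hS G _ _ α Δ hΔ e _ he T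
  obtain ⟨z, y, hz, hy, hz1, hy1, hzy, hey, hzd, hT⟩ :=
    hasPairF (α := α) hw (hIso A w hw hS) hS.1 Δ hΔ e he T
  refine ⟨z * z, y * y, ⟨z, by rw [hz]⟩, ⟨y, by rw [hy]⟩, hz1, ?_, hzy, hey, hzd,
    fun a ha => ⟨(hT a ha).1.mul_left (hT a ha).1, (hT a ha).2.mul_left (hT a ha).2⟩⟩
  refine le_antisymm hy1 ?_
  have h := norm_mul_le e (y * y)
  rwa [hey, he, one_mul] at h

end Vale.Agent.P095.W
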