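import Vale.Agent.P095.W.Defs
import Vale.Agent.P095.SC.Pins
import Vale.Agent.P095.Tracial.Pins

/-!
P095, Theorem W: statements of the blocks (notes/P095/helper5_W.md).
W1 `LiftFPin`, `FirstPin`; W2 `IsometryPin`, `EventsPin`; W3 `FactorAPin`; W4 `AmplifyAPin`;
W5 `PiecesFPin`, `ComparePin`; W6 `SolvePin`, `AssemblePin`.
-/

namespace Vale.Agent.P095.W

open Filter Vale.Agent.P101 Vale.Agent.P095 Vale.Agent.P095.Rel Vale.Agent.P095.Tracial
open scoped Topology BoundedContinuousFunction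

noncomputable local instance {A : Type} [NonUnitalCStarAlgebra A] (w : Ultrafilter ℕ) :
    CStarAlgebra (centralSeq (w : Filter ℕ) (Unitization ℂ A)) :=
  StarSubalgebra.cstarAlgebra _ (h_closed := isClosed_centralSeq w)

/-- W1: an almost invariant lift in the central sequence algebra. -/
def LiftFPin : Prop :=
  ∀ (A : Type) [NonUnitalCStarAlgebra A] [TopologicalSpace.SeparableSpace A] (w : Ultrafilter ℕ),
    (w : Filter ℕ) ≤ cofinite → NoChar A w → ∀ (G : Type) [Group G] [Countable G],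
    Foelner G → ∀ α : G →* (A ≃⋆ₐ[ℂ] A), LiftF α w

/-- W2: norms in the central sequence algebra of a simple algebra are seen on every single element. -/
def IsometryPin : Prop :=
  ∀ (A : Type) [NonUnitalCStarAlgebra A] (w : Ultrafilter ℕ),
    (w : Filter ℕ) ≤ cofinite → IsTopSimple A → ∀ (f : CSeq A w) (a : A),
    Tendsto (fun n => ‖(f : ℕ →ᵇ Unitization ℂ A) n * (a : Unitization ℂ A)‖) (w : Filter ℕ)
      (𝓝 (‖cls f‖ * ‖a‖))

/-- W1: the first exact element. -/
def FirstPin : Prop :=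
  IsometryPin → ∀ (A : Type) [NonUnitalCStarAlgebra A] [TopologicalSpace.SeparableSpace A]
    (w : Ultrafilter ℕ), (w : Filter ℕ) ≤ cofinite → IsTopSimple A →
    ∀ (G : Type) [Group G] [Countable G] (α : G →* (A ≃⋆ₐ[ℂ] A)), LiftF α w → HasFirst α w

/-- W2: events. -/
def EventsPin : Prop :=
  IsometryPin → ∀ (A : Type) [NonUnitalCStarAlgebra A] [TopologicalSpace.SeparableSpace A]
    (w : Ultrafilter ℕ), (w : Filter ℕ) ≤ cofinite → IsTopSimple A →
    ∀ (G : Type) [Group G] [Countable G] (α : G →* (A ≃⋆ₐ[ℂ] A)), HasEvents α w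

/-- W3: excision and the factorization. -/
def FactorAPin : Prop :=
  ∀ (A : Type) [NonUnitalCStarAlgebra A] (w : Ultrafilter ℕ), (w : Filter ℕ) ≤ cofinite →
    IsTopSimple A → NoChar A w → IsNuclearA A → HasSplit A ∧ FactorA A

/-- W4: random arrays over a nuclear algebra. -/
def AmplifyAPin : Prop :=
  SC.MatrixPin → ∀ (A : Type) [NonUnitalCStarAlgebra A], IsNuclearA A →
    ∀ (a b L : ℕ), 0 < a → 0 < b → 0 < L →
      ∀ (k : ℕ) (z : Fin k → A) (δ : ℝ), 0 < δ → b * δ < a →
        ‖∑ i, star (z i) * z i‖ ≤ 1 → ‖∑ i, z i * star (z i)‖ ≤ δ →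
        ∃ (Q : ℕ) (v : Fin k → Fin (L * a * Q) → Fin (b * Q) → ℂ), 0 < Q ∧
          ‖SC.gram (fun r p => ∑ i, v i r p • (z i : Unitization ℂ A))
              - SC.diagConst (b * Q) (∑ i, star (z i : Unitization ℂ A) * z i)‖
            ≤ 30 / Real.sqrt L

/-- W5: exact pieces in the central sequence algebra. -/
def PiecesFPin : Prop :=
  ∀ (A : Type) [NonUnitalCStarAlgebra A] [TopologicalSpace.SeparableSpace A] (w : Ultrafilter ℕ),
    (w : Filter ℕ) ≤ cofinite → NoChar A w → PiecesF (FA A w)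

/-- W5: the comparison. -/
def ComparePin : Prop :=
  IsometryPin → SC.CertPin.{0} → SC.MatrixPin → AmplifyAPin →
    ∀ (A : Type) [NonUnitalCStarAlgebra A] [TopologicalSpace.SeparableSpace A]
    (w : Ultrafilter ℕ), (w : Filter ℕ) ≤ cofinite → IsTopSimple A → IsNuclearA A →
    HasSplit A → FactorA A → PiecesF (FA A w) → HasCompare A w

/-- W6: exact solutions for finitely many elements outside the kernel. -/
def SolvePin : Prop :=
  ∀ (A : Type) [NonUnitalCStarAlgebra A] [TopologicalSpace.SeparableSpace A] (w : Ultrafilter ℕ),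
    (w : Filter ℕ) ≤ cofinite → IsTopSimple A → ∀ (G : Type) [Group G] [Countable G]
    (α : G →* (A ≃⋆ₐ[ℂ] A)), LiftF α w → HasFirst α w → HasEvents α w → HasCompare A w →
    SolveTrace α w ∧ SolveTraceless α w

/-- W6: averaging over a Foelner set, and the diagonal. -/
def AssemblePin : Prop :=
  ∀ (A : Type) [NonUnitalCStarAlgebra A] [TopologicalSpace.SeparableSpace A] (w : Ultrafilter ℕ),
    (w : Filter ℕ) ≤ cofinite → ∀ (G : Type) [Group G] [Countable G] (α : G →* (A ≃⋆ₐ[ℂ] A)),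
    Foelner G → SolveTrace α w → SolveTraceless α w →
    ∃ φ : ZTwoThree → centralSeq (w : Filter ℕ) (Unitization ℂ A),
      IsFixedHomModAnn (w : Filter ℕ) (fun g => α g) φ

end Vale.Agent.P095.W
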