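import Vale.Agent.P095.W.FactorBasic
import Vale.Agent.P095.W.Pins

/-!
P095, Theorem W, block W3: excised values form a closed convex cone containing every completely
positive map into matrices, so nuclearity factors the identity through excised values.
-/

namespace Vale.Agent.P095.W

open Filter Vale.Agent.P101 Vale.Agent.P095 Vale.Agent.P095.SI
open scoped Topology BoundedContinuousFunction ComplexOrder

variable {A : Type} [NonUnitalCStarAlgebra A]

/-- The values are realised by one tuple of the algebra at one excising pair of the algebra. -/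
def ApproxA {ι : Type} (S : Finset A) (x : {a // a ∈ S} × ι × ι → ℂ) (ε : ℝ) : Prop :=
  ∃ (y : ι → Unitization ℂ A) (h h₀ : Unitization ℂ A), InI h ∧ (∀ i, InI (y i)) ∧
    SN.IsPair h h₀ ∧ ∀ t, ‖h * (star (y t.2.1) * ((t.1 : A) : Unitization ℂ A) * y t.2.2) * h
      - x t • (h * h)‖ ≤ ε

/-- Values realised with every tolerance. -/
def excised {ι : Type} (S : Finset A) : Set ({a // a ∈ S} × ι × ι → ℂ) :=
  {x | ∀ ε : ℝ, 0 < ε → ApproxA S x ε}

lemma norm_mul_self_pair {B : Type*} [CStarAlgebra B] {h h₀ : B} (hp : SN.IsPair h h₀) :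
    ‖h * h‖ ≤ 1 ∧ 1 ≤ ‖h * h‖ := by
  refine ⟨(norm_mul_le _ _).trans (mul_le_one₀ hp.2.2.1 (norm_nonneg _) hp.2.2.1), ?_⟩
  have h1 := norm_mul_le (h * h) h₀
  rwa [mul_assoc, hp.2.2.2.2, hp.2.2.2.2, hp.2.2.2.1, mul_one] at h1

lemma approxA_congr {ι : Type} [Fintype ι] {S : Finset A} {x x' : {a // a ∈ S} × ι × ι → ℂ}
    {ε η : ℝ} (h : ApproxA S x ε) (hx : ∀ t, ‖x t - x' t‖ ≤ η) : ApproxA S x' (ε + η) := by
  obtain ⟨y, h, h₀, hI, hy, hp, hb⟩ := h
  refine ⟨y, h, h₀, hI, hy, hp, fun t => ?_⟩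
  refine (norm_sub_le_norm_sub_add_norm_sub _ (x t • (h * h)) _).trans (add_le_add (hb t) ?_)
  rw [← sub_smul, norm_smul]
  exact (mul_le_mul (hx t) (norm_mul_self_pair hp).1 (norm_nonneg _)
    ((norm_nonneg _).trans (hx t))).trans_eq (mul_one η)

lemma isClosed_excised {ι : Type} [Fintype ι] (S : Finset A) : IsClosed (excised (ι := ι) S) := by
  refine isClosed_of_closure_subset fun x hx ε hε => ?_
  obtain ⟨x', hx', hd⟩ := Metric.mem_closure_iff.1 hx (ε / 2) (by positivity)
  have h := approxA_congr (x' := x) (η := ε / 2) (hx' (ε / 2) (by positivity)) fun t => by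
    rw [← dist_eq_norm, dist_comm]
    exact (dist_le_pi_dist x x' t).trans hd.le
  rwa [add_halves] at h

lemma zero_mem_excised (hA : ∃ a : A, a ≠ 0) {ι : Type} (S : Finset A) :
    (0 : {a // a ∈ S} × ι × ι → ℂ) ∈ excised S := by
  intro ε hε
  obtain ⟨h, h₀, hI, hp⟩ := exists_pair hA
  exact ⟨0, h, h₀, hI, fun i => by simp [InI], hp, fun t => by simpa using hε.le⟩

lemma smul_mem_excised (hA : ∃ a : A, a ≠ 0) {ι : Type} {S : Finset A}
    {x : {a // a ∈ S} × ι × ι → ℂ} (hx : x ∈ excised S) {r : ℝ} (hr : 0 ≤ r) :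
    r • x ∈ excised S := by
  rcases hr.eq_or_lt with rfl | hr0
  · rw [zero_smul]; exact zero_mem_excised hA S
  intro ε hε
  obtain ⟨y, h, h₀, hI, hy, hp, hb⟩ := hx (ε / r) (by positivity)
  refine ⟨fun i => (Real.sqrt r : ℂ) • y i, h, h₀, hI, fun i => (hy i).smul _, hp, fun t => ?_⟩
  have hrr : star (Real.sqrt r : ℂ) * (Real.sqrt r : ℂ) = (r : ℂ) := by
    rw [Complex.star_def, Complex.conj_ofReal, ← Complex.ofReal_mul, Real.mul_self_sqrt hr]
  have e : h * (star ((Real.sqrt r : ℂ) • y t.2.1) * ((t.1 : A) : Unitization ℂ A)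
        * ((Real.sqrt r : ℂ) • y t.2.2)) * h - (r • x) t • (h * h)
      = (r : ℂ) • (h * (star (y t.2.1) * ((t.1 : A) : Unitization ℂ A) * y t.2.2) * h
        - x t • (h * h)) := by
    rw [smul_sub, smul_smul (r : ℂ) (x t), Pi.smul_apply, Complex.real_smul, star_smul, ← hrr]
    simp only [smul_mul_assoc, mul_smul_comm, smul_smul]
    rw [mul_comm (Real.sqrt r : ℂ)]
  show ‖h * (star ((Real.sqrt r : ℂ) • y t.2.1) * ((t.1 : A) : Unitization ℂ A)
    * ((Real.sqrt r : ℂ) • y t.2.2)) * h - (r • x) t • (h * h)‖ ≤ ε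
  rw [e, norm_smul, Complex.norm_real, Real.norm_eq_abs, abs_of_pos hr0]
  exact (le_div_iff₀' hr0).1 (hb t)

lemma add_mem_excised {w : Ultrafilter ℕ} (hχ : NoChar A w) (hA : IsTopSimple A) {ι : Type}
    [Fintype ι] {S : Finset A} {x₁ x₂ : {a // a ∈ S} × ι × ι → ℂ} (h₁ : x₁ ∈ excised S)
    (h₂ : x₂ ∈ excised S) : x₁ + x₂ ∈ excised S := by
  classical
  intro ε hε
  obtain ⟨y₁, k₁, k₁', hI₁, hy₁, hp₁, hb₁⟩ := h₁ (ε / 4) (by positivity)
  obtain ⟨y₂, k₂, k₂', hI₂, hy₂, hp₂, hb₂⟩ := h₂ (ε / 4) (by positivity)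
  let ext : ({a // a ∈ S} × ι × ι → ℂ) → Unitization ℂ A → ι → ι → ℂ := fun x b i j =>
    if h : b.snd ∈ S then x (⟨b.snd, h⟩, i, j) else 0
  have hext : ∀ (x : {a // a ∈ S} × ι × ι → ℂ) (a : {a // a ∈ S}) (i j : ι),
      ext x ((a : A) : Unitization ℂ A) i j = x (a, i, j) := fun x a i j => by
    simp [ext]
  obtain ⟨v, H, H₀, hH, hkH, hb⟩ := SN.approx_add_of
    (Finset.univ.image fun a : {a // a ∈ S} => ((a : A) : Unitization ℂ A))
    (l₁ := ext x₁) (l₂ := ext x₂) (show 0 < ε / 4 by positivity) hp₁ hp₂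
    (fun b hb i j => by
      obtain ⟨a, -, rfl⟩ := Finset.mem_image.1 hb
      rw [hext]; exact hb₁ (a, i, j))
    (fun b hb i j => by
      obtain ⟨a, -, rfl⟩ := Finset.mem_image.1 hb
      rw [hext]; exact hb₂ (a, i, j))
    (exists_piecesA hχ hI₂ hp₂)
    fun q k hq hk hq' hk' => hA.connect (hI₂.of_left hq') (hI₁.of_left hk') hq hk
  refine ⟨fun i => y₁ i + y₂ i * v, H, H₀, hI₁.of_left hkH, fun i => (hy₁ i).add ((hy₂ i).mul_right v),
    hH, fun t => ?_⟩
  obtain ⟨a, i, j⟩ := t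
  have h := hb _ (Finset.mem_image.2 ⟨a, Finset.mem_univ a, rfl⟩) i j
  simp only [Pi.add_apply, hext] at h
  simp only [Pi.add_apply]
  exact h.trans (by linarith)

lemma convex_excised {w : Ultrafilter ℕ} (hχ : NoChar A w) (hA : IsTopSimple A) {ι : Type}
    [Fintype ι] (S : Finset A) : Convex ℝ (excised (ι := ι) S) :=
  fun _ hx _ hy _ _ hr hs _ =>
    add_mem_excised hχ hA (smul_mem_excised hA.1 hx hr) (smul_mem_excised hA.1 hy hs)

/-- A real functional on finitely many complex coordinates is the real part of a complex one. -/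
lemma exists_re_rep {T : Type*} [Fintype T] (f : (T → ℂ) →L[ℝ] ℝ) :
    ∃ c : T → ℂ, ∀ x, f x = (∑ t, c t * x t).re := by
  classical
  refine ⟨fun t => (f (Pi.single t (1 : ℂ)) : ℂ) - Complex.I * (f (Pi.single t (Complex.I : ℂ)) : ℂ),
    fun x => ?_⟩
  rw [Complex.re_sum]
  conv_lhs => rw [← Finset.univ_sum_single x, map_sum]
  refine Finset.sum_congr rfl fun t _ => ?_
  have e : (Pi.single t (x t) : T → ℂ)
      = (x t).re • (Pi.single t 1 : T → ℂ) + (x t).im • (Pi.single t Complex.I : T → ℂ) := by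
    rw [← Pi.single_smul, ← Pi.single_smul, ← Pi.single_add]
    congr 1
    apply Complex.ext <;> simp
  rw [e, map_add, map_smul, map_smul]
  simp [Complex.mul_re, mul_comm]

section Order

variable [PartialOrder (Unitization ℂ A)] [StarOrderedRing (Unitization ℂ A)]

/-- A pair of the algebra where a self-adjoint element is above half a positive spectral value. -/
lemma exists_large_pair {P : Unitization ℂ A} (hPI : InI P) (hPs : IsSelfAdjoint P) {t₀ : ℝ}
    (ht₀ : t₀ ∈ spectrum ℝ P) (hneg : 0 < t₀) : ∃ k k₀ : Unitization ℂ A, InI k ∧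
      SN.IsPair k k₀ ∧ (t₀ / 2) • (k * k) ≤ k * P * k := by
  let φ : ℝ → ℝ := fun s => max 0 (min 1 (4 * s / t₀ - 2))
  let φ₀ : ℝ → ℝ := fun s => max 0 (min 1 (4 * s / t₀ - 3))
  have hφ : Continuous φ := by fun_prop
  have hφ₀ : Continuous φ₀ := by fun_prop
  have hφ0 : ∀ s, 0 ≤ φ s := fun s => le_max_left _ _
  have hφ1 : ∀ s, φ s ≤ 1 := fun s => max_le zero_le_one (min_le_left _ _)
  have hlow : ∀ s, φ s ≠ 0 → t₀ / 2 ≤ s := by
    intro s hs
    by_contra h
    rw [not_le] at h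
    exact hs (max_eq_left (min_le_iff.2 (Or.inr (by rw [sub_nonpos, div_le_iff₀ hneg]; linarith))))
  refine ⟨cfc φ P, cfc φ₀ P, hPI.cfc hPs (g := fun s => φ s / max s (t₀ / 2)) ?_ fun s => ?_,
    ⟨SN.isPos_cfc hPs hφ hφ0, SN.isPos_cfc hPs hφ₀ fun s => le_max_left _ _,
      norm_cfc_le zero_le_one fun s _ => by
        rw [Real.norm_eq_abs, abs_of_nonneg (hφ0 s)]; exact hφ1 s,
      norm_cfc_eq_one hφ₀ (fun s => by
        simp only [φ₀]
        rw [abs_of_nonneg (le_max_left _ _)]; exact max_le zero_le_one (min_le_left _ _)) hPs ht₀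
        (by simp only [φ₀]; rw [mul_div_assoc, div_self hneg.ne']; norm_num), ?_⟩, ?_⟩
  · exact hφ.div₀ (by fun_prop) fun s => (lt_max_of_lt_right (by positivity : (0 : ℝ) < t₀ / 2)).ne'
  · by_cases h0 : φ s = 0
    · simp [h0]
    · have h1 := hlow s h0
      have h2 : s ≠ 0 := by linarith
      rw [max_eq_left h1]
      field_simp
  · rw [← cfc_mul φ φ₀ P hφ.continuousOn hφ₀.continuousOn]
    refine cfc_congr fun s _ => ?_
    rcases le_total (4 * s / t₀ - 3) 0 with h | h
    · simp only [φ₀, max_eq_left (min_le_iff.2 (Or.inr h)), mul_zero]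
    · simp only [φ, min_eq_left (by linarith : (1 : ℝ) ≤ 4 * s / t₀ - 2), max_eq_right zero_le_one,
        one_mul]
  · clear_value φ
    nth_rewrite 4 [← cfc_id' ℝ P]
    have h1 : Continuous fun s => φ s * φ s := hφ.mul hφ
    have h2 : Continuous fun s => φ s * s := hφ.mul continuous_id
    rw [← cfc_mul φ φ P hφ.continuousOn hφ.continuousOn,
      ← cfc_const_mul (t₀ / 2) (fun s => φ s * φ s) P h1.continuousOn,
      ← cfc_mul φ (fun s => s) P hφ.continuousOn continuousOn_id,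
      ← cfc_mul (fun s => φ s * s) φ P h2.continuousOn hφ.continuousOn]
    refine cfc_mono (fun s _ => ?_) (h1.const_smul (t₀ / 2)).continuousOn (h2.mul hφ).continuousOn
    by_cases h0 : φ s = 0
    · simp [h0]
    · nlinarith [hlow s h0, mul_pos (lt_of_le_of_ne (hφ0 s) (Ne.symm h0))
        (lt_of_le_of_ne (hφ0 s) (Ne.symm h0))]

/-- Where an element dominates, an approximate value of its half has large real part. -/
lemma re_lower {k k₀ h h₀ X : Unitization ℂ A} (hk : SN.IsPair k k₀) (hp : SN.IsPair h h₀)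
    (hkh : k * h = h) {b δ : ℝ} (hkP : b • (k * k) ≤ k * (X + star X) * k) {f : ℂ}
    (hX : ‖h * X * h - f • (h * h)‖ ≤ δ) : b - 2 * δ ≤ 2 * f.re := by
  by_contra hlt
  rw [not_le] at hlt
  have hhs := hp.1.isSelfAdjoint
  obtain ⟨D, hD⟩ : ∃ D, D = h * X * h - f • (h * h) := ⟨_, rfl⟩
  have hE : D + star D = h * (X + star X) * h - (2 * f.re) • (h * h) := by
    have h1 : (2 * f.re) • (h * h) = f • (h * h) + (star f) • (h * h) := by
      rw [← add_smul, Complex.star_def, Complex.add_conj, ← algebraMap_smul ℂ (2 * f.re) (h * h)]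
      rfl
    rw [h1, hD, star_sub, star_smul, star_mul, star_mul, star_mul, hhs.star_eq]
    simp only [mul_add, add_mul, mul_assoc]
    abel
  have hlow2 : b • (h * h) ≤ h * (X + star X) * h := by
    have hh : h * k = h := SN.mul_absorb hk.1.isSelfAdjoint hhs hkh
    have h1 := star_left_conjugate_le_conjugate hkP h
    rwa [hhs.star_eq, mul_smul_comm, smul_mul_assoc,
      show h * (k * k) * h = h * h by rw [← mul_assoc, hh, mul_assoc, hkh],
      show h * (k * (X + star X) * k) * h = h * (X + star X) * h by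
        rw [← mul_assoc, ← mul_assoc, hh, mul_assoc _ _ h, hkh]] at h1
  have hsmall : ‖D + star D‖ ≤ 2 * δ := by
    refine (norm_add_le _ _).trans ?_
    rw [norm_star, hD]; linarith
  have hδ : 0 ≤ δ := (norm_nonneg _).trans hX
  have hd : 0 ≤ b - 2 * f.re := by linarith
  have h3 : (b - 2 * f.re) • (h * h) ≤ D + star D := by
    rw [hE, sub_smul]
    exact sub_le_sub_right hlow2 _
  have h4 : (0 : Unitization ℂ A) ≤ (b - 2 * f.re) • (h * h) :=
    smul_nonneg hd (by simpa [hhs.star_eq] using star_mul_self_nonneg h)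
  have h5 := CStarAlgebra.norm_le_norm_of_nonneg_of_le h4 h3
  rw [norm_smul, Real.norm_eq_abs, abs_of_nonneg hd] at h5
  nlinarith [(norm_mul_self_pair hp).2]

end Order

/-- Values at excising pairs below a pair cluster at excised values. -/
lemma exists_cluster {n : ℕ} (S : Finset A) (y : Fin n → A) {k k₀ : Unitization ℂ A} (hkI : InI k)
    (hk : SN.IsPair k k₀) (z : {a // a ∈ S} × Fin n × Fin n → Unitization ℂ A)
    (hz : ∀ t, z t = star (y t.2.1 : Unitization ℂ A) * ((t.1 : A) : Unitization ℂ A)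
      * (y t.2.2 : Unitization ℂ A)) :
    ∃ (L : {a // a ∈ S} × Fin n × Fin n → ℂ), L ∈ excised S ∧ ∀ η : ℝ, 0 < η →
      ∃ (h h₀ : Unitization ℂ A) (x : {a // a ∈ S} × Fin n × Fin n → ℂ), SN.IsPair h h₀ ∧
        k * h = h ∧ ‖x - L‖ ≤ η ∧ ∀ t, ‖h * z t * h - x t • (h * h)‖ ≤ η := by
  classical
  have hex : ∀ m : ℕ, ∃ (h h₀ : Unitization ℂ A) (x : {a // a ∈ S} × Fin n × Fin n → ℂ),
      InI h ∧ SN.IsPair h h₀ ∧ k * h = h ∧
        ∀ t, ‖h * z t * h - x t • (h * h)‖ ≤ 1 / ((m : ℝ) + 1) := by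
    intro m
    let := CStarAlgebra.spectralOrder (Unitization ℂ A)
    have := CStarAlgebra.spectralOrderedRing (Unitization ℂ A)
    obtain ⟨h, h₀, lam, hp, hkh, hb⟩ :=
      SN.excise_below hk (Finset.univ.image z) (show 0 < 1 / ((m : ℝ) + 1) by positivity)
    exact ⟨h, h₀, fun t => lam (z t), hkI.of_left hkh, hp, hkh,
      fun t => hb _ (Finset.mem_image_of_mem z (Finset.mem_univ t))⟩
  choose h h₀ x hhI hhp hkh hb using hex
  have hR : ∀ m, x m ∈ Metric.closedBall (0 : {a // a ∈ S} × Fin n × Fin n → ℂ)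
      (1 + ∑ t, ‖z t‖) := by
    intro m
    rw [mem_closedBall_zero_iff, pi_norm_le_iff_of_nonneg (by positivity)]
    intro t
    have h1 : ‖x m t • (h m * h m)‖ ≤ ‖z t‖ + 1 := by
      refine (norm_le_norm_add_norm_sub' _ (h m * z t * h m)).trans (add_le_add ?_ ?_)
      · refine norm_mul₃_le.trans ?_
        calc ‖h m‖ * ‖z t‖ * ‖h m‖ ≤ 1 * ‖z t‖ * 1 := by
              gcongr <;> exact (hhp m).2.2.1
          _ = ‖z t‖ := by ring
      · rw [norm_sub_rev]
        exact (hb m t).trans (div_le_one_of_le₀ (by simp) (by positivity))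
    rw [norm_smul] at h1
    have h2 := Finset.single_le_sum (fun t' _ => norm_nonneg (z t')) (Finset.mem_univ t)
    nlinarith [norm_nonneg (x m t), (norm_mul_self_pair (hhp m)).2]
  obtain ⟨L, -, ψ, hψ, hlim⟩ := (isCompact_closedBall _ _).tendsto_subseq hR
  have hε : Tendsto (fun m => 1 / ((ψ m : ℝ) + 1)) atTop (𝓝 0) :=
    tendsto_one_div_add_atTop_nhds_zero_nat.comp hψ.tendsto_atTop
  have hnear : ∀ η : ℝ, 0 < η → ∃ m, 1 / ((ψ m : ℝ) + 1) ≤ η ∧ ‖x (ψ m) - L‖ ≤ η := by
    intro η hη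
    obtain ⟨m, hm1, hm2⟩ := ((hε.eventually (ge_mem_nhds hη)).and
      (hlim.eventually (Metric.closedBall_mem_nhds L hη))).exists
    exact ⟨m, hm1, mem_closedBall_iff_norm.1 hm2⟩
  refine ⟨L, fun ε hε0 => ?_, fun η hη => ?_⟩
  · obtain ⟨m, hm1, hm2⟩ := hnear (ε / 2) (by positivity)
    have h1 : ApproxA S (x (ψ m)) (ε / 2) :=
      ⟨fun i => (y i : Unitization ℂ A), h (ψ m), h₀ (ψ m), hhI _, fun i => inI_inr _, hhp _,
        fun t => by rw [← hz]; exact (hb (ψ m) t).trans hm1⟩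
    have h2 := approxA_congr (x' := L) (η := ε / 2) h1 fun t =>
      (norm_le_pi_norm (x (ψ m) - L) t).trans hm2
    rwa [add_halves] at h2
  · obtain ⟨m, hm1, hm2⟩ := hnear η hη
    exact ⟨_, _, _, hhp (ψ m), hkh _, hm2, fun t => (hb _ t).trans hm1⟩

/-- A coefficient array nonpositive on excised values makes every form nonpositive. -/
lemma isPos_neg_form {n : ℕ} (S : Finset A) (c : {a // a ∈ S} × Fin n × Fin n → ℂ)
    (hc : ∀ x ∈ excised S, (∑ t, c t * x t).re ≤ 0) (y : Fin n → A)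
    (z : {a // a ∈ S} × Fin n × Fin n → Unitization ℂ A)
    (hz : ∀ t, z t = star (y t.2.1 : Unitization ℂ A) * ((t.1 : A) : Unitization ℂ A)
      * (y t.2.2 : Unitization ℂ A)) :
    SN.IsPos (-((∑ t, c t • z t) + star (∑ t, c t • z t))) := by
  let := CStarAlgebra.spectralOrder (Unitization ℂ A)
  have := CStarAlgebra.spectralOrderedRing (Unitization ℂ A)
  obtain ⟨X, hX⟩ : ∃ X, X = ∑ t, c t • z t := ⟨_, rfl⟩
  rw [← hX]
  have hXI : InI X := hX ▸ inI_sum _ _ fun t _ =>
    ((hz t).symm ▸ ((inI_inr _).mul_left _).mul_right _ : InI (z t)).smul _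
  have hPs : IsSelfAdjoint (X + star X) := by
    rw [isSelfAdjoint_iff, star_add, star_star, add_comm]
  suffices h : ∀ t ∈ spectrum ℝ (X + star X), t ≤ 0 by
    have h0 : (0 : Unitization ℂ A) ≤ -(X + star X) := by
      rw [StarOrderedRing.nonneg_iff_spectrum_nonneg (R := ℝ) _ hPs.neg]
      intro t ht
      rw [← spectrum.neg_eq, Set.mem_neg] at ht
      linarith [h _ ht]
    obtain ⟨w, hw⟩ := CStarAlgebra.nonneg_iff_eq_star_mul_self.1 h0
    exact ⟨w, hw.symm⟩
  intro t₀ ht₀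
  by_contra hneg
  rw [not_le] at hneg
  obtain ⟨k, k₀, hkI, hk, hkP⟩ := exists_large_pair (hXI.add hXI.star) hPs ht₀ hneg
  obtain ⟨L, hL, hnear⟩ := exists_cluster S y hkI hk z hz
  obtain ⟨C, hC⟩ : ∃ C, C = ∑ t, ‖c t‖ := ⟨_, rfl⟩
  have hC0 : 0 ≤ C := hC ▸ by positivity
  obtain ⟨h, h₀, x, hp, hkh, hxL, hb⟩ := hnear (t₀ / (16 * (C + 1))) (by positivity)
  have h1 : ‖h * X * h - (∑ t, c t * x t) • (h * h)‖ ≤ C * (t₀ / (16 * (C + 1))) := by
    have e : h * X * h - (∑ t, c t * x t) • (h * h)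
        = ∑ t, c t • (h * z t * h - x t • (h * h)) := by
      rw [hX, Finset.sum_smul, Finset.mul_sum, Finset.sum_mul, ← Finset.sum_sub_distrib]
      refine Finset.sum_congr rfl fun t _ => ?_
      rw [mul_smul_comm, smul_mul_assoc, smul_sub, smul_smul]
    rw [e]
    refine (norm_sum_le_of_le _ (n := fun t => ‖c t‖ * (t₀ / (16 * (C + 1)))) fun t _ => ?_).trans_eq
      (by rw [← Finset.sum_mul, ← hC])
    rw [norm_smul]; gcongr; exact hb t
  have h2 := re_lower hk hp hkh hkP h1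
  have h3 : |(∑ t, c t * x t).re - (∑ t, c t * L t).re| ≤ C * (t₀ / (16 * (C + 1))) := by
    rw [← Complex.sub_re, ← Finset.sum_sub_distrib]
    refine ((Complex.abs_re_le_norm _).trans (norm_sum_le_of_le _
      (n := fun t => ‖c t‖ * (t₀ / (16 * (C + 1)))) fun t _ => ?_)).trans_eq
      (by rw [← Finset.sum_mul, ← hC])
    rw [← mul_sub, norm_mul]
    gcongr
    exact (norm_le_pi_norm (x - L) t).trans hxL
  have h4 : C * (t₀ / (16 * (C + 1))) ≤ t₀ / 16 := by
    rw [mul_div_assoc', div_le_iff₀ (by positivity)]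
    nlinarith
  linarith [hc L hL, (abs_le.1 h3).2]

/-- Every completely positive map into matrices is excised. -/
theorem cp_mem_excised {w : Ultrafilter ℕ} (hχ : NoChar A w) (hA : IsTopSimple A) {n : ℕ}
    {φ : A →ₗ[ℂ] Matrix (Fin n) (Fin n) ℂ} (hφ : IsCPTo φ) (S : Finset A) :
    (fun t : {a // a ∈ S} × Fin n × Fin n => φ (t.1 : A) t.2.1 t.2.2) ∈ excised S := by
  classical
  by_contra hx
  obtain ⟨f, u, hfu, hux⟩ :=
    geometric_hahn_banach_closed_point (convex_excised hχ hA S) (isClosed_excised S) hx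
  obtain ⟨c, hc⟩ := exists_re_rep f
  have hcone : ∀ x ∈ excised S, (∑ t, c t * x t).re ≤ 0 := by
    intro x hx'
    rw [← hc]
    by_contra h
    rw [not_le] at h
    have h2 := hfu _ (smul_mem_excised hA.1 hx' (r := |u| / f x + 1) (by positivity))
    rw [map_smul, smul_eq_mul, add_mul, one_mul, div_mul_cancel₀ _ h.ne'] at h2
    linarith [le_abs_self u]
  have hu : 0 < u := by simpa using hfu 0 (zero_mem_excised hA.1 S)
  obtain ⟨M, hM⟩ : ∃ M : Fin n → Fin n → A, M = fun k l => ∑ a : {a // a ∈ S}, c (a, k, l) • (a : A) :=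
    ⟨_, rfl⟩
  obtain ⟨T, hT⟩ : ∃ T : Fin n → Fin n → A, T = fun k l => -(M k l + star (M l k)) := ⟨_, rfl⟩
  have hform : ∀ y : Fin n → A,
      SN.IsPos (qf (fun k l => (T k l : Unitization ℂ A)) fun k => (y k : Unitization ℂ A)) := by
    intro y
    refine (congrArg SN.IsPos ?_).mp (isPos_neg_form S c hcone y _ fun t => rfl)
    have e1 : (∑ t : {a // a ∈ S} × Fin n × Fin n, c t • (star (y t.2.1 : Unitization ℂ A)
          * ((t.1 : A) : Unitization ℂ A) * (y t.2.2 : Unitization ℂ A)))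
        = ∑ k, ∑ l, star (y k : Unitization ℂ A) * (M k l : Unitization ℂ A) * (y l : _) := by
      rw [Fintype.sum_prod_type, Finset.sum_comm]
      simp only [Fintype.sum_prod_type]
      refine Finset.sum_congr rfl fun k _ => Finset.sum_congr rfl fun l _ => ?_
      rw [hM, show ((∑ a : {a // a ∈ S}, c (a, k, l) • (a : A) : A) : Unitization ℂ A)
          = ∑ a : {a // a ∈ S}, c (a, k, l) • ((a : A) : Unitization ℂ A) from
        (map_sum (Unitization.inrNonUnitalStarAlgHom ℂ A) _ _).trans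
          (Finset.sum_congr rfl fun a _ => Unitization.inr_smul ℂ _ _), Finset.mul_sum, Finset.sum_mul]
      simp only [mul_smul_comm, smul_mul_assoc]
    rw [e1, hT, star_sum]
    simp only [star_sum, qf, Unitization.inr_neg, Unitization.inr_add, mul_neg, neg_mul,
      Finset.sum_neg_distrib, mul_add, add_mul, Finset.sum_add_distrib, star_mul, star_star,
      mul_assoc, Unitization.inr_star]
    congr 2
    exact Finset.sum_comm
  obtain ⟨R, hR⟩ := exists_squaresA T hform
  have h0 := hφ.sum_nonneg R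
  simp only [← hR, hT, map_neg, map_add, hφ.map_star, Matrix.neg_apply, Matrix.add_apply,
    Matrix.conjTranspose_apply, Finset.sum_neg_distrib, Finset.sum_add_distrib] at h0
  have e2 : (∑ k, ∑ l, φ (M k l) k l)
      = ∑ t : {a // a ∈ S} × Fin n × Fin n, c t * φ (t.1 : A) t.2.1 t.2.2 := by
    rw [Fintype.sum_prod_type, Finset.sum_comm (γ := {a // a ∈ S})]
    simp only [Fintype.sum_prod_type]
    refine Finset.sum_congr rfl fun k _ => Finset.sum_congr rfl fun l _ => ?_
    simp [hM, map_sum, map_smul, Matrix.sum_apply]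
  have e3 : (∑ k, ∑ l, star (φ (M l k) l k)) = star (∑ k, ∑ l, φ (M k l) k l) := by
    rw [Finset.sum_comm]
    simp only [star_sum]
  rw [e3, e2, Complex.star_def, Complex.le_def] at h0
  have h1 := h0.1
  simp only [Complex.zero_re, Complex.neg_re, Complex.add_re, Complex.conj_re] at h1
  rw [hc] at hux
  linarith

/-- The block diagonal amplification of a completely positive map is completely positive. -/
lemma exists_amp {n : ℕ} {φ : A →ₗ[ℂ] Matrix (Fin n) (Fin n) ℂ} (hφ : IsCPTo φ) :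
    ∃ φ' : A →ₗ[ℂ] Matrix (Fin (n * n)) (Fin (n * n)) ℂ, IsCPTo φ' ∧
      ∀ a i j, φ' a i j = if (finProdFinEquiv.symm i).1 = (finProdFinEquiv.symm j).1 then
        φ a (finProdFinEquiv.symm i).2 (finProdFinEquiv.symm j).2 else 0 := by
  classical
  let φ' : A →ₗ[ℂ] Matrix (Fin (n * n)) (Fin (n * n)) ℂ :=
    { toFun := fun a => Matrix.of fun i j =>
        if (finProdFinEquiv.symm i).1 = (finProdFinEquiv.symm j).1 then
          φ a (finProdFinEquiv.symm i).2 (finProdFinEquiv.symm j).2 else 0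
      map_add' := fun a b => by ext i j; simp only [map_add, Matrix.add_apply, Matrix.of_apply]; split <;> simp
      map_smul' := fun r a => by
        ext i j; simp only [map_smul, Matrix.smul_apply, Matrix.of_apply, RingHom.id_apply]; split <;> simp }
  refine ⟨φ', fun m a => ?_, fun a i j => rfl⟩
  have h := ((Matrix.PosSemidef.one (n := Fin n) (R := ℂ)).kronecker (hφ m a)).submatrix
    (fun p : Fin m × Fin (n * n) => ((finProdFinEquiv.symm p.2).1, p.1, (finProdFinEquiv.symm p.2).2))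
  refine (congrArg Matrix.PosSemidef ?_).mp h
  ext p q
  simp [φ', Matrix.one_apply, Matrix.kroneckerMap_apply]

/-- The factorization. -/
theorem factorA {w : Ultrafilter ℕ} (hχ : NoChar A w) (hA : IsTopSimple A) (hN : IsNuclearA A) :
    FactorA A := by
  classical
  intro S η hη
  obtain ⟨n, φ, ψ, hφ, hψ, -, -, happ⟩ := hN S η hη
  obtain ⟨c, hc⟩ : ∃ c : Fin n → Fin n → A,
      ∀ k l, ψ (Matrix.single k l 1) = ∑ r, star (c r k) * c r l := by
    refine exists_squaresA (fun k l => ψ (Matrix.single k l 1)) fun y => ?_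
    rcases n.eq_zero_or_pos with rfl | hn
    · exact ⟨0, by simp [qf]⟩
    obtain ⟨z, hz⟩ := hψ n (fun i => Matrix.single ⟨0, hn⟩ i 1) y
    refine ⟨(z : Unitization ℂ A), ?_⟩
    rw [← Unitization.inr_star, ← Unitization.inr_mul, hz]
    change Unitization.inrNonUnitalStarAlgHom ℂ A _ = _
    simp [qf, Matrix.conjTranspose_single]
  obtain ⟨φ', hφ', happ'⟩ := exists_amp hφ
  obtain ⟨c', hc'⟩ : ∃ c' : Fin (n * n) → A, c' = fun i =>
      c (finProdFinEquiv.symm i).1 (finProdFinEquiv.symm i).2 := ⟨_, rfl⟩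
  obtain ⟨K, hK⟩ : ∃ K : ℝ, K = ∑ i, ∑ j, ‖c' i‖ * ‖c' j‖ := ⟨_, rfl⟩
  have hK0 : 0 ≤ K := hK ▸ by positivity
  obtain ⟨d, h, h₀, hI, hd, hp, hb⟩ := cp_mem_excised hχ hA hφ' S (η / (K + 1)) (by positivity)
  obtain ⟨h0I, hpA⟩ := (pairA_iff hI).1 hp
  refine ⟨n * n, c', fun i => (d i).snd, fun a i j => φ' a i j, h.snd, h₀.snd, hpA, fun a ha => ⟨?_, ?_⟩⟩
  · have e : (∑ i, ∑ j, φ' a i j • (star (c' i) * c' j)) = ψ (φ a) := by
      rw [← finProdFinEquiv.sum_comp]
      refine (Finset.sum_congr rfl fun i _ => (finProdFinEquiv.sum_comp _).symm).trans ?_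
      simp only [hc',
        happ', Equiv.symm_apply_apply, Fintype.sum_prod_type, ite_smul, zero_smul,
        Finset.sum_ite_irrel, Finset.sum_const_zero, Finset.sum_ite_eq, Finset.mem_univ, if_true]
      rw [Finset.sum_comm]
      conv_rhs => rw [Matrix.matrix_eq_sum_single (φ a), map_sum]
      refine Finset.sum_congr rfl fun k _ => ?_
      rw [map_sum, Finset.sum_comm]
      refine Finset.sum_congr rfl fun l _ => ?_
      rw [show Matrix.single k l (φ a k l) = φ a k l • Matrix.single k l (1 : ℂ) by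
        rw [Matrix.smul_single, smul_eq_mul, mul_one], map_smul, hc, Finset.smul_sum]
    rw [e]; exact happ a ha
  · have h1 : ∀ i j, ‖h.snd * (star (d i).snd * a * (d j).snd) * h.snd - φ' a i j • (h.snd * h.snd)‖
        ≤ η / (K + 1) := by
      intro i j
      have h2 := hb (⟨a, ha⟩, i, j)
      rw [hI.eq_inr, (hd i).eq_inr, (hd j).eq_inr] at h2
      simp only [← Unitization.inr_star, ← Unitization.inr_mul, ← Unitization.inr_smul,
        ← Unitization.inr_sub, Unitization.norm_inr] at h2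
      exact h2
    refine (Finset.sum_le_sum fun i _ => Finset.sum_le_sum fun j _ =>
      mul_le_mul_of_nonneg_left (h1 i j) (by positivity)).trans ?_
    simp only [← Finset.sum_mul, ← hK]
    rw [mul_div_assoc', div_le_iff₀ (by positivity)]
    nlinarith

theorem factorAPin : FactorAPin :=
  fun _ _ _ _ hA hχ hN => ⟨hasSplit hχ, factorA hχ hA hN⟩

end Vale.Agent.P095.W
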