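import Vale.Agent.P095.W.Assemble
import Vale.Agent.P095.Tracial.TraceBasic

/-!
P095, Theorem W, block W1: the exactly invariant square zero element of norm one. A trace keeps the
norm of almost solutions near one; single elements of the algebra see that norm through the diagonal.
-/

namespace Vale.Agent.P095.W

open Filter Vale.Agent.P101 Vale.Agent.P095 Vale.Agent.P095.Rel Vale.Agent.P095.Tracial
open scoped Topology BoundedContinuousFunction

variable {A : Type} [NonUnitalCStarAlgebra A] (w : Ultrafilter ℕ)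

noncomputable local instance cseqFirst : CStarAlgebra (CSeq A w) :=
  StarSubalgebra.cstarAlgebra _ (h_closed := isClosed_centralSeq w)

/-- A trace sees that an almost solution has norm almost one. -/
lemma norm_sq_ge_of_trace {F : Type*} [CStarAlgebra F] {τ : F → ℂ}
    (hτ : IsTraceOn (⊤ : StarSubalgebra ℂ F) τ) {x : F} {ε : ℝ} (hx : ‖x‖ ≤ 1)
    (hε : ε ≤ 1 / 16) (h1 : tsq τ (1 - sq2 x) ≤ ε)
    (h2 : (τ (star x * x * (1 - star x * x))).re ≤ ε) : 1 - 4 * ε ≤ ‖x‖ ^ 2 := by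
  let := CStarAlgebra.spectralOrder F
  have := CStarAlgebra.spectralOrderedRing F
  obtain ⟨e, he⟩ : ∃ e : F, e = star x * x := ⟨_, rfl⟩
  obtain ⟨t, ht⟩ : ∃ t : ℝ, t = (τ e).re := ⟨_, rfl⟩
  have ht0 : 0 ≤ t := by rw [ht, he]; exact (hτ.pos x trivial).1
  -- Cauchy-Schwarz against the unit
  have hcs : (τ (1 - sq2 x)).re ≤ 2⁻¹ * (tsq τ (1 - sq2 x) * 4 + 1 / 4) := by
    obtain ⟨z, hz⟩ : ∃ z : F, z = 1 - sq2 x := ⟨_, rfl⟩
    rw [← hz]
    have hzs : star z = z := by
      rw [hz, sq2, star_sub, star_one, star_add, star_mul, star_mul, star_star]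
    have h := (hτ.pos ((2 : ℂ) • z - (2⁻¹ : ℂ) • (1 : F)) trivial).1
    have e1 : star ((2 : ℂ) • z - (2⁻¹ : ℂ) • (1 : F)) * ((2 : ℂ) • z - (2⁻¹ : ℂ) • (1 : F))
        = (4 : ℂ) • (star z * z) - (2 : ℂ) • z + (4⁻¹ : ℂ) • (1 : F) := by
      rw [star_sub, star_smul, star_smul, star_one, hzs]
      simp only [Complex.star_def, map_ofNat, map_inv₀, sub_mul, mul_sub, smul_mul_smul_comm,
        one_mul, mul_one]
      norm_num
      module
    rw [e1, hτ.add _ trivial _ trivial, hτ.map_sub trivial trivial, hτ.smul _ _ trivial,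
      hτ.smul _ _ trivial, hτ.smul _ _ trivial, hτ.one] at h
    simp only [Complex.add_re, Complex.sub_re, Complex.mul_re, Complex.one_re, Complex.one_im] at h
    norm_num [Complex.inv_re, Complex.inv_im, Complex.normSq_apply] at h
    rw [tsq]
    linarith
  have hsq2 : (τ (1 - sq2 x)).re = 1 - 2 * t := by
    rw [hτ.map_sub trivial trivial, hτ.one, sq2, hτ.add _ trivial _ trivial,
      hτ.tracial x trivial (star x) trivial, Complex.sub_re, Complex.add_re, ← he, ← ht,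
      Complex.one_re]
    ring
  have ht4 : 1 / 4 ≤ t := by nlinarith
  have h2' : t - (τ (e * e)).re ≤ ε := by
    rw [← he, mul_sub, mul_one, hτ.map_sub trivial trivial, Complex.sub_re, ← ht] at h2
    exact h2
  have h3 : (τ (e * e)).re ≤ ‖x‖ ^ 2 * t := by
    obtain ⟨w', hw'⟩ := CStarAlgebra.nonneg_iff_eq_star_mul_self.1
      (sub_nonneg.2 (IsSelfAdjoint.le_algebraMap_norm_self (IsSelfAdjoint.star_mul_self (star x))))
    have h4 := (hτ.pos (w' * x) trivial).1
    have e2 : star (w' * x) * (w' * x) = (‖x‖ ^ 2 : ℂ) • e - e * e := by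
      rw [star_mul, show star x * star w' * (w' * x) = star x * (star w' * w') * x by
        simp only [mul_assoc], ← hw', CStarRing.norm_star_mul_self, norm_star, star_star, mul_sub,
        sub_mul, Algebra.algebraMap_eq_smul_one, mul_smul_comm, smul_mul_assoc, mul_one, he,
        ← Complex.coe_smul, ← sq, Complex.ofReal_pow]
      simp only [mul_assoc]
    rw [e2, hτ.map_sub trivial trivial, hτ.smul _ _ trivial, Complex.sub_re,
      ← Complex.ofReal_pow, Complex.re_ofReal_mul, ← ht] at h4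
    linarith
  nlinarith [pow_le_one₀ (norm_nonneg x) hx (n := 2)]

/-- Almost invariant elements, almost square zero, of norm almost one, give an exact one. -/
theorem exists_exact (hiso : IsometryPin) [TopologicalSpace.SeparableSpace A]
    (hw : (w : Filter ℕ) ≤ cofinite) (hA : IsTopSimple A) {G : Type} [Group G] [Countable G]
    (α : G →* (A ≃⋆ₐ[ℂ] A))
    (h : ∀ (K : Finset G) (ε : ℝ), 0 < ε → ∃ x : FA A w, ‖x‖ ≤ 1 ∧ 1 - ε ≤ ‖x‖ ∧
      ‖x * x‖ ≤ ε ∧ ∀ g ∈ K, ‖actF α w g x - x‖ ≤ ε) :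
    ∃ x : FA A w, (∀ g, actF α w g x = x) ∧ x * x = 0 ∧ ‖x‖ = 1 := by
  classical
  obtain ⟨e, he⟩ := exists_surjective_nat G
  obtain ⟨a₀, ha₀⟩ := hA.1
  have key : ∀ n : ℕ, ∃ b : Unitization ℂ A, ‖b‖ ≤ 2 ∧
      |‖b * (a₀ : Unitization ℂ A)‖ - ‖a₀‖| ≤ 1 / ((n : ℝ) + 1) ∧
      SmallAt (inrSet A) (b * b) n (1 / ((n : ℝ) + 1)) ∧
      (∀ i : Fin (n + 1), SmallAt (inrSet A) (unitAct α (e i) b - b) n (1 / ((n : ℝ) + 1))) ∧
      ∀ l : Fin (n + 1), ‖b * TopologicalSpace.denseSeq (Unitization ℂ A) l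
        - TopologicalSpace.denseSeq (Unitization ℂ A) l * b‖ ≤ 1 / ((n : ℝ) + 1) := by
    intro n
    set r : ℝ := 1 / ((n : ℝ) + 1) with hr_def
    have hr : 0 < r := by positivity
    set D : ℝ := ∑ l : Fin (n + 1), ‖relDense (inrSet A) l‖ + ‖a₀‖ with hD_def
    have hD : 0 ≤ D := by positivity
    set ε : ℝ := r / (4 * (D + 1)) with hε_def
    have hε : 0 < ε := by positivity
    have hεr : ∀ l : Fin (n + 1), 2 * ε * ‖relDense (inrSet A) l‖ ≤ r / 2 := fun l => by
      have hl : ‖relDense (inrSet A) l‖ ≤ D + 1 := by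
        have := Finset.single_le_sum (fun i _ => norm_nonneg (relDense (inrSet A) (i : Fin (n + 1))))
          (Finset.mem_univ l)
        linarith [norm_nonneg a₀]
      calc 2 * ε * ‖relDense (inrSet A) l‖ ≤ 2 * ε * (D + 1) :=
            mul_le_mul_of_nonneg_left hl (by positivity)
        _ = r / 2 := by rw [hε_def]; field_simp; ring
    obtain ⟨x, hx1, hx2, hxx, hfix⟩ := h (Finset.univ.image fun i : Fin (n + 1) => e i) ε hε
    obtain ⟨X, rfl, hX⟩ := Submodule.Quotient.norm_mk_lt x zero_lt_one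
    have hXn : ∀ k, ‖(X : ℕ →ᵇ Unitization ℂ A) k‖ ≤ 2 := fun k =>
      ((X : ℕ →ᵇ Unitization ℂ A).norm_coe_le_norm k).trans (hX.le.trans (by linarith))
    have small : ∀ {u : ℕ → Unitization ℂ A}, Tendsto u (w : Filter ℕ) (𝓝 0) →
        ∀ᶠ k in (w : Filter ℕ), ‖u k‖ ≤ r := by
      intro u hu
      filter_upwards [Metric.tendsto_nhds.1 hu r hr] with k hk
      rw [dist_zero_right] at hk
      exact hk.le
    have hcls : ∀ i : Fin (n + 1), ‖Ideal.Quotient.mk (annIdeal (inrSet A) w)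
        (centralAct (unitAct α) w (e i) X - X)‖ ≤ ε := fun i =>
      hfix (e i) (Finset.mem_image.2 ⟨i, Finset.mem_univ _, rfl⟩)
    have hnorm : ∀ᶠ k in (w : Filter ℕ),
        |‖(X : ℕ →ᵇ Unitization ℂ A) k * (a₀ : Unitization ℂ A)‖ - ‖a₀‖| ≤ r := by
      have h1 := hiso A w hw hA X a₀
      have h2 : |‖cls X‖ * ‖a₀‖ - ‖a₀‖| ≤ ε * ‖a₀‖ := by
        rw [← sub_one_mul, abs_mul, abs_of_nonneg (norm_nonneg a₀)]
        refine mul_le_mul_of_nonneg_right (abs_le.2 ⟨?_, ?_⟩) (norm_nonneg a₀)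
        · have : 1 - ε ≤ ‖cls X‖ := hx2
          linarith
        · have : ‖cls X‖ ≤ 1 := hx1
          linarith
      have h3 : ε * ‖a₀‖ ≤ r / 4 := by
        rw [hε_def, div_mul_eq_mul_div, div_le_div_iff₀ (by positivity) (by norm_num)]
        have h4 : ‖a₀‖ ≤ D := le_add_of_nonneg_left (by positivity)
        nlinarith
      filter_upwards [Metric.tendsto_nhds.1 h1 (r / 2) (half_pos hr)] with k hk
      rw [Real.dist_eq] at hk
      linarith [abs_sub_le ‖(X : ℕ →ᵇ Unitization ℂ A) k * (a₀ : Unitization ℂ A)‖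
        (‖cls X‖ * ‖a₀‖) ‖a₀‖]
    obtain ⟨k, hk1, hk2, hk3, hk4⟩ := (hnorm.and
      ((eventually_small_class w n hr hε hεr (X * X) hxx).and
      ((eventually_all.2 fun i : Fin (n + 1) =>
        eventually_small_class w n hr hε hεr _ (hcls i)).and
      (eventually_all.2 fun l : Fin (n + 1) =>
        small (X.2 (TopologicalSpace.denseSeq (Unitization ℂ A) l)))))).exists
    exact ⟨(X : ℕ →ᵇ Unitization ℂ A) k, hXn k, hk1, hk2, hk3, hk4⟩
  choose b hb2 hbn hbs hbf hbc using key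
  have hlim : Tendsto (fun n : ℕ => 1 / ((n : ℝ) + 1)) (w : Filter ℕ) (𝓝 0) :=
    tendsto_one_div_add_atTop_nhds_zero_nat.mono_left (hw.trans_eq Nat.cofinite_eq_atTop)
  have hev : ∀ m, ∀ᶠ n in (w : Filter ℕ), m ≤ n := fun m =>
    (hw.trans_eq Nat.cofinite_eq_atTop) (eventually_ge_atTop m)
  let X₀ := BoundedContinuousFunction.ofNormedAddCommGroupDiscrete b 2 hb2
  let X : CSeq A w := ⟨X₀, mem_centralSeq_of_dense fun l =>
    squeeze_zero_norm' ((hev l).mono fun n hn => hbc n ⟨l, by omega⟩) hlim⟩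
  refine ⟨cls X, fun g => ?_, ?_, ?_⟩
  · obtain ⟨i, rfl⟩ := he g
    show Ideal.Quotient.mk _ (centralAct (unitAct α) w (e i) X) = Ideal.Quotient.mk _ X
    rw [Ideal.Quotient.mk_eq_mk_iff_sub_mem, mem_annIdeal]
    exact annSeq_of_small' (inrSet A) w hw ((hev i).mono fun n hn => hbf n ⟨i, by omega⟩)
  · show Ideal.Quotient.mk _ X * Ideal.Quotient.mk _ X = 0
    rw [← map_mul, Ideal.Quotient.eq_zero_iff_mem, mem_annIdeal]
    exact annSeq_of_small (inrSet A) w hw fun n => hbs n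
  · have h1 := hiso A w hw hA X a₀
    have h2 : Tendsto (fun n => ‖(X : ℕ →ᵇ Unitization ℂ A) n * (a₀ : Unitization ℂ A)‖)
        (w : Filter ℕ) (𝓝 ‖a₀‖) := by
      rw [tendsto_iff_norm_sub_tendsto_zero]
      exact squeeze_zero (fun n => norm_nonneg _) (fun n => hbn n) hlim
    have h3 := tendsto_nhds_unique h1 h2
    exact (mul_eq_right₀ (norm_ne_zero_iff.2 ha₀)).1 h3

theorem firstPin : FirstPin := by
  intro hiso A _ _ w hw hA G _ _ α hlift ⟨τ, hτ⟩
  refine exists_exact w hiso hw hA α fun K ε hε => ?_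
  obtain ⟨δ, hδ, hδε, hδ16⟩ : ∃ δ : ℝ, 0 < δ ∧ 4 * δ ≤ ε ∧ δ ≤ 1 / 16 :=
    ⟨min (ε / 4) (1 / 16), lt_min (by positivity) (by norm_num),
      by linarith [min_le_left (ε / 4) (1 / 16 : ℝ)], min_le_right _ _⟩
  obtain ⟨x, hx1, hxx, hfix, htr⟩ := hlift K δ hδ
  have h := norm_sq_ge_of_trace hτ hx1 hδ16 (htr τ hτ).1 (htr τ hτ).2
  refine ⟨x, hx1, ?_, hxx.trans (by linarith), fun g hg => (hfix g hg).trans (by linarith)⟩
  nlinarith [norm_nonneg x]

end Vale.Agent.P095.W
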