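import Vale.Agent.P095.W.Defs
import Vale.Agent.P095.SN.Excise

/-!
P095, Theorem W, block W3: excision below pairs of a nonunital algebra, seen inside its unitization
as the elements of scalar part zero; the absence of characters gives the absence of minimal
projections.
-/

namespace Vale.Agent.P095.W

open Filter Vale.Agent.P101 Vale.Agent.P095 Vale.Agent.P095.SI
open scoped Topology BoundedContinuousFunction

variable {A : Type} [NonUnitalCStarAlgebra A]

/-- The scalar part vanishes: the element comes from the algebra. -/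
def InI (x : Unitization ℂ A) : Prop := x.fst = 0

lemma inI_inr (a : A) : InI (a : Unitization ℂ A) := Unitization.fst_inr ℂ a

lemma InI.eq_inr {x : Unitization ℂ A} (h : InI x) : x = (x.snd : Unitization ℂ A) :=
  Unitization.ext (by rw [Unitization.fst_inr]; exact h) (Unitization.snd_inr ℂ _).symm

lemma InI.mul_right {x : Unitization ℂ A} (h : InI x) (y : Unitization ℂ A) : InI (x * y) := by
  unfold InI at *; rw [Unitization.fst_mul, h, zero_mul]

lemma InI.mul_left {x : Unitization ℂ A} (h : InI x) (y : Unitization ℂ A) : InI (y * x) := by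
  unfold InI at *; rw [Unitization.fst_mul, h, mul_zero]

lemma InI.add {x y : Unitization ℂ A} (hx : InI x) (hy : InI y) : InI (x + y) := by
  unfold InI at *; rw [Unitization.fst_add, hx, hy, add_zero]

lemma InI.smul {x : Unitization ℂ A} (h : InI x) (c : ℂ) : InI (c • x) := by
  unfold InI at *; rw [Unitization.fst_smul, h, smul_zero]

lemma InI.smul_real {x : Unitization ℂ A} (h : InI x) (c : ℝ) : InI (c • x) := by
  rw [← algebraMap_smul ℂ c x]; exact h.smul _

lemma InI.star {x : Unitization ℂ A} (h : InI x) : InI (Star.star x) := by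
  unfold InI at *; rw [Unitization.fst_star, h, star_zero]

lemma InI.of_left {k x : Unitization ℂ A} (hk : InI k) (h : k * x = x) : InI x :=
  h ▸ hk.mul_right x

lemma InI.of_star_mul_self {x : Unitization ℂ A} (h : InI (Star.star x * x)) : InI x := by
  unfold InI at *
  rw [Unitization.fst_mul, Unitization.fst_star] at h
  rcases mul_eq_zero.1 h with h1 | h1
  · exact star_eq_zero.1 h1
  · exact h1

lemma InI.cfc {r : Unitization ℂ A} (hr : IsSelfAdjoint r) (h : InI r) {g : ℝ → ℝ}
    (hg : Continuous g) {f : ℝ → ℝ} (hfg : ∀ t, f t = t * g t) : InI (cfc f r) := by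
  have e : _root_.cfc f r = r * _root_.cfc g r := by
    nth_rewrite 2 [← cfc_id' ℝ r]
    rw [← cfc_mul (fun t : ℝ => t) g r]
    exact cfc_congr fun t _ => hfg t
  rw [e]; exact h.mul_right _

/-- A pair of the algebra is a pair of the unitization. -/
lemma pairA_iff {h h₀ : Unitization ℂ A} (hI : InI h) :
    SN.IsPair h h₀ ↔ InI h₀ ∧ PairA h.snd h₀.snd := by
  constructor
  · intro hp
    have h0 : InI h₀ := hI.of_left hp.2.2.2.2
    refine ⟨h0, ?_, ?_, ?_, ?_, ?_⟩
    · obtain ⟨z, hz⟩ := hp.1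
      exact ⟨z.snd, by
        rw [← hz, Unitization.snd_mul, Unitization.fst_star, Unitization.snd_star,
          (InI.of_star_mul_self (hz ▸ hI) : z.fst = 0)]
        simp⟩
    · obtain ⟨z, hz⟩ := hp.2.1
      exact ⟨z.snd, by
        rw [← hz, Unitization.snd_mul, Unitization.fst_star, Unitization.snd_star,
          (InI.of_star_mul_self (hz ▸ h0) : z.fst = 0)]
        simp⟩
    · have := hp.2.2.1
      rwa [hI.eq_inr, Unitization.norm_inr] at this
    · have := hp.2.2.2.1
      rwa [h0.eq_inr, Unitization.norm_inr] at this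
    · have := congrArg (fun x : Unitization ℂ A => x.snd) hp.2.2.2.2
      rwa [Unitization.snd_mul, (hI : h.fst = 0), (h0 : h₀.fst = 0), zero_smul, zero_smul,
        zero_add, zero_add] at this
  · rintro ⟨h0, ⟨z, hz⟩, ⟨z₀, hz₀⟩, h1, h2, h3⟩
    rw [hI.eq_inr, h0.eq_inr]
    exact ⟨⟨z, by rw [← Unitization.inr_star, ← Unitization.inr_mul, hz]⟩,
      ⟨z₀, by rw [← Unitization.inr_star, ← Unitization.inr_mul, hz₀]⟩,
      by rwa [Unitization.norm_inr], by rwa [Unitization.norm_inr],
      by rw [← Unitization.inr_mul, h3]⟩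

/-- Some pair lives in the algebra. -/
lemma exists_pair (hA : ∃ a : A, a ≠ 0) :
    ∃ h h₀ : Unitization ℂ A, InI h ∧ SN.IsPair h h₀ := by
  obtain ⟨a, ha⟩ := hA
  have ha' : star (a : Unitization ℂ A) * (a : Unitization ℂ A) ≠ 0 := fun e =>
    ha (Unitization.inr_injective ((CStarRing.star_mul_self_eq_zero_iff _).1 e))
  set r := ‖star (a : Unitization ℂ A) * (a : Unitization ℂ A)‖⁻¹ •
    (star (a : Unitization ℂ A) * (a : Unitization ℂ A)) with hr
  have hrs : IsSelfAdjoint r := by
    rw [isSelfAdjoint_iff, hr, star_smul, star_trivial, (IsSelfAdjoint.star_mul_self _).star_eq]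
  have hrI : InI r := ((inI_inr a).mul_left _).smul_real _
  obtain ⟨hp, -, -, -⟩ := SN.pair_of (k := 1) hrs (SN.norm_inv_smul ha') (one_mul r)
  exact ⟨_, _, hrI.cfc hrs continuous_chi plat_eq_mul_chi, hp⟩

/-- Simplicity connects any two nonzero elements. -/
lemma IsTopSimple.connect (hA : IsTopSimple A) {x y : Unitization ℂ A} (hxI : InI x) (hyI : InI y)
    (hx : x ≠ 0) (hy : y ≠ 0) : ∃ z, x * z * y ≠ 0 := by
  by_contra h0
  simp only [not_exists, not_not] at h0
  set a := x.snd with hadef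
  set b := y.snd with hbdef
  have hxe : x = (a : Unitization ℂ A) := hxI.eq_inr
  have hye : y = (b : Unitization ℂ A) := hyI.eq_inr
  have hb : b ≠ 0 := fun e => hy (by rw [hye, e, Unitization.inr_zero])
  have h1 : ∀ r : A, a * r * b = 0 := fun r => by
    have := h0 r
    rw [hxe, hye, ← Unitization.inr_mul, ← Unitization.inr_mul] at this
    exact Unitization.inr_injective (this.trans (Unitization.inr_zero ℂ).symm)
  have h2 : ∀ ε : ℝ, 0 < ε → ‖a * star a‖ ≤ ε := by
    intro ε hε
    obtain ⟨n, r, t, hrt⟩ := hA.2 b hb (star a) (ε / (‖a‖ + 1)) (by positivity)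
    have e : a * (∑ l, r l * b * t l) = 0 := by
      rw [Finset.mul_sum]
      exact Finset.sum_eq_zero fun l _ => by rw [← mul_assoc, ← mul_assoc, h1, zero_mul]
    calc ‖a * star a‖ = ‖a * (star a - ∑ l, r l * b * t l)‖ := by rw [mul_sub, e, sub_zero]
      _ ≤ ‖a‖ * (ε / (‖a‖ + 1)) := (norm_mul_le _ _).trans (by gcongr)
      _ ≤ ε := by
          rw [mul_div_assoc', div_le_iff₀ (by positivity)]
          nlinarith [norm_nonneg a]
  have h3 : a * star a = 0 := norm_le_zero_iff.1 (le_of_forall_gt_imp_ge_of_dense fun ε hε => h2 ε hε)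
  exact hx (by rw [hxe, (CStarRing.mul_star_self_eq_zero_iff a).1 h3, Unitization.inr_zero])

/-- A minimal projection of the algebra gives a character of the central sequences which kills the
annihilating ones. -/
lemma false_of_minimal {w : Ultrafilter ℕ} (hχ : NoChar A w) {p : Unitization ℂ A} (hI : InI p)
    (hp0 : p ≠ 0) (hps : IsSelfAdjoint p) (hpp : p * p = p)
    (hcor : ∀ a, ∃ z : ℂ, p * a * p = z • p) : False := by
  classical
  choose ev hev using hcor
  have hpn : ‖p‖ = 1 := by
    have h1 := CStarRing.norm_star_mul_self (x := p)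
    rw [hps.star_eq, hpp] at h1
    have h2 : 0 < ‖p‖ := norm_pos_iff.2 hp0
    nlinarith
  have hbd : ∀ a, ‖ev a‖ ≤ ‖a‖ := by
    intro a
    have h1 : ‖ev a • p‖ ≤ ‖a‖ := by
      rw [← hev]
      refine norm_mul₃_le.trans ?_
      rw [hpn, one_mul, mul_one]
    rwa [norm_smul, hpn, mul_one] at h1
  have huniq : ∀ {a : Unitization ℂ A} {z : ℂ}, p * a * p = z • p → ev a = z := fun {a z} h =>
    smul_left_injective ℂ hp0 ((hev a).symm.trans h)
  let seq : CSeq A w → ℕ → ℂ := fun f n => ev ((f : ℕ →ᵇ Unitization ℂ A) n)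
  have hlim : ∀ f : CSeq A w, ∃ c, Tendsto (seq f) (w : Filter ℕ) (𝓝 c) := by
    intro f
    obtain ⟨c, -, hc⟩ := (isCompact_closedBall (0 : ℂ) ‖(f : ℕ →ᵇ Unitization ℂ A)‖).ultrafilter_le_nhds
      (w.map (seq f)) (by
        rw [Ultrafilter.coe_map, le_principal_iff, mem_map]
        exact Eventually.of_forall fun n => mem_closedBall_zero_iff.2
          ((hbd _).trans ((f : ℕ →ᵇ Unitization ℂ A).norm_coe_le_norm n)))
    exact ⟨c, hc⟩
  choose χ hχl using hlim
  have hc : ∀ (f : CSeq A w), Tendsto (fun n => (f : ℕ →ᵇ Unitization ℂ A) n * p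
      - p * (f : ℕ →ᵇ Unitization ℂ A) n) (w : Filter ℕ) (𝓝 0) := fun f => f.2 p
  have hconst : ∀ c : ℂ, χ (algebraMap ℂ (CSeq A w) c) = c := by
    intro c
    refine tendsto_nhds_unique (hχl _) ?_
    refine tendsto_const_nhds.congr fun n => (huniq ?_).symm
    show p * algebraMap ℂ (Unitization ℂ A) c * p = c • p
    rw [Algebra.algebraMap_eq_smul_one, mul_smul_comm, mul_one, smul_mul_assoc, hpp]
  have hadd : ∀ f g, χ (f + g) = χ f + χ g := by
    intro f g
    refine tendsto_nhds_unique (hχl _) (((hχl f).add (hχl g)).congr fun n => (huniq ?_).symm)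
    simp [seq, mul_add, add_mul, add_smul, hev]
  have hstar : ∀ f, χ (star f) = star (χ f) := by
    intro f
    refine tendsto_nhds_unique (hχl _) ((hχl f).star.congr fun n => (huniq ?_).symm)
    have := congrArg star (hev ((f : ℕ →ᵇ Unitization ℂ A) n))
    rw [star_mul, star_mul, hps.star_eq, star_smul, hps.star_eq, ← mul_assoc] at this
    exact this
  have hmul : ∀ f g, χ (f * g) = χ f * χ g := by
    intro f g
    refine tendsto_nhds_unique (hχl _) ?_
    have h1 : Tendsto (fun n => seq (f * g) n - seq f n * seq g n) (w : Filter ℕ) (𝓝 0) := by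
      refine squeeze_zero_norm (a := fun n => ‖(f : ℕ →ᵇ Unitization ℂ A)‖ *
        ‖(g : ℕ →ᵇ Unitization ℂ A) n * p - p * (g : ℕ →ᵇ Unitization ℂ A) n‖) (fun n => ?_) ?_
      · obtain ⟨a, ha⟩ : ∃ a, (f : ℕ →ᵇ Unitization ℂ A) n = a := ⟨_, rfl⟩
        obtain ⟨b, hb⟩ : ∃ b, (g : ℕ →ᵇ Unitization ℂ A) n = b := ⟨_, rfl⟩
        have e : (seq (f * g) n - seq f n * seq g n) • p = p * a * ((b * p - p * b) * p) := by
          have e1 : ev a • (p * b * p) = p * a * p * (b * p) := by
            rw [hev a, smul_mul_assoc, mul_assoc]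
          rw [sub_smul, mul_smul]
          simp only [seq, MulMemClass.coe_mul, BoundedContinuousFunction.coe_mul, Pi.mul_apply,
            ha, hb]
          rw [← hev b, e1, ← hev (a * b)]
          simp only [sub_mul, mul_sub, mul_assoc, hpp]
        have h2 := congrArg norm e
        rw [norm_smul, hpn, mul_one] at h2
        rw [h2, hb]
        refine (norm_mul_le _ _).trans ?_
        refine mul_le_mul ((norm_mul_le _ _).trans ?_) ((norm_mul_le _ _).trans ?_) (norm_nonneg _)
          (norm_nonneg _)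
        · rw [hpn, one_mul, ← ha]; exact (f : ℕ →ᵇ Unitization ℂ A).norm_coe_le_norm n
        · rw [hpn, mul_one]
      · simpa using (tendsto_zero_iff_norm_tendsto_zero.1 (hc g)).const_mul
          ‖(f : ℕ →ᵇ Unitization ℂ A)‖
    simpa using h1.add ((hχl f).mul (hχl g))
  let φ : CSeq A w →⋆ₐ[ℂ] ℂ :=
    { toFun := χ
      map_one' := by simpa using hconst 1
      map_mul' := hmul
      map_zero' := by simpa using hconst 0
      map_add' := hadd
      commutes' := hconst
      map_star' := hstar }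
  refine hχ φ fun f hf => ?_
  refine tendsto_nhds_unique (hχl f) ?_
  refine squeeze_zero_norm (a := fun n => ‖(f : ℕ →ᵇ Unitization ℂ A) n * p‖) (fun n => ?_) ?_
  · have h1 := congrArg norm (hev ((f : ℕ →ᵇ Unitization ℂ A) n))
    rw [norm_smul, hpn, mul_one, mul_assoc] at h1
    rw [← h1]
    exact (norm_mul_le _ _).trans (by rw [hpn, one_mul])
  · have := hf p.snd
    rw [← hI.eq_inr] at this
    exact tendsto_zero_iff_norm_tendsto_zero.1 this

/-- Every pair of the algebra has two orthogonal pairs below it. -/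
lemma exists_twoA {w : Ultrafilter ℕ} (hχ : NoChar A w) {k k₀ : Unitization ℂ A} (hI : InI k)
    (hp : SN.IsPair k k₀) : ∃ q q₀ q' q₀' : Unitization ℂ A, SN.IsPair q q₀ ∧ SN.IsPair q' q₀' ∧
      k * q = q ∧ k * q' = q' ∧ q * q' = 0 := by
  by_contra hne
  obtain ⟨p, hp0, hps, hpp, hkp, hcor⟩ := SN.corner_of_not_two hp hne
  exact false_of_minimal hχ (hI.of_left hkp) hp0 hps hpp hcor

/-- Arbitrarily many orthogonal pairs below a pair of the algebra. -/
lemma exists_piecesA {w : Ultrafilter ℕ} (hχ : NoChar A w) {k k₀ : Unitization ℂ A} (hI : InI k)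
    (hp : SN.IsPair k k₀) (n : ℕ) : ∃ q q₀ : Fin (n + 1) → Unitization ℂ A,
      (∀ i, SN.IsPair (q i) (q₀ i)) ∧ (∀ i, k * q i = q i) ∧ ∀ i j, i ≠ j → q i * q j = 0 :=
  SN.exists_pieces_of hp (fun _ _ hq hkq => exists_twoA hχ (hI.of_left hkq) hq) n

/-- The splitting property. -/
theorem hasSplit {w : Ultrafilter ℕ} (hχ : NoChar A w) : HasSplit A := by
  intro h h₀ hp
  obtain ⟨q, q₀, q', q₀', hq, hq', hhq, hhq', hqq⟩ := exists_twoA hχ (inI_inr h)
    (k₀ := (h₀ : Unitization ℂ A))
    ((pairA_iff (inI_inr h)).2 ⟨inI_inr h₀, by simpa using hp⟩)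
  have hqI : InI q := (inI_inr h).of_left hhq
  have hqI' : InI q' := (inI_inr h).of_left hhq'
  have h0 : InI q₀ := hqI.of_left hq.2.2.2.2
  have h0' : InI q₀' := hqI'.of_left hq'.2.2.2.2
  have hsnd : ∀ x y : Unitization ℂ A, InI x → InI y → (x * y).snd = x.snd * y.snd := by
    intro x y hx hy
    rw [Unitization.snd_mul, (hx : x.fst = 0), (hy : y.fst = 0), zero_smul, zero_smul, zero_add,
      zero_add]
  refine ⟨q₀.snd, q₀'.snd, ?_, ?_, ?_, ?_, ?_, ?_, ?_⟩
  · rw [← Unitization.snd_star, hq.2.1.isSelfAdjoint.star_eq]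
  · rw [← Unitization.snd_star, hq'.2.1.isSelfAdjoint.star_eq]
  · rw [← Unitization.norm_inr (𝕜 := ℂ), ← h0.eq_inr]; exact hq.2.2.2.1
  · rw [← Unitization.norm_inr (𝕜 := ℂ), ← h0'.eq_inr]; exact hq'.2.2.2.1
  · have := congrArg (fun x => (x * q₀).snd) hhq
    simpa only [mul_assoc, hq.2.2.2.2, hsnd _ _ (inI_inr h) h0, Unitization.snd_inr] using this
  · have := congrArg (fun x => (x * q₀').snd) hhq'
    simpa only [mul_assoc, hq'.2.2.2.2, hsnd _ _ (inI_inr h) h0', Unitization.snd_inr] using this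
  · rw [← hsnd _ _ h0 h0',
      show q₀ * q₀' = q₀ * (q * q') * q₀' by
        rw [← mul_assoc q₀, hq.absorb, mul_assoc, hq'.2.2.2.2],
      hqq, mul_zero, zero_mul, Unitization.snd_zero]

end Vale.Agent.P095.W
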