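import Vale.Agent.P095.W.Seq
import Vale.Agent.P095.W.Pins
import Vale.Agent.P095.W.ExciseA

/-!
P095, Theorem W, block W2: norms in the central sequence algebra of a simple algebra are seen on
every single element.
-/

namespace Vale.Agent.P095.W

open Filter Vale.Agent.P101 Vale.Agent.P095 Vale.Agent.P095.Rel Vale.Agent.P095.SI
open scoped Topology BoundedContinuousFunction

variable {A : Type} [NonUnitalCStarAlgebra A] (w : Ultrafilter ℕ)

noncomputable local instance cseqIsometry : CStarAlgebra (CSeq A w) :=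
  StarSubalgebra.cstarAlgebra _ (h_closed := isClosed_centralSeq w)

/-- In a simple algebra a central sequence killing one nonzero element kills everything. -/
lemma annNull_of_kills (hA : IsTopSimple A) (d : CSeq A w) {a₀ : A} (ha₀ : a₀ ≠ 0)
    (h : Tendsto (fun n => (d : ℕ →ᵇ Unitization ℂ A) n * (a₀ : Unitization ℂ A))
      (w : Filter ℕ) (𝓝 0)) :
    AnnNull (w : Filter ℕ) (d : ℕ →ᵇ Unitization ℂ A) := by
  intro b
  rw [Metric.tendsto_nhds]
  intro ε hε
  obtain ⟨m, r, t, hrt⟩ := hA.2 a₀ ha₀ b (ε / (2 * (‖(d : ℕ →ᵇ Unitization ℂ A)‖ + 1))) (by positivity)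
  have hterm : ∀ l, Tendsto (fun n => (d : ℕ →ᵇ Unitization ℂ A) n *
      ((r l * a₀ * t l : A) : Unitization ℂ A)) (w : Filter ℕ) (𝓝 0) := by
    intro l
    have h1 : Tendsto (fun n => ((d : ℕ →ᵇ Unitization ℂ A) n * (r l : Unitization ℂ A)
        - (r l : Unitization ℂ A) * (d : ℕ →ᵇ Unitization ℂ A) n) * (a₀ : Unitization ℂ A)
        * (t l : Unitization ℂ A)) (w : Filter ℕ) (𝓝 0) := by
      simpa using ((d.2 (r l : Unitization ℂ A)).mul_const (a₀ : Unitization ℂ A)).mul_const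
        (t l : Unitization ℂ A)
    have h2 : Tendsto (fun n => (r l : Unitization ℂ A) *
        ((d : ℕ →ᵇ Unitization ℂ A) n * (a₀ : Unitization ℂ A)) * (t l : Unitization ℂ A))
        (w : Filter ℕ) (𝓝 0) := by
      simpa using (h.const_mul (r l : Unitization ℂ A)).mul_const (t l : Unitization ℂ A)
    have h3 := h1.add h2
    simp only [add_zero] at h3
    refine h3.congr fun n => ?_
    simp only [Unitization.inr_mul, sub_mul, mul_assoc]
    abel
  have hsum : Tendsto (fun n => ∑ l, (d : ℕ →ᵇ Unitization ℂ A) n *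
      ((r l * a₀ * t l : A) : Unitization ℂ A)) (w : Filter ℕ) (𝓝 0) := by
    simpa using tendsto_finsetSum Finset.univ fun l _ => hterm l
  filter_upwards [Metric.tendsto_nhds.1 hsum (ε / 2) (half_pos hε)] with n hn
  rw [dist_zero_right] at hn ⊢
  have e : (d : ℕ →ᵇ Unitization ℂ A) n * (b : Unitization ℂ A)
      = (d : ℕ →ᵇ Unitization ℂ A) n * ((b - ∑ l, r l * a₀ * t l : A) : Unitization ℂ A)
        + ∑ l, (d : ℕ →ᵇ Unitization ℂ A) n * ((r l * a₀ * t l : A) : Unitization ℂ A) := by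
    rw [← Finset.mul_sum, ← mul_add]
    congr 1
    change (Unitization.inrNonUnitalStarAlgHom ℂ A) b
      = (Unitization.inrNonUnitalStarAlgHom ℂ A) (b - ∑ l, r l * a₀ * t l)
        + ∑ l, (Unitization.inrNonUnitalStarAlgHom ℂ A) (r l * a₀ * t l)
    rw [← map_sum, ← map_add, sub_add_cancel]
  rw [e]
  refine (norm_add_le _ _).trans_lt ?_
  have h4 : ‖(d : ℕ →ᵇ Unitization ℂ A) n * ((b - ∑ l, r l * a₀ * t l : A) : Unitization ℂ A)‖
      ≤ ‖(d : ℕ →ᵇ Unitization ℂ A)‖ * (ε / (2 * (‖(d : ℕ →ᵇ Unitization ℂ A)‖ + 1))) := by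
    refine (norm_mul_le _ _).trans (mul_le_mul ((d : ℕ →ᵇ Unitization ℂ A).norm_coe_le_norm n) ?_
      (norm_nonneg _) (norm_nonneg _))
    rw [Unitization.norm_inr]
    exact hrt
  have h5 : ‖(d : ℕ →ᵇ Unitization ℂ A)‖ * (ε / (2 * (‖(d : ℕ →ᵇ Unitization ℂ A)‖ + 1)))
      ≤ ε / 2 := by
    rw [mul_div_assoc', div_le_div_iff₀ (by positivity) two_pos]
    nlinarith [norm_nonneg (d : ℕ →ᵇ Unitization ℂ A)]
  linarith

/-- A bump above a level is a multiple of any power. -/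
lemma cfc_bump_eq_pow_mul {D : Type*} [CStarAlgebra D] {X : D} (hX : IsSelfAdjoint X) {r : ℝ}
    (hr : 0 < r) (N : ℕ) : ∃ Z : D, cfc (fun t : ℝ => max 0 (t - r)) X = X ^ N * Z ∧
      ‖Z‖ ≤ ‖X‖ / r ^ N ∧ ∀ Y : D, Commute X Y → Commute Z Y := by
  let k : ℝ → ℝ := fun t => max 0 (t - r) / max t r ^ N
  have hk : Continuous k := (by fun_prop : Continuous fun t : ℝ => max 0 (t - r)).div₀
    (by fun_prop) fun t => (pow_pos (lt_max_of_lt_right hr) N).ne'
  refine ⟨cfc k X, ?_, norm_cfc_le (by positivity) fun t ht => ?_, fun Y hY => hY.cfc_real k⟩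
  · rw [← cfc_pow_id (R := ℝ) X N, ← cfc_mul (fun t : ℝ => t ^ N) k X (by fun_prop) hk.continuousOn]
    refine cfc_congr fun t _ => ?_
    rcases le_total t r with h | h
    · simp [k, max_eq_left (sub_nonpos.2 h)]
    · simp only [k, max_eq_left h]
      rw [mul_div_cancel₀ _ (pow_pos (hr.trans_le h) N).ne']
  · rcases subsingleton_or_nontrivial D with hs | hnt
    · simp [spectrum.of_subsingleton] at ht
    have h1 : |t| ≤ ‖X‖ := by
      simpa [Real.norm_eq_abs] using spectrum.norm_le_norm_of_mem ht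
    rw [Real.norm_eq_abs, abs_div, abs_of_nonneg (le_max_left _ _),
      abs_of_pos (pow_pos (lt_max_of_lt_right hr) N)]
    refine div_le_div₀ (norm_nonneg _) ?_ (pow_pos hr N) (pow_le_pow_left₀ hr.le (le_max_right _ _) N)
    exact max_le (norm_nonneg _) (by linarith [le_abs_self t])

/-- Commuting elements with a nonzero product of bumps have a large product. -/
lemma le_norm_mul_of_bumps {D : Type*} [CStarAlgebra D] {X Y : D} (hX : IsSelfAdjoint X)
    (hY : IsSelfAdjoint Y) (hXY : Commute X Y) {r s : ℝ} (hr : 0 < r) (hs : 0 < s)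
    (h : cfc (fun t : ℝ => max 0 (t - r)) X * cfc (fun t : ℝ => max 0 (t - s)) Y ≠ 0) :
    r * s ≤ ‖X * Y‖ := by
  by_contra hlt
  rw [not_le] at hlt
  obtain ⟨v, hv⟩ : ∃ v, v = cfc (fun t : ℝ => max 0 (t - r)) X * cfc (fun t : ℝ => max 0 (t - s)) Y :=
    ⟨_, rfl⟩
  have hbound : ∀ N : ℕ, ‖v‖ ≤ (‖X * Y‖ / (r * s)) ^ N * (‖X‖ * ‖Y‖) := by
    intro N
    obtain ⟨P, hP, hPn, hPc⟩ := cfc_bump_eq_pow_mul hX hr N
    obtain ⟨Q, hQ, hQn, -⟩ := cfc_bump_eq_pow_mul hY hs N
    have e : v = (X * Y) ^ N * (P * Q) := by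
      rw [hv, hP, hQ, hXY.mul_pow, mul_assoc, mul_assoc (X ^ N), ← mul_assoc P,
        ((hPc Y hXY).pow_right N).eq, mul_assoc]
    rcases N.eq_zero_or_pos with rfl | hN
    · rw [e, pow_zero, pow_zero, one_mul, one_mul]
      exact (norm_mul_le _ _).trans (mul_le_mul (by simpa using hPn) (by simpa using hQn)
        (norm_nonneg _) (norm_nonneg _))
    rw [e]
    refine (norm_mul_le _ _).trans ?_
    calc ‖(X * Y) ^ N‖ * ‖P * Q‖ ≤ ‖X * Y‖ ^ N * ((‖X‖ / r ^ N) * (‖Y‖ / s ^ N)) :=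
          mul_le_mul (norm_pow_le' _ hN) ((norm_mul_le _ _).trans
            (mul_le_mul hPn hQn (norm_nonneg _) ((norm_nonneg _).trans hPn))) (norm_nonneg _)
            (by positivity)
      _ = _ := by rw [div_pow, mul_pow]; field_simp
  have hq : ‖X * Y‖ / (r * s) < 1 := by rwa [div_lt_one (by positivity)]
  have h0 : Tendsto (fun N : ℕ => (‖X * Y‖ / (r * s)) ^ N * (‖X‖ * ‖Y‖)) atTop (𝓝 0) := by
    simpa using (tendsto_pow_atTop_nhds_zero_of_lt_one (by positivity) hq).mul_const (‖X‖ * ‖Y‖)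
  have := norm_le_zero_iff.1 (ge_of_tendsto h0 (Eventually.of_forall hbound))
  exact h (hv ▸ this)

/-- The C*-identity, for use at quotient algebras. -/
lemma norm_star_mul_self_gen {D : Type*} [CStarAlgebra D] (x : D) : ‖star x * x‖ = ‖x‖ * ‖x‖ :=
  CStarRing.norm_star_mul_self

/-- Star homomorphisms of C*-algebras commute with the calculus. -/
lemma map_cfc_of_continuous {D E : Type*} [CStarAlgebra D] [CStarAlgebra E] (φ : D →⋆ₐ[ℂ] E)
    {g : ℝ → ℝ} (hg : Continuous g) {x : D} (hx : IsSelfAdjoint x) :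
    φ (cfc g x) = cfc g (φ x) :=
  StarAlgHomClass.map_cfc φ g x hg.continuousOn (AddMonoidHomClass.continuous_of_bound φ 1 fun y => by
      simpa using NonUnitalStarAlgHom.norm_apply_le φ y)
    hx (hx.map φ)

/-- A positive element has nonzero bumps below its norm. -/
lemma cfc_bump_ne_zero {D : Type*} [CStarAlgebra D] {z : D} {r : ℝ}
    (hr : r < ‖star z * z‖) (hr0 : 0 ≤ r) :
    cfc (fun t : ℝ => max 0 (t - r)) (star z * z) ≠ 0 := by
  let := CStarAlgebra.spectralOrder D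
  have := CStarAlgebra.spectralOrderedRing D
  have hne : star z * z ≠ 0 := fun h => by rw [h, norm_zero] at hr; linarith
  have hnt : Nontrivial D := ⟨⟨_, _, hne⟩⟩
  obtain ⟨t, ht, ht1⟩ := exists_abs_eq_norm (IsSelfAdjoint.star_mul_self z)
  have ht0 : 0 ≤ t := spectrum_nonneg_of_nonneg (star_mul_self_nonneg z) ht
  rw [abs_of_nonneg ht0] at ht1
  intro h
  have h1 := norm_apply_le_norm_cfc (fun t : ℝ => max 0 (t - r)) (star z * z) ht
  rw [h, norm_zero, Real.norm_eq_abs, abs_of_nonneg (le_max_left _ _)] at h1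
  linarith [le_max_right (0 : ℝ) (t - r)]

/-- The lower bound in the bounded sequences modulo null ones. -/
lemma le_norm_toSeq_mul (hA : IsTopSimple A) (f : CSeq A w) (a : A) :
    ‖cls (star f * f)‖ * ‖star a * a‖
      ≤ ‖toSeq w (star f * f) * iota w ((star a * a : A) : Unitization ℂ A)‖ := by
  refine le_of_forall_lt_imp_le_of_dense fun x hx => ?_
  obtain ⟨M, hM⟩ : ∃ M, M = ‖cls (star f * f)‖ := ⟨_, rfl⟩
  obtain ⟨β, hβ⟩ : ∃ β, β = ‖star a * a‖ := ⟨_, rfl⟩
  rw [← hM, ← hβ] at hx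
  rcases lt_or_ge x 0 with hx0 | hx0
  · exact hx0.le.trans (norm_nonneg _)
  have hMβ : 0 < M * β := lt_of_le_of_lt hx0 hx
  have hM0 : 0 < M := lt_of_le_of_ne (hM ▸ norm_nonneg _) fun h => by rw [← h, zero_mul] at hMβ; exact lt_irrefl _ hMβ
  have hβ0 : 0 < β := pos_of_mul_pos_right hMβ hM0.le
  obtain ⟨q, hq, hxq, hq1⟩ : ∃ q : ℝ, 0 < q ∧ x ≤ q * q * (M * β) ∧ q < 1 := by
    obtain ⟨p, hp⟩ : ∃ p : ℝ, p = x / (M * β) := ⟨_, rfl⟩
    have hp0 : 0 ≤ p := hp ▸ div_nonneg hx0 hMβ.le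
    have hp1 : p < 1 := hp ▸ (div_lt_one hMβ).2 hx
    have hpx : x = p * (M * β) := by rw [hp, div_mul_cancel₀ _ hMβ.ne']
    refine ⟨(1 + p) / 2, by positivity, ?_, by linarith⟩
    rw [hpx]
    refine mul_le_mul_of_nonneg_right ?_ hMβ.le
    nlinarith [sq_nonneg (1 - p)]
  refine hxq.trans ?_
  rw [show q * q * (M * β) = (q * M) * (q * β) by ring]
  obtain ⟨g, hg⟩ : ∃ g : ℝ → ℝ, g = fun t => max 0 (t - q * M) := ⟨_, rfl⟩
  obtain ⟨g', hg'⟩ : ∃ g' : ℝ → ℝ, g' = fun t => max 0 (t - q * β) := ⟨_, rfl⟩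
  have hgc : Continuous g := by rw [hg]; fun_prop
  have hgc' : Continuous g' := by rw [hg']; fun_prop
  obtain ⟨S, hS⟩ : ∃ S : Unitization ℂ A, S = ((star a * a : A) : Unitization ℂ A) := ⟨_, rfl⟩
  have hSs : IsSelfAdjoint S := by
    rw [hS, isSelfAdjoint_iff, ← Unitization.inr_star, star_mul, star_star]
  have hcomm : Commute (toSeq w (star f * f)) (iota w S) := toSeq_comm w _ _
  rw [← hS]
  refine le_norm_mul_of_bumps ((IsSelfAdjoint.star_mul_self f).map _) (hSs.map _) hcomm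
    (by positivity) (by positivity) fun h0 => ?_
  rw [← hg, ← hg', ← map_cfc_of_continuous (toSeq w) hgc (IsSelfAdjoint.star_mul_self f),
    ← map_cfc_of_continuous (iota w) hgc' hSs] at h0
  obtain ⟨a₀, ha₀⟩ : ∃ a₀ : A, cfc g' S = (a₀ : Unitization ℂ A) := by
    refine ⟨cfcₙ g' (star a * a), ?_⟩
    rw [hS, ← Unitization.real_cfcₙ_eq_cfc_inr (star a * a) g' (by
      rw [hg']; exact max_eq_left (by nlinarith))]
  have ha₀0 : a₀ ≠ 0 := by
    intro h1
    have hz : S = star (a : Unitization ℂ A) * (a : Unitization ℂ A) := by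
      rw [hS, Unitization.inr_mul, Unitization.inr_star]
    have h2 := cfc_bump_ne_zero (z := (a : Unitization ℂ A)) (r := q * β) (by
      rw [← hz, hS, Unitization.norm_inr, ← hβ]; nlinarith) (by positivity)
    rw [← hz, ← hg', ha₀, h1, Unitization.inr_zero] at h2
    exact h2 rfl
  have hkill : AnnNull (w : Filter ℕ) ((cfc g (star f * f) : CSeq A w) : ℕ →ᵇ Unitization ℂ A) := by
    refine annNull_of_kills w hA _ ha₀0 ?_
    rw [ha₀, toSeq_apply, iota_apply, ← map_mul, ← map_zero (sq (B := Unitization ℂ A) w), sq_eq]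
      at h0
    simpa using h0
  have h3 : quotHom (annIdeal (inrSet A) w) (cfc g (star f * f)) = 0 :=
    (quotHom_eq_zero_iff w _).2 hkill
  rw [map_cfc_of_continuous (quotHom (annIdeal (inrSet A) w)) hgc (IsSelfAdjoint.star_mul_self f),
    map_mul, map_star] at h3
  refine cfc_bump_ne_zero (z := quotHom (annIdeal (inrSet A) w) f) (r := q * M) ?_ (by positivity)
    (hg ▸ h3)
  have : ‖star (quotHom (annIdeal (inrSet A) w) f) * quotHom (annIdeal (inrSet A) w) f‖ = M := by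
    rw [hM, ← map_star, ← map_mul]; rfl
  rw [this]; nlinarith

theorem isometryPin : IsometryPin := by
  intro A _ w _ hA f a
  obtain ⟨u, hu⟩ : ∃ u : ℕ → ℝ, u = fun n => ‖(f : ℕ →ᵇ Unitization ℂ A) n * (a : Unitization ℂ A)‖ :=
    ⟨_, rfl⟩
  rw [← hu]
  obtain ⟨L, -, hL⟩ := (isCompact_Icc (a := (0 : ℝ))
    (b := ‖(f : ℕ →ᵇ Unitization ℂ A)‖ * ‖a‖)).ultrafilter_le_nhds (w.map u) (by
      rw [Ultrafilter.coe_map, le_principal_iff, mem_map]
      refine Eventually.of_forall fun n => ⟨hu ▸ norm_nonneg _, ?_⟩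
      simp only [hu]
      refine (norm_mul_le _ _).trans ?_
      rw [Unitization.norm_inr]
      exact mul_le_mul_of_nonneg_right ((f : ℕ →ᵇ Unitization ℂ A).norm_coe_le_norm n) (norm_nonneg _))
  have hLt : Tendsto u (w : Filter ℕ) (𝓝 L) := hL
  suffices h : L = ‖cls f‖ * ‖a‖ by rwa [← h]
  have hL0 : 0 ≤ L := ge_of_tendsto hLt (Eventually.of_forall fun n => hu ▸ norm_nonneg _)
  refine le_antisymm ?_ ?_
  · refine le_of_forall_gt_imp_ge_of_dense fun x hx => ?_
    obtain ⟨δ, hδ, hδx⟩ : ∃ δ : ℝ, 0 < δ ∧ (‖cls f‖ + δ) * ‖a‖ + δ ≤ x :=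
      ⟨(x - ‖cls f‖ * ‖a‖) / (‖a‖ + 1), div_pos (by linarith) (by positivity), by
        rw [add_mul, add_assoc, ← le_sub_iff_add_le', ← mul_add_one, div_mul_cancel₀ _ (by positivity)]⟩
    obtain ⟨g, hg, hgn⟩ := Submodule.Quotient.norm_mk_lt (S := annIdeal (inrSet A) w) (cls f) hδ
    have hm : g - f ∈ annIdeal (inrSet A) w := (Ideal.Quotient.mk_eq_mk_iff_sub_mem g f).1 hg
    have h0 := (((mem_annIdeal (inrSet A) w).1 hm) _ ⟨a, rfl⟩).1
    refine le_of_tendsto hLt ?_
    filter_upwards [Metric.tendsto_nhds.1 h0 δ hδ] with n hn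
    rw [dist_zero_right] at hn
    simp only [hu]
    refine le_trans ?_ hδx
    calc ‖(f : ℕ →ᵇ Unitization ℂ A) n * (a : Unitization ℂ A)‖
        = ‖(g : ℕ →ᵇ Unitization ℂ A) n * (a : Unitization ℂ A)
          - ((g - f : CSeq A w) : ℕ →ᵇ Unitization ℂ A) n * (a : Unitization ℂ A)‖ := by
          rw [← sub_mul]; simp
      _ ≤ (‖cls f‖ + δ) * ‖a‖ + δ := by
          refine (norm_sub_le _ _).trans (add_le_add ((norm_mul_le _ _).trans ?_) hn.le)
          rw [Unitization.norm_inr]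
          exact mul_le_mul_of_nonneg_right
            (((g : ℕ →ᵇ Unitization ℂ A).norm_coe_le_norm n).trans hgn.le) (norm_nonneg _)
  · have hsq : ‖toSeq w (star f * f) * iota w ((star a * a : A) : Unitization ℂ A)‖ ≤ L * L := by
      refine le_of_forall_gt_imp_ge_of_dense fun x hx => ?_
      obtain ⟨δ, hδ, hδx⟩ : ∃ δ : ℝ, 0 < δ ∧ L * L + δ + δ ≤ x :=
        ⟨(x - L * L) / 2, by linarith, by linarith⟩
      rw [toSeq_apply, iota_apply, ← map_mul]
      refine norm_sq_le w ((mul_self_nonneg L).trans hx.le) ?_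
      have hc : Tendsto (fun n => (star ((f : ℕ →ᵇ Unitization ℂ A) n) *
          (f : ℕ →ᵇ Unitization ℂ A) n * star (a : Unitization ℂ A)
          - star (a : Unitization ℂ A) * (star ((f : ℕ →ᵇ Unitization ℂ A) n) *
          (f : ℕ →ᵇ Unitization ℂ A) n)) * (a : Unitization ℂ A)) (w : Filter ℕ) (𝓝 0) := by
        simpa using ((star f * f).2 (star (a : Unitization ℂ A))).mul_const (a : Unitization ℂ A)
      filter_upwards [Metric.tendsto_nhds.1 hc δ hδ,
        (hLt.mul hLt).eventually (ge_mem_nhds (show L * L < L * L + δ by linarith))] with n h1 h2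
      rw [dist_zero_right] at h1
      simp only [hu] at h2
      refine le_trans ?_ hδx
      obtain ⟨F, hF⟩ : ∃ F, (f : ℕ →ᵇ Unitization ℂ A) n = F := ⟨_, rfl⟩
      show ‖star ((f : ℕ →ᵇ Unitization ℂ A) n) * (f : ℕ →ᵇ Unitization ℂ A) n
        * ((star a * a : A) : Unitization ℂ A)‖ ≤ _
      rw [hF] at h1 h2 ⊢
      calc ‖star F * F * ((star a * a : A) : Unitization ℂ A)‖
          = ‖(star F * F * star (a : Unitization ℂ A) - star (a : Unitization ℂ A) * (star F * F))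
              * (a : Unitization ℂ A)
              + star (F * (a : Unitization ℂ A)) * (F * (a : Unitization ℂ A))‖ := by
            rw [Unitization.inr_mul, Unitization.inr_star, star_mul, sub_mul]
            simp only [mul_assoc, sub_add_cancel]
        _ ≤ δ + ‖F * (a : Unitization ℂ A)‖ * ‖F * (a : Unitization ℂ A)‖ := by
            refine (norm_add_le _ _).trans (add_le_add h1.le ?_)
            rw [CStarRing.norm_star_mul_self]
        _ ≤ L * L + δ + δ := by linarith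
    have h := (le_norm_toSeq_mul w hA f a).trans hsq
    rw [show cls (star f * f) = star (cls f) * cls f from
        (map_mul (quotHom (annIdeal (inrSet A) w)) _ _).trans (congrArg (· * cls f) (map_star _ f)),
      CStarRing.norm_star_mul_self (x := a)] at h
    have h6 : ‖star (cls f) * cls f‖ = ‖cls f‖ * ‖cls f‖ := norm_star_mul_self_gen (cls f)
    rw [h6] at h
    nlinarith [norm_nonneg (cls f), norm_nonneg a, mul_nonneg (norm_nonneg (cls f)) (norm_nonneg a)]

end Vale.Agent.P095.W
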