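import Vale.Agent.P095.W.Pins
import Vale.Agent.P095.W.Assemble
import Vale.Agent.P095.SI.Lift
import Vale.Agent.P095.NoChar
import Vale.Agent.P095.Tracial.Moment
import Vale.Agent.P095.Tracial.RepWeights
import Vale.Agent.P095.Tracial.Phase
import Vale.Agent.P095.Tracial.Base
import Vale.Agent.P095.Tracial.StageOneMain
import Vale.Agent.P095.Tracial.StageTwo
import Vale.Agent.P095.Tracial.Select
import Vale.Agent.P095.Tracial.Label
import Vale.Agent.P095.Tracial.Trace

/-!
P095, Theorem W, block W1a: almost invariant lifts in Kirchberg's central sequence algebra. The two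
tracial stages and the passage from traces to the norm run inside that algebra, with its own traces.
-/

namespace Vale.Agent.P095.W

open Filter Vale.Agent.P101 Vale.Agent.P095 Vale.Agent.P095.Rel Vale.Agent.P095.Tracial
open scoped Topology BoundedContinuousFunction

noncomputable local instance cseqLiftF {A : Type} [NonUnitalCStarAlgebra A] (w : Ultrafilter ℕ) :
    CStarAlgebra (centralSeq (w : Filter ℕ) (Unitization ℂ A)) :=
  StarSubalgebra.cstarAlgebra _ (h_closed := isClosed_centralSeq w)

/-- W1a: the lift in the central sequence algebra. -/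
theorem liftFPin : LiftFPin := by
  intro A _ _ w hw hno G _ _ hG α K ε hε
  have hA := isEmpty_character_relQuot w hno
  have hC : HasCopies (FA A w) := hasCopies_relQuot (inrSet A) w hw
  obtain ⟨k, N, ⟨W⟩⟩ := noCharPin (FA A w) hA
  obtain ⟨N', ⟨W'⟩⟩ := fullPin (FA A w) hC k N W
  obtain ⟨y, s, hrel⟩ := dropPin (FA A w) (witnessCopies_of_hasCopies hC) N' W'
  have hp := hasPools_of_drop (actF α w) (actF_one α w) (actF_mul α w) hC hrel
  have hT := tracePin.{0}
  have hM : ModelPin.{0, 0} := repPin hT momentPin
  have hS : SelectPin.{0} := selectPin phasePin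
  have hgood := stageTwoPin hT hM hS _ G _ (actF_one α w) (actF_mul α w) hG hp
    (stageOnePin hT hM hS labelPin _ G _ (actF_one α w) (actF_mul α w) hG hp)
  obtain ⟨x, hx1, -, hxx, hxK, hxτ⟩ := SI.liftGood_at (actEquiv α w) K (∅ : Finset (FA A w))
    (fun ε₀ hε₀ => by
      obtain ⟨x, h1, h2⟩ := hgood K ε₀ hε₀
      exact ⟨x, h1, fun a ha => absurd ha (Finset.notMem_empty a), h2⟩) hε
  exact ⟨x, hx1, hxx, hxK, hxτ⟩

end Vale.Agent.P095.W
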