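import Vale.Agent.P095.W.Pins
import Vale.Agent.P095.SC.Pieces
import Vale.Agent.P101.Full
import Vale.Agent.P101.Drop
import Vale.Agent.P095.NoChar

/-!
P095, Theorem W, W5: exact pieces in Kirchberg's central sequence algebra.
-/

namespace Vale.Agent.P095.W

open Filter Vale.Agent.P101 Vale.Agent.P095 Vale.Agent.P095.Rel
open scoped Topology BoundedContinuousFunction

noncomputable local instance cseqPieces {A : Type} [NonUnitalCStarAlgebra A] (w : Ultrafilter ℕ) :
    CStarAlgebra (centralSeq (w : Filter ℕ) (Unitization ℂ A)) :=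
  StarSubalgebra.cstarAlgebra _ (h_closed := isClosed_centralSeq w)

theorem piecesFPin : PiecesFPin := by
  intro A _ _ w hw hno j
  have hC : HasCopies (FA A w) := hasCopies_relQuot (inrSet A) w hw
  obtain ⟨k, N, ⟨W⟩⟩ := noCharPin (FA A w) (isEmpty_character_relQuot w hno)
  obtain ⟨N', ⟨W'⟩⟩ := fullPin (FA A w) hC k N W
  obtain ⟨y, s, hrel⟩ := dropPin (FA A w) (witnessCopies_of_hasCopies hC) N' W'
  let := CStarAlgebra.spectralOrder (FA A w)
  have := CStarAlgebra.spectralOrderedRing (FA A w)
  obtain ⟨d, u, v, horth, hsum⟩ := SC.exists_pieces hC hrel j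
  exact ⟨d, u, v, horth, hsum⟩

end Vale.Agent.P095.W
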