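import Vale.Agent.P095.W.SolveDiag
import Vale.Agent.P095.Tracial.TraceBasic

/-!
P095, Theorem W, W6a: `solvePin`.
-/

namespace Vale.Agent.P095.W

open Filter Vale.Agent.P101 Vale.Agent.P095 Vale.Agent.P095.Rel Vale.Agent.P095.Tracial
open scoped Topology BoundedContinuousFunction

universe u

section Algebra

variable {F : Type u} [CStarAlgebra F]

/-- The cut by which the comparison is fed. -/
noncomputable def gap (t : ℝ) : ℝ := 1 - ramp (1 / 2) (3 / 4) t

lemma gap_continuous : Continuous gap := continuous_const.sub (ramp_continuous _ _)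

lemma gap_mem (t : ℝ) : 0 ≤ gap t ∧ gap t ≤ 1 := by
  have h := ramp_mem (1 / 2) (3 / 4) t
  unfold gap
  constructor <;> linarith

lemma gap_le (t : ℝ) : gap t ≤ 16 * ((1 - t) * (1 - t)) := by
  rcases le_or_gt (3 / 4) t with h | h
  · rw [gap, ramp_one (by norm_num) h, sub_self]
    nlinarith [mul_self_nonneg (1 - t)]
  · have h1 : (1 / 4 : ℝ) * (1 / 4) ≤ (1 - t) * (1 - t) :=
      mul_le_mul (by linarith) (by linarith) (by norm_num) (by linarith)
    linarith [(gap_mem t).2]

lemma trace_gap_le {τ : F → ℂ} (hτ : IsTraceOn (⊤ : StarSubalgebra ℂ F) τ) (x : F) :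
    (τ (cfc gap (sumSq x))).re ≤ 16 * tsq τ (1 - sq2 x) := by
  have ht := sumSq_isSelfAdjoint x
  have hc : Continuous fun t : ℝ => 16 * ((1 - t) * (1 - t)) := by fun_prop
  obtain ⟨z, hz⟩ := SN.isPos_cfc ht (hc.sub gap_continuous) fun t => sub_nonneg.2 (gap_le t)
  have h1 := (hτ.pos z trivial).1
  have e : cfc (fun t : ℝ => 16 * ((1 - t) * (1 - t))) (sumSq x)
      = (16 : ℂ) • (star (1 - sq2 x) * (1 - sq2 x)) := by
    have e1 : cfc (fun t : ℝ => 1 - t) (sumSq x) = 1 - sq2 x := by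
      rw [cfc_sub (fun _ => (1 : ℝ)) (fun t => t) (sumSq x), cfc_const_one ℝ (sumSq x),
        cfc_id' ℝ (sumSq x)]
      rfl
    rw [cfc_const_mul 16 (fun t : ℝ => (1 - t) * (1 - t)) (sumSq x),
      cfc_mul (fun t : ℝ => 1 - t) (fun t => 1 - t) (sumSq x), e1,
      show star (1 - sq2 x) = 1 - sq2 x from e1 ▸ (cfc_predicate _ _ : IsSelfAdjoint _).star_eq,
      ← Complex.coe_smul]
    norm_num
  rw [hz, Pi.sub_def] at h1
  rw [cfc_sub _ _ _ hc.continuousOn gap_continuous.continuousOn, hτ.map_sub trivial trivial,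
    Complex.sub_re, e, hτ.smul _ _ trivial, Complex.mul_re] at h1
  simp only [tsq]
  norm_num [-star_sub] at h1 ⊢
  linarith

variable [PartialOrder F] [StarOrderedRing F]

lemma isPos_mul_of_commute {a b : F} (ha : SN.IsPos a) (hb : SN.IsPos b) (h : Commute a b) :
    SN.IsPos (a * b) := by
  obtain ⟨z, hz⟩ := CStarAlgebra.nonneg_iff_eq_star_mul_self.1
    (Commute.mul_nonneg (SN.IsPos.nonneg ha) (SN.IsPos.nonneg hb) h)
  exact ⟨z, hz.symm⟩

/-- The exact solution from two commuting square zero elements and one element below the tops. -/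
lemma exists_drop {x1 p1 x2 s0 P T : F} (hg : Gated x1 p1) (hp : p1 * T = T)
    (hA : star x1 * x1 * T = T) (h20 : x2 * x2 = 0) (c1 : Commute x1 x2)
    (c1' : Commute x1 (star x2)) (cp : Commute p1 x2) (hTs : T * s0 = s0) (hPs : P * s0 = s0)
    (hs : star s0 * s0 = cfc gap (sumSq x2)) (hPsa : star P = P) :
    ∃ y s : F, DropRelations y s ∧
      (∀ φ : F →⋆ₐ[ℂ] F, φ x1 = x1 → φ p1 = p1 → φ x2 = x2 → φ y = y) ∧
      ∀ φ : F →⋆ₐ[ℂ] F, P * φ P = 0 → star s * φ s = 0 := by
  set t := sumSq x2 with ht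
  set x2' := rescale (1 / 4) x2 with hx2'
  set p2 := cfc (ramp (1 / 4) (1 / 2)) t with hp2
  set c2 := cfc (ramp (1 / 2) (3 / 4)) t with hc2
  have g2 : Gated x2' p2 := rescale_gated h20 (by norm_num) (ramp_continuous _ _) (ramp_mem _ _)
    (fun s hs => ramp_zero (by norm_num) hs)
  have cp' : Commute p1 (star x2) := by
    have := cp.star_star; rwa [hg.self] at this
  have cf : ∀ {g : F}, Commute x2 g → Commute (star x2) g → ∀ f : ℝ → ℝ, Commute (cfc f t) g :=
    fun a a' f => ((a'.mul_left a).add_left (a.mul_left a')).cfc_real f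
  have s12 : Commute x2 (star x1) := by simpa using c1'.star_star.symm
  have h := ({ g1 := hg, g2 := g2
               c12 := (c1.symm.mul_left (cf c1.symm c1'.symm _)).symm
               c12' := by
                 rw [hx2', rescale, star_mul, (cfc_predicate _ t : IsSelfAdjoint _).star_eq]
                 exact (cf c1.symm c1'.symm _).symm.mul_right c1'
               h12 := (cp.symm.mul_left (cf cp.symm cp'.symm _)).symm
               h21 := cf c1.symm c1'.symm _
               hp := (cf cp.symm cp'.symm _).symm } : Two x1 p1 x2' p2)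
  have hcp : c2 * p2 = c2 := by
    rw [hc2, hp2, ← cfc_mul _ _ t (ramp_continuous _ _).continuousOn
      (ramp_continuous _ _).continuousOn]
    refine cfc_congr fun s _ => ?_
    rcases le_or_gt s (1 / 2) with h | h
    · rw [ramp_zero (show (1 / 2 : ℝ) < 3 / 4 by norm_num) h, zero_mul]
    · rw [ramp_one (show (1 / 4 : ℝ) < 1 / 2 by norm_num) h.le, mul_one]
  have cc : ∀ f g : ℝ → ℝ, Commute (cfc f t) (cfc g t) := fun f g =>
    ((Commute.refl t).cfc_real g).symm.cfc_real f
  have k2 : Commute c2 x2' := ((comm_gate h20 _).1).mul_right (cc _ _)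
  have k2' : Commute c2 (star x2') := by
    rw [hx2', rescale, star_mul, (cfc_predicate _ t : IsSelfAdjoint _).star_eq]
    exact (cc _ _).mul_right (comm_gate h20 _).2
  have htail := h.tail hcp (cf c1.symm c1'.symm _)
    (cf s12 (by simpa using c1.star_star.symm) _) k2 k2' (cf cp.symm cp'.symm _) (cc _ _)
  set Y := nodeX x1 p1 x2' p2 with hY
  have hnode := h.node_gated
  set r := 1 - sumSq Y with hr
  have hr0 : 0 ≤ r := sub_nonneg.2 hnode.norm_le
  have hrc : r * c2 = 0 := by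
    have e : Commute (nodeP x1 p1 x2' p2) (sumSq Y) :=
      (hnode.comm_star.mul_right hnode.comm).add_right (hnode.comm.mul_right hnode.comm_star)
    have e2 : r * nodeP x1 p1 x2' p2 = 0 := by
      rw [hr, sub_mul, one_mul, ← e.eq]
      exact sub_eq_zero.2 hnode.absorb.symm
    rw [← htail, ← mul_assoc, e2, zero_mul]
  set R := CFC.sqrt r with hR
  have hRs : star R = R := (IsSelfAdjoint.of_nonneg (CFC.sqrt_nonneg r)).star_eq
  have hRR : R * R = r := CFC.sqrt_mul_sqrt_self r hr0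
  have hRc : R * c2 = 0 := by
    refine (CStarRing.star_mul_self_eq_zero_iff _).1 ?_
    rw [star_mul, hRs, mul_assoc, ← mul_assoc R R, hRR, hrc, mul_zero]
  have hgap : cfc gap t = 1 - c2 := by
    rw [hc2, ← cfc_one ℝ t (sumSq_isSelfAdjoint x2), ← cfc_sub (1 : ℝ → ℝ) _ t
      continuousOn_const (ramp_continuous _ _).continuousOn]
    rfl
  obtain ⟨-, htop⟩ := h.top_head (E := s0) (by rw [← hTs, ← mul_assoc, hp])
    (by rw [← hTs, ← mul_assoc, hA])
  refine ⟨Y, s0 * R, ⟨hnode.sq, ?_, ?_⟩, fun φ f1 fp f2 => ?_, fun φ hφ => ?_⟩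
  · have e : star (s0 * R) * (s0 * R) = R * (star s0 * s0) * R := by
      simp only [star_mul, hRs, mul_assoc]
    rw [e, hs, hgap, mul_sub, sub_mul, mul_one, hRR, hRc, zero_mul, sub_zero, hr, sumSq,
      sub_add_eq_sub_sub]
  · rw [← mul_assoc, htop]
  · have fx : φ x2' = x2' := fixed_rescale f2 (by norm_num)
    have fp2 : φ p2 = p2 := fixed_gate f2 (ramp_continuous _ _)
    have fy : φ (pairY x1 x2' (nodeB p1 p2)) = pairY x1 x2' (nodeB p1 p2) := by
      simp [pairY, nodeB, difSq, sumSq, map_star, f1, fp, fx, fp2]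
    exact fixed_rescale fy (by norm_num)
  · have e : φ s0 = φ P * φ s0 := by rw [← map_mul, hPs]
    have e' : star s0 = star s0 * P := by
      conv_lhs => rw [← hPs, star_mul, hPsa]
    rw [star_mul, map_mul, hRs, e', e]
    simp only [mul_assoc]
    rw [← mul_assoc P (φ P), hφ, zero_mul, mul_zero, mul_zero]

end Algebra

variable {A : Type} [NonUnitalCStarAlgebra A]

noncomputable local instance cseqAlgSolve (w : Ultrafilter ℕ) :
    CStarAlgebra (centralSeq (w : Filter ℕ) (Unitization ℂ A)) :=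
  StarSubalgebra.cstarAlgebra _ (h_closed := isClosed_centralSeq w)

lemma nontrivial_FA (hS : IsTopSimple A) (w : Ultrafilter ℕ) : Nontrivial (FA A w) := by
  refine ⟨1, 0, fun h => ?_⟩
  obtain ⟨⟨a, ha⟩, -⟩ := hS
  rw [← map_one (Ideal.Quotient.mk (annIdeal (inrSet A) w)), Ideal.Quotient.eq_zero_iff_mem,
    mem_annIdeal] at h
  have h1 := (h _ ⟨a, rfl⟩).1
  have h2 : Tendsto (fun _ : ℕ => (a : Unitization ℂ A)) (w : Filter ℕ) (𝓝 0) := by simpa using h1
  exact ha (Unitization.inr_injective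
    ((tendsto_nhds_unique tendsto_const_nhds h2).trans (Unitization.inr_zero ℂ).symm))

variable [TopologicalSpace.SeparableSpace A] {G : Type} [Group G] [Countable G]
  (α : G →* (A ≃⋆ₐ[ℂ] A)) {w : Ultrafilter ℕ}

theorem solveTrace (hw : (w : Filter ℕ) ≤ cofinite) (hL : LiftF α w) (hF : HasFirst α w)
    (hE : HasEvents α w) (hC : HasCompare A w) : SolveTrace α w := by
  intro hτ Δ hΔ
  let := CStarAlgebra.spectralOrder (FA A w)
  have := CStarAlgebra.spectralOrderedRing (FA A w)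
  obtain ⟨x0, hfix, hsq, hn⟩ := hF hτ
  obtain ⟨x1, p1, T, c, hg, hpT, hAT, hTc, hcpos, hcn, hφ, hcomm⟩ := exists_top hsq hn
  obtain ⟨p, k, hp, hk, -, -, hpk, hck, hpd, hT⟩ := hE Δ hΔ c hcpos hcn {x0}
  obtain ⟨cpx, ckx⟩ := hT x0 (Finset.mem_singleton_self x0)
  have cs : ∀ {a : FA A w}, SN.IsPos a → Commute a x0 → Commute (star x0) a := fun {a} ha h => by
    have := h.star_star
    rw [(SN.IsPos.isSelfAdjoint ha).star_eq] at this
    exact this.symm
  have cck : Commute c k := (hcomm k ckx.symm (cs hk ckx)).2.2.2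
  have ccp : Commute c p := (hcomm p cpx.symm (cs hp cpx)).2.2.2
  obtain ⟨X0, hX0⟩ := Ideal.Quotient.mk_surjective x0
  obtain ⟨E, hEc⟩ := Ideal.Quotient.mk_surjective T
  obtain ⟨P, hPc⟩ := Ideal.Quotient.mk_surjective p
  obtain ⟨C, hCc⟩ := Ideal.Quotient.mk_surjective (c * k)
  have e1 : T * (c * k) = c * k := by rw [← mul_assoc, hTc]
  have e2 : p * (c * k) = c * k := by rw [← mul_assoc, ← ccp.eq, mul_assoc, hpk]
  have hx : ∀ (K : Finset G) (δ : ℝ), 0 < δ → ∃ x : FA A w, ‖x‖ ≤ 1 ∧ ‖x * x‖ ≤ δ ∧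
      (∀ g ∈ K, ‖actF α w g x - x‖ ≤ δ) ∧
      ∀ τ, IsTraceOn (⊤ : StarSubalgebra ℂ (FA A w)) τ →
        (τ (cfc gap (sumSq x))).re ≤ δ := by
    intro K δ hδ
    obtain ⟨x, a1, a2, a3, a4⟩ := hL K (δ / 16) (by positivity)
    exact ⟨x, a1, a2.trans (by linarith), fun g hg => (a3 g hg).trans (by linarith),
      fun τ hτ' => (trace_gap_le hτ' x).trans (by linarith [(a4 τ hτ').1])⟩
  obtain ⟨x2, s0, _s1, hx20, hx2f, hx2c, -, hs⟩ := exists_sols α hw hC gap_continuous gap_mem
    (E := E) (P := P) (c := C)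
    (show SN.IsPos (cls C) by rw [show cls C = _ from hCc]; exact isPos_mul_of_commute hcpos hk cck)
    (show ‖cls C‖ = 1 by rw [show cls C = _ from hCc]; exact hck)
    (show cls E * cls C = cls C by
      rw [show cls C = _ from hCc, show cls E = _ from hEc]; exact e1)
    (show cls P * cls C = cls C by
      rw [show cls C = _ from hCc, show cls P = _ from hPc]; exact e2) {X0} hx
  obtain ⟨hsq0, hEs, hPs⟩ := hs s0 (List.mem_cons_self ..)
  rw [show cls E = _ from hEc] at hEs
  rw [show cls P = _ from hPc] at hPs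
  obtain ⟨d1, d2⟩ := hx2c X0 (Finset.mem_singleton_self X0)
  rw [show cls X0 = _ from hX0] at d1 d2
  have d3 : Commute x0 (star x2) := by
    have := d2.star_star
    rw [star_star] at this
    exact this.symm
  obtain ⟨e3, -, e4, -⟩ := hcomm x2 d1.symm d2.symm
  obtain ⟨e5, -, -, -⟩ := hcomm (star x2) d3 d1.star_star.symm
  obtain ⟨y, s, hrel, hy, hs'⟩ := exists_drop hg hpT hAT hx20 e3 e5 e4 hEs hPs hsq0
    (SN.IsPos.isSelfAdjoint hp).star_eq
  exact ⟨y, s, hrel, fun g => hy _ (hφ _ (hfix g)).1 (hφ _ (hfix g)).2 (hx2f g),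
    fun d hd => hs' _ (hpd d hd)⟩

theorem solveTraceless (hw : (w : Filter ℕ) ≤ cofinite) (hS : IsTopSimple A)
    (hE : HasEvents α w) (hC : HasCompare A w) : SolveTraceless α w := by
  intro hno Δ hΔ
  have := nontrivial_FA hS w
  obtain ⟨p, k, hp, hk, -, hkn, hpk, -, hpd, -⟩ :=
    hE Δ hΔ 1 ⟨1, by simp⟩ CStarRing.norm_one ∅
  obtain ⟨P, hPc⟩ := Ideal.Quotient.mk_surjective p
  obtain ⟨C, hCc⟩ := Ideal.Quotient.mk_surjective k
  obtain ⟨x, s, s', -, -, -, horth, hs⟩ := exists_sols α hw hC (h := fun _ => (1 : ℝ))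
    continuous_const (fun _ => ⟨zero_le_one, le_rfl⟩) (E := 1) (P := P) (c := C)
    (show SN.IsPos (cls C) by rw [show cls C = _ from hCc]; exact hk)
    (show ‖cls C‖ = 1 by rw [show cls C = _ from hCc]; exact hkn)
    (show cls (1 : CSeq A w) * cls C = cls C by
      rw [show cls (1 : CSeq A w) = 1 from map_one _, one_mul])
    (show cls P * cls C = cls C by
      rw [show cls C = _ from hCc, show cls P = _ from hPc]; exact hpk) ∅
    (fun K δ hδ => ⟨0, by simp, by simpa using hδ.le, fun g _ => by simpa using hδ.le,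
      fun τ hτ => absurd ⟨τ, hτ⟩ hno⟩)
  obtain ⟨a1, -, a3⟩ := hs s (List.mem_cons_self ..)
  obtain ⟨b1, -, b3⟩ := hs s' (List.mem_cons_of_mem _ (List.mem_cons_self ..))
  have h1 : cfc (fun _ : ℝ => (1 : ℝ)) (sumSq x) = 1 :=
    cfc_const_one ℝ (sumSq x) (sumSq_isSelfAdjoint x)
  refine ⟨s, s', a1.trans h1, b1.trans h1, horth, fun d hd a ha b hb => ?_⟩
  rw [show cls P = _ from hPc] at a3 b3
  have pa : ∀ v ∈ [s, s'], p * v = v := fun v hv => by
    rcases List.mem_pair.1 hv with rfl | rfl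
    exacts [a3, b3]
  have e : actF α w d b = actF α w d p * actF α w d b := by rw [← map_mul, pa b hb]
  have e' : star a = star a * p := by
    conv_lhs => rw [← pa a ha, star_mul, (SN.IsPos.isSelfAdjoint hp).star_eq]
  rw [e', e, mul_assoc, ← mul_assoc p, hpd d hd, zero_mul, mul_zero]

omit [TopologicalSpace.SeparableSpace A] [Countable G] in
/-- W6a. -/
theorem solvePin : SolvePin := fun A _ _ w hw hS G _ _ α hL hF hE hC =>
  ⟨solveTrace α hw hL hF hE hC, solveTraceless α hw hS hE hC⟩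

end Vale.Agent.P095.W
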