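import Vale.Agent.P095.W.Copies
import Vale.Agent.P095.W.Converse
import Vale.Agent.P095.W.Isometry
import Vale.Agent.P095.W.First
import Vale.Agent.P095.W.Solve
import Vale.Agent.P095.W.LiftF
import Vale.Agent.P095.W.FactorA
import Vale.Agent.P095.W.AmplifyA
import Vale.Agent.P095.W.PiecesF
import Vale.Agent.P095.W.Compare
import Vale.Agent.P095.W.CertW
import Vale.Agent.P095.W.Carrier
import Vale.Agent.P095.W.Assemble
import Vale.Agent.P095.SC.Cert
import Vale.Agent.P095.SC.Count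
import Vale.Agent.P095.SC.Random
import Vale.Agent.P095.W.Events
import Vale.Agent.P095.W.DropN

/-!
P095, Theorem W: assembly of the final statement.
-/

namespace Vale.Agent.P095.W

open Filter Vale.Agent.P101 Vale.Agent.P101.DropN Vale.Agent.P095 Vale.Agent.P095.W
open scoped Topology BoundedContinuousFunction

theorem conjectureA :
    ∀ (A : Type) [NonUnitalCStarAlgebra A] [TopologicalSpace.SeparableSpace A],
    IsTopSimple A → IsNuclearA A → ∀ (w : Ultrafilter ℕ), (w : Filter ℕ) ≤ cofinite →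
    ((∃ φ : ZTwoThree → centralSeq (w : Filter ℕ) (Unitization ℂ A),
        IsFixedHomModAnn (w : Filter ℕ) (fun _ : Unit => (StarAlgEquiv.refl ℂ A)) φ) ↔ NoChar A w) ∧
    (NoChar A w → ∀ (G : Type) [Group G] [Countable G], Tracial.Foelner G →
      ∀ α : G →* (A ≃⋆ₐ[ℂ] A),
      (∃ φ : ℕ → ZTwoThree → centralSeq (w : Filter ℕ) (Unitization ℂ A),
        (∀ k, IsFixedHomModAnn (w : Filter ℕ) (fun g => α g) (φ k)) ∧
        ∀ k l, k ≠ l → ∀ f g, ∀ a : A, Tendsto (fun n =>
          ((φ k f).1 n * (φ l g).1 n - (φ l g).1 n * (φ k f).1 n) * (a : Unitization ℂ A))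
          (w : Filter ℕ) (𝓝 0)) ∧
        ∀ n, HasFixedDropN (w : Filter ℕ) (fun g => α g) n) := by
  intro A _ _ hS hN w hw
  have main : NoChar A w → ∀ (G : Type) [Group G] [Countable G], Tracial.Foelner G →
      ∀ α : G →* (A ≃⋆ₐ[ℂ] A),
      ∃ φ : ℕ → ZTwoThree → centralSeq (w : Filter ℕ) (Unitization ℂ A),
        (∀ k, IsFixedHomModAnn (w : Filter ℕ) (fun g => α g) (φ k)) ∧
        ∀ k l, k ≠ l → ∀ f g, ∀ a : A, Tendsto (fun n =>
          ((φ k f).1 n * (φ l g).1 n - (φ l g).1 n * (φ k f).1 n) * (a : Unitization ℂ A))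
          (w : Filter ℕ) (𝓝 0) := fun hno G _ _ hG α =>
    fixedCopies_of_blocks liftFPin firstPin isometryPin eventsPin factorAPin SC.certPin
      (SC.matrixPin SC.countPin) amplifyAPin piecesFPin (comparePin_of certWPin carrierPin)
      solvePin hS hN w hw hno G hG α
  refine ⟨⟨fun ⟨φ, hφ⟩ => noChar_of_map hφ, fun hno => ?_⟩, fun hno G _ _ hG α =>
    ⟨main hno G hG α, fun n =>
    fixedDropN_of_blocks liftFPin firstPin isometryPin eventsPin factorAPin SC.certPin
      (SC.matrixPin SC.countPin) amplifyAPin piecesFPin (comparePin_of certWPin carrierPin)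
      solvePin hS hN w hw hno G hG α n⟩⟩
  obtain ⟨φs, hφs, -⟩ := main hno Unit (fun K ε hε => ⟨{()}, by simp, fun g _ => by
    simp [hε.le]⟩) 1
  have hφ := hφs 0
  exact ⟨φs 0, ⟨hφ.one, hφ.add, hφ.mul, hφ.smul, hφ.star_map, fun _ f a => hφ.fixed () f a⟩⟩

end Vale.Agent.P095.W
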