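import Vale.Agent.P095.Statement

/-!
P095, Theorem W: the definitions used by the statement. Simplicity and nuclearity of a possibly
nonunital algebra, and the absence of characters on its central sequence algebra.
-/

namespace Vale.Agent.P095.W

open Filter Vale.Agent.P101 Vale.Agent.P095
open scoped Topology BoundedContinuousFunction Matrix.Norms.L2Operator ComplexOrder

variable {A : Type} [NonUnitalCStarAlgebra A]

/-- Bounded central sequences of the unitization. -/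
abbrev CSeq (A : Type) [NonUnitalCStarAlgebra A] (w : Ultrafilter ℕ) : Type :=
  centralSeq (w : Filter ℕ) (Unitization ℂ A)

/-- The central sequence algebra has no characters. -/
def NoChar (A : Type) [NonUnitalCStarAlgebra A] (w : Ultrafilter ℕ) : Prop :=
  ∀ χ : CSeq A w →⋆ₐ[ℂ] ℂ,
    (∀ f : CSeq A w, AnnNull (w : Filter ℕ) (f : ℕ →ᵇ Unitization ℂ A) → χ f = 0) → False

/-- Simplicity: every nonzero element generates a dense two-sided ideal. -/
def IsTopSimple (A : Type) [NonUnitalCStarAlgebra A] : Prop :=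
  (∃ a : A, a ≠ 0) ∧ ∀ a : A, a ≠ 0 → ∀ (b : A) (ε : ℝ), 0 < ε →
    ∃ (n : ℕ) (r t : Fin n → A), ‖b - ∑ l, r l * a * t l‖ ≤ ε

/-- A completely positive map into matrices. -/
def IsCPTo {n : ℕ} (φ : A →ₗ[ℂ] Matrix (Fin n) (Fin n) ℂ) : Prop :=
  ∀ (m : ℕ) (a : Fin m → A),
    (Matrix.of fun p q : Fin m × Fin n => φ (star (a p.1) * a q.1) p.2 q.2).PosSemidef

/-- A completely positive map out of matrices. -/
def IsCPFrom {n : ℕ} (ψ : Matrix (Fin n) (Fin n) ℂ →ₗ[ℂ] A) : Prop :=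
  ∀ (m : ℕ) (T : Fin m → Matrix (Fin n) (Fin n) ℂ) (b : Fin m → A),
    ∃ z : A, star z * z = ∑ i, ∑ j, star (b i) * ψ ((T i).conjTranspose * T j) * b j

/-- Nuclearity: the identity is a point-norm limit of completely positive contractions through
matrices. -/
def IsNuclearA (A : Type) [NonUnitalCStarAlgebra A] : Prop :=
  ∀ (S : Finset A) (ε : ℝ), 0 < ε → ∃ (n : ℕ) (φ : A →ₗ[ℂ] Matrix (Fin n) (Fin n) ℂ)
    (ψ : Matrix (Fin n) (Fin n) ℂ →ₗ[ℂ] A),
    IsCPTo φ ∧ IsCPFrom ψ ∧ (∀ a, ‖φ a‖ ≤ ‖a‖) ∧ (∀ T, ‖ψ T‖ ≤ ‖T‖) ∧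
      ∀ a ∈ S, ‖ψ (φ a) - a‖ ≤ ε

end Vale.Agent.P095.W
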