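import Vale.Agent.P095.Rel.Unit
import Vale.Agent.P095.W.Statement
import Vale.Agent.P095.Tracial.Defs
import Vale.Agent.P095.SN.Defs

/-!
P095, Theorem W (notes/P095/lead_W.md, notes/P095/helper5_W.md): Conjecture A for every simple
nuclear algebra, unital or not. Definitions.
-/

namespace Vale.Agent.P095.W

open Filter Vale.Agent.P101 Vale.Agent.P095 Vale.Agent.P095.Rel Vale.Agent.P095.Tracial
open scoped Topology BoundedContinuousFunction Matrix.Norms.L2Operator ComplexOrder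

variable {A : Type} [NonUnitalCStarAlgebra A]

noncomputable local instance (w : Ultrafilter ℕ) :
    CStarAlgebra (centralSeq (w : Filter ℕ) (Unitization ℂ A)) :=
  StarSubalgebra.cstarAlgebra _ (h_closed := isClosed_centralSeq w)

/-- Kirchberg's central sequence algebra: central sequences of the unitization modulo those
annihilating the algebra. -/
abbrev FA (A : Type) [NonUnitalCStarAlgebra A] (w : Ultrafilter ℕ) : Type :=
  RelQuot (inrSet A) w

/-- The class of a central sequence. -/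
noncomputable abbrev cls {w : Ultrafilter ℕ} (f : CSeq A w) : FA A w :=
  Ideal.Quotient.mk (annIdeal (inrSet A) w) f

/-- A positive contraction which is one on a norm one positive element. -/
def PairA (h h₀ : A) : Prop :=
  (∃ z, star z * z = h) ∧ (∃ z, star z * z = h₀) ∧ ‖h‖ ≤ 1 ∧ ‖h₀‖ = 1 ∧ h * h₀ = h₀

/-- Two orthogonal norm one elements under every pair. -/
def HasSplit (A : Type) [NonUnitalCStarAlgebra A] : Prop :=
  ∀ h h₀ : A, PairA h h₀ → ∃ g g' : A, star g = g ∧ star g' = g' ∧ ‖g‖ = 1 ∧ ‖g'‖ = 1 ∧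
    h * g = g ∧ h * g' = g' ∧ g * g' = 0

/-- The identity factors through finitely many excised values. -/
def FactorA (A : Type) [NonUnitalCStarAlgebra A] : Prop :=
  ∀ (S : Finset A) (η : ℝ), 0 < η → ∃ (N : ℕ) (c d : Fin N → A) (lam : A → Fin N → Fin N → ℂ)
    (h h₀ : A), PairA h h₀ ∧ ∀ a ∈ S,
      ‖(∑ i, ∑ j, lam a i j • (star (c i) * c j)) - a‖ ≤ η ∧
      ∑ i, ∑ j, ‖c i‖ * ‖c j‖ * ‖h * (star (d i) * a * d j) * h - lam a i j • (h * h)‖ ≤ η

variable {G : Type} [Group G]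

/-- The induced action on the central sequence algebra. -/
noncomputable abbrev actF (α : G →* (A ≃⋆ₐ[ℂ] A)) (w : Ultrafilter ℕ) (g : G) :
    FA A w →⋆ₐ[ℂ] FA A w :=
  relAct (unitAct α) (unitAct_mem α) w g

/-- A group element fixing the central sequence algebra pointwise. -/
def InKer (α : G →* (A ≃⋆ₐ[ℂ] A)) (w : Ultrafilter ℕ) (d : G) : Prop :=
  ∀ x : FA A w, actF α w d x = x

/-- The trace of the central sequence algebra is small on the defects of an almost invariant, almost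
square zero element. -/
def LiftF (α : G →* (A ≃⋆ₐ[ℂ] A)) (w : Ultrafilter ℕ) : Prop :=
  ∀ (K : Finset G) (ε : ℝ), 0 < ε → ∃ x : FA A w, ‖x‖ ≤ 1 ∧ ‖x * x‖ ≤ ε ∧
    (∀ g ∈ K, ‖actF α w g x - x‖ ≤ ε) ∧
    ∀ τ, IsTraceOn (⊤ : StarSubalgebra ℂ (FA A w)) τ →
      tsq τ (1 - sq2 x) ≤ ε ∧ (τ (star x * x * (1 - star x * x))).re ≤ ε

/-- An exactly invariant square zero element of norm one. -/
def HasFirst (α : G →* (A ≃⋆ₐ[ℂ] A)) (w : Ultrafilter ℕ) : Prop :=
  (∃ τ, IsTraceOn (⊤ : StarSubalgebra ℂ (FA A w)) τ) →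
    ∃ x : FA A w, (∀ g, actF α w g x = x) ∧ x * x = 0 ∧ ‖x‖ = 1

/-- Events: a norm one witness under an element exactly orthogonal to its translates, inside the
commutant of a finite set and not annihilated by a given element. -/
def HasEvents (α : G →* (A ≃⋆ₐ[ℂ] A)) (w : Ultrafilter ℕ) : Prop :=
  ∀ (Δ : Finset G), (∀ d ∈ Δ, ¬ InKer α w d) → ∀ (e : FA A w), SN.IsPos e → ‖e‖ = 1 →
    ∀ T : Finset (FA A w), ∃ p k : FA A w, SN.IsPos p ∧ SN.IsPos k ∧ ‖p‖ ≤ 1 ∧ ‖k‖ = 1 ∧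
      p * k = k ∧ ‖e * k‖ = 1 ∧ (∀ d ∈ Δ, p * actF α w d p = 0) ∧
      ∀ a ∈ T, Commute p a ∧ Commute k a

/-- The comparison: a trace-small positive element is carried below two given central supports, by
two almost central elements of the algebra with orthogonal ranges. -/
def HasCompare (A : Type) [NonUnitalCStarAlgebra A] (w : Ultrafilter ℕ) : Prop :=
  ∀ (E P c : CSeq A w), SN.IsPos (cls c) → ‖cls c‖ = 1 → cls E * cls c = cls c →
    cls P * cls c = cls c → ∀ (S : Finset A) (ε : ℝ), 0 < ε →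
    ∀ᶠ m in (w : Filter ℕ), ∃ δ : ℝ, 0 < δ ∧ ∀ q : CSeq A w, SN.IsPos (cls q) → ‖q‖ ≤ 1 →
      (∀ τ, IsTraceOn (⊤ : StarSubalgebra ℂ (FA A w)) τ → (τ (cls q)).re ≤ δ) →
      ∀ᶠ n in (w : Filter ℕ), ∃ s s' : A, ‖(star s' * s : A)‖ ≤ ε ∧ ∀ t ∈ [s, s'],
        ‖t‖ ≤ 2 ∧ ‖(E : ℕ →ᵇ Unitization ℂ A) m * (t : Unitization ℂ A) - t‖ ≤ ε ∧
        ‖(P : ℕ →ᵇ Unitization ℂ A) m * (t : Unitization ℂ A) - t‖ ≤ ε ∧
        ∀ a ∈ S, ‖t * a - a * t‖ ≤ ε ∧
          ‖((star t * t : A) : Unitization ℂ A) * (a : Unitization ℂ A)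
            - (q : ℕ →ᵇ Unitization ℂ A) n * (a : Unitization ℂ A)‖ ≤ ε

/-- Exact central pieces: half as many orthogonal translates of one square as the number of pieces
covering the unit. -/
def PiecesF (F : Type*) [CStarAlgebra F] : Prop :=
  ∀ j : ℕ, ∃ (d : F) (u : Fin (2 ^ j) → F) (v : Fin (2 ^ (j + 1)) → F),
    (∀ i i', star (u i) * u i' = if i = i' then star d * d else 0) ∧
    ∑ i, star (v i) * (star d * d) * v i = 1

/-- The exact solution for finitely many elements outside the kernel, when there is a trace. -/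
def SolveTrace (α : G →* (A ≃⋆ₐ[ℂ] A)) (w : Ultrafilter ℕ) : Prop :=
  (∃ τ, IsTraceOn (⊤ : StarSubalgebra ℂ (FA A w)) τ) →
    ∀ Δ : Finset G, (∀ d ∈ Δ, ¬ InKer α w d) → ∃ y s : FA A w, DropRelations y s ∧
      (∀ g, actF α w g y = y) ∧ ∀ d ∈ Δ, star s * actF α w d s = 0

/-- The exact solution for finitely many elements outside the kernel, without traces. -/
def SolveTraceless (α : G →* (A ≃⋆ₐ[ℂ] A)) (w : Ultrafilter ℕ) : Prop :=
  (¬ ∃ τ, IsTraceOn (⊤ : StarSubalgebra ℂ (FA A w)) τ) →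
    ∀ Δ : Finset G, (∀ d ∈ Δ, ¬ InKer α w d) → ∃ s s' : FA A w,
      star s * s = 1 ∧ star s' * s' = 1 ∧ star s' * s = 0 ∧
      ∀ d ∈ Δ, ∀ a ∈ [s, s'], ∀ b ∈ [s, s'], star a * actF α w d b = 0

end Vale.Agent.P095.W
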