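import Vale.Agent.P095.W.Defs

/-!
P095, Theorem W: bounded sequences in the unitization modulo null sequences, with the constants and
the central sequences inside.
-/

namespace Vale.Agent.P095.W

open Filter Vale.Agent.P101 Vale.Agent.P095 Vale.Agent.P095.Rel
open scoped Topology BoundedContinuousFunction

universe u

variable {B : Type u} [CStarAlgebra B] (W : Ultrafilter ℕ)

/-- The bounded sequences tending to zero. -/
def nullSeq : Ideal (ℕ →ᵇ B) where
  carrier := {f | Tendsto (fun i => f i) (W : Filter ℕ) (𝓝 0)}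
  add_mem' {f g} hf hg := by simpa using hf.add hg
  zero_mem' := tendsto_const_nhds
  smul_mem' c f hf := by
    refine squeeze_zero_norm (fun n => norm_mul_le _ _) ?_
    refine squeeze_zero (fun n => by positivity)
      (fun n => mul_le_mul_of_nonneg_right (c.norm_coe_le_norm n) (norm_nonneg _)) ?_
    simpa using (tendsto_zero_iff_norm_tendsto_zero.1 hf).const_mul ‖c‖

lemma mem_nullSeq {f : ℕ →ᵇ B} :
    f ∈ nullSeq W ↔ Tendsto (fun i => f i) (W : Filter ℕ) (𝓝 0) := Iff.rfl

instance : (nullSeq (B := B) W).IsTwoSided where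
  mul_mem_of_left {f} g hf := by
    refine squeeze_zero_norm (fun n => norm_mul_le _ _) ?_
    refine squeeze_zero (fun n => by positivity)
      (fun n => mul_le_mul_of_nonneg_left (g.norm_coe_le_norm n) (norm_nonneg _)) ?_
    simpa using (tendsto_zero_iff_norm_tendsto_zero.1 hf).mul_const ‖g‖

instance : IsClosed (nullSeq (B := B) W : Set (ℕ →ᵇ B)) := by
  refine isClosed_of_closure_subset fun g hg => ?_
  rw [SetLike.mem_coe, mem_nullSeq, Metric.tendsto_nhds]
  intro ε hε
  obtain ⟨f, hf, hfg⟩ := Metric.mem_closure_iff.1 hg (ε / 2) (by positivity)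
  filter_upwards [Metric.tendsto_nhds.1 hf (ε / 2) (by positivity)] with n hn
  have h1 := BoundedContinuousFunction.dist_coe_le_dist (f := g) (g := f) n
  linarith [dist_triangle (g n) (f n) 0]

instance : GoodIdeal (nullSeq (B := B) W) where
  twoSided := inferInstance
  closed := inferInstance
  star_mem f hf := by
    rw [mem_nullSeq, tendsto_zero_iff_norm_tendsto_zero] at hf ⊢
    simpa using hf
  cstar f g hg ε hε := by
    rw [mem_nullSeq] at hg
    set c := Real.sqrt (‖g‖ + ε) with hc
    have hev : ∀ᶠ i in (W : Filter ℕ), ‖f i‖ ≤ c := by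
      filter_upwards [Metric.tendsto_nhds.1 hg ε hε] with n hn
      rw [dist_zero_right] at hn
      apply Real.le_sqrt_of_sq_le
      have h2 : ‖g n‖ ≤ ‖g‖ := g.norm_coe_le_norm n
      have h3 : ‖star (f n) * f n‖ ≤ ‖g n‖ + ‖g n - star (f n) * f n‖ :=
        norm_le_norm_add_norm_sub _ _
      rw [CStarRing.norm_star_mul_self] at h3
      simp only [BoundedContinuousFunction.coe_sub, BoundedContinuousFunction.coe_mul,
        BoundedContinuousFunction.coe_star, Pi.sub_apply, Pi.mul_apply, Pi.star_apply] at hn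
      rw [sq]
      linarith
    have hb : ∀ i, ‖if ‖f i‖ ≤ c then f i else 0‖ ≤ c := by
      intro i
      split_ifs with hi
      · exact hi
      · simp [hc]
    let f' : ℕ →ᵇ B := BoundedContinuousFunction.ofNormedAddCommGroup
      (fun i => if ‖f i‖ ≤ c then f i else 0) continuous_of_discreteTopology c hb
    refine ⟨f', ?_, ?_⟩
    · rw [mem_nullSeq]
      exact tendsto_const_nhds.congr' (hev.mono fun i hi => by simp [f', hi])
    · refine (mul_le_mul ((BoundedContinuousFunction.norm_le (Real.sqrt_nonneg _)).2 hb)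
        ((BoundedContinuousFunction.norm_le (Real.sqrt_nonneg _)).2 hb) (norm_nonneg _)
        (Real.sqrt_nonneg _)).trans (Real.mul_self_sqrt (by positivity)).le

/-- Bounded sequences modulo the null ones. -/
abbrev Seq (B : Type u) [CStarAlgebra B] (W : Ultrafilter ℕ) : Type u :=
  (ℕ →ᵇ B) ⧸ nullSeq (B := B) W

/-- The class of a bounded sequence. -/
noncomputable abbrev sq : (ℕ →ᵇ B) →⋆ₐ[ℂ] Seq B W := quotHom (nullSeq (B := B) W)

lemma sq_eq {f g : ℕ →ᵇ B} :
    sq W f = sq W g ↔ Tendsto (fun i => f i - g i) (W : Filter ℕ) (𝓝 0) :=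
  Ideal.Quotient.mk_eq_mk_iff_sub_mem f g

/-- The constant sequences. -/
noncomputable def iota : B →⋆ₐ[ℂ] Seq B W :=
  (sq W).comp
    { toFun := fun b => BoundedContinuousFunction.const ℕ b
      map_one' := by ext i; simp
      map_mul' := fun f g => by ext i; simp
      map_zero' := by ext i; simp
      map_add' := fun f g => by ext i; simp
      commutes' := fun r => by ext i; simp [Algebra.algebraMap_eq_smul_one]
      map_star' := fun f => by ext i; simp }

lemma iota_apply (b : B) : iota W b = sq W (BoundedContinuousFunction.const ℕ b) := rfl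

lemma norm_iota_le (b : B) : ‖iota W b‖ ≤ ‖b‖ := NonUnitalStarAlgHom.norm_apply_le _ b

/-- A bound on a class holds eventually on representatives. -/
lemma eventually_norm_le {f : ℕ →ᵇ B} {r ε : ℝ} (hf : ‖sq W f‖ ≤ r) (hε : 0 < ε) :
    ∀ᶠ i in (W : Filter ℕ), ‖f i‖ ≤ r + ε := by
  obtain ⟨g, hg, hgn⟩ := Submodule.Quotient.norm_mk_lt (S := nullSeq (B := B) W) (sq W f)
    (half_pos hε)
  filter_upwards [Metric.tendsto_nhds.1 ((sq_eq W).1 hg) (ε / 2) (half_pos hε)] with i hi
  rw [dist_zero_right, norm_sub_rev] at hi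
  linarith [norm_le_norm_add_norm_sub' (f i) (g i), g.norm_coe_le_norm i]

/-- A bound eventually holding on representatives holds for the class. -/
lemma norm_sq_le {f : ℕ →ᵇ B} {r : ℝ} (hr : 0 ≤ r)
    (hf : ∀ᶠ i in (W : Filter ℕ), ‖f i‖ ≤ r) : ‖sq W f‖ ≤ r := by
  classical
  have hb : ∀ i, ‖if ‖f i‖ ≤ r then f i else 0‖ ≤ r := by
    intro i
    split_ifs with hi
    · exact hi
    · simpa using hr
  let g : ℕ →ᵇ B := BoundedContinuousFunction.ofNormedAddCommGroupDiscrete
    (fun i => if ‖f i‖ ≤ r then f i else 0) r hb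
  have e : sq W f = sq W g := (sq_eq W).2 (tendsto_const_nhds.congr'
    (hf.mono fun i hi => by simp [g, hi]))
  rw [e]
  exact (Submodule.Quotient.norm_mk_le _ _).trans
    ((BoundedContinuousFunction.norm_le hr).2 hb)

section Unit

variable {A : Type} [NonUnitalCStarAlgebra A]

noncomputable local instance seqCStar (w : Ultrafilter ℕ) :
    CStarAlgebra (centralSeq (w : Filter ℕ) (Unitization ℂ A)) :=
  StarSubalgebra.cstarAlgebra _ (h_closed := isClosed_centralSeq w)

variable (w : Ultrafilter ℕ)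

/-- Central sequences as bounded sequences. -/
noncomputable def toSeq : CSeq A w →⋆ₐ[ℂ] Seq (Unitization ℂ A) w :=
  (sq w).comp (centralSeq (w : Filter ℕ) (Unitization ℂ A)).subtype

lemma toSeq_apply (f : CSeq A w) : toSeq w f = sq w (f : ℕ →ᵇ Unitization ℂ A) := rfl

lemma toSeq_comm (f : CSeq A w) (b : Unitization ℂ A) :
    Commute (toSeq w f) (iota w b) := by
  rw [commute_iff_eq, toSeq_apply, iota_apply, ← map_mul, ← map_mul, sq_eq]
  exact f.2 b

/-- Congruent central sequences agree after multiplying by the algebra. -/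
lemma toSeq_mul_of_cls {f g : CSeq A w} (h : cls f = cls g) (a : A) :
    toSeq w f * iota w (a : Unitization ℂ A) = toSeq w g * iota w (a : Unitization ℂ A) := by
  rw [toSeq_apply, toSeq_apply, iota_apply, ← map_mul, ← map_mul, sq_eq]
  have h' : f - g ∈ annIdeal (inrSet A) w := (Ideal.Quotient.mk_eq_mk_iff_sub_mem f g).1 h
  rw [mem_annIdeal] at h'
  refine (h' _ ⟨a, rfl⟩).1.congr fun n => ?_
  simp [sub_mul]

/-- The class bounds the product with the algebra. -/
lemma norm_toSeq_mul_le (f : CSeq A w) (a : A) :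
    ‖toSeq w f * iota w (a : Unitization ℂ A)‖ ≤ ‖cls f‖ * ‖a‖ := by
  refine le_of_forall_pos_le_add fun ε hε => ?_
  have hpos : 0 < ε / (‖a‖ + 1) := by positivity
  obtain ⟨g, hg, hgn⟩ := Submodule.Quotient.norm_mk_lt (cls f) hpos
  rw [← toSeq_mul_of_cls w hg a]
  have h1 : ‖toSeq w g‖ ≤ ‖cls f‖ + ε / (‖a‖ + 1) :=
    ((NonUnitalStarAlgHom.norm_apply_le (toSeq w) g).trans hgn.le)
  have h2 : ‖iota w (a : Unitization ℂ A)‖ ≤ ‖a‖ :=
    (norm_iota_le w _).trans (Unitization.norm_inr (𝕜 := ℂ) a).le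
  have h0 : 0 ≤ ‖cls f‖ + ε / (‖a‖ + 1) := le_trans (norm_nonneg _) h1
  have h3 := (norm_mul_le (toSeq w g) (iota w (a : Unitization ℂ A))).trans
    (mul_le_mul h1 h2 (norm_nonneg _) h0)
  have h4 : ε / (‖a‖ + 1) * ‖a‖ ≤ ε := by
    rw [div_mul_eq_mul_div, div_le_iff₀ (by positivity)]
    nlinarith [norm_nonneg a]
  linarith

end Unit

end Vale.Agent.P095.W
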