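import Vale.Agent.P095.W.Pins
import Vale.Agent.P095.W.CompareBasic
import Vale.Agent.P095.W.Seq

/-!
P095, Theorem W, block W5: statements of the two inner steps of the comparison
(notes/P095/helper5_W.md). `CertWPin`: the certificate at a late index; `CarrierPin`: one index
fixed, random arrays and central pieces give the square root.
-/

namespace Vale.Agent.P095.W

open Filter Vale.Agent.P101 Vale.Agent.P095 Vale.Agent.P095.Rel Vale.Agent.P095.Tracial
open scoped Topology BoundedContinuousFunction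

noncomputable local instance partsCStar {A : Type} [NonUnitalCStarAlgebra A] (w : Ultrafilter ℕ) :
    CStarAlgebra (centralSeq (w : Filter ℕ) (Unitization ℂ A)) :=
  StarSubalgebra.cstarAlgebra _ (h_closed := isClosed_centralSeq w)

/-- W5a: a trace-small positive element of the central sequence algebra, compressed by a fixed
element, is at late indices a sum of squares with small reversed sum. -/
def CertWPin : Prop :=
  SC.CertPin.{0} → ∀ (A : Type) [NonUnitalCStarAlgebra A] (w : Ultrafilter ℕ),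
    (w : Filter ℕ) ≤ cofinite → ∀ b : A, star b = b → ‖b‖ ≤ 1 → ∀ δ : ℝ, 0 < δ →
    ∀ q : CSeq A w, SN.IsPos (cls q) → ‖q‖ ≤ 1 →
    (∀ τ, IsTraceOn (⊤ : StarSubalgebra ℂ (FA A w)) τ → (τ (cls q)).re ≤ δ) →
    ∀ η : ℝ, 0 < η → ∀ᶠ n in (w : Filter ℕ), ∃ (k : ℕ) (z : Fin k → A),
      (∀ e : Unitization ℂ A, e * (b : Unitization ℂ A) = b → (b : Unitization ℂ A) * e = b →
        ∀ i, e * (z i : Unitization ℂ A) = z i ∧ (z i : Unitization ℂ A) * e = z i) ∧
      ‖∑ i, star (z i) * z i‖ ≤ 1 ∧ ‖∑ i, z i * star (z i)‖ ≤ δ + η ∧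
      ‖((∑ i, star (z i) * z i : A) : Unitization ℂ A)
          - (q : ℕ →ᵇ Unitization ℂ A) n * ((b * b * (b * b) : A) : Unitization ℂ A)‖ ≤ η

/-- W5b: random arrays at one index and central pieces at a later one. -/
def CarrierPin : Prop :=
  SC.MatrixPin → AmplifyAPin → ∀ (A : Type) [NonUnitalCStarAlgebra A] (w : Ultrafilter ℕ),
    (w : Filter ℕ) ≤ cofinite → IsNuclearA A → PiecesF (FA A w) →
    ∀ (L K : ℕ), 0 < L → 0 < K →
    ∀ (g e' : Unitization ℂ A) (r : Fin K → Unitization ℂ A), InA g → InA e' → star e' = e' →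
      ‖e'‖ ≤ 1 → (∑ l, star (g * r l) * (g * r l)) = e' →
    ∀ (k : ℕ) (z : Fin k → A),
      (∀ i, e' * (z i : Unitization ℂ A) = z i ∧ (z i : Unitization ℂ A) * e' = z i) →
    ∀ δ : ℝ, 0 < δ → ((4 * K * L : ℕ) : ℝ) * δ < 1 →
      ‖∑ i, star (z i) * z i‖ ≤ 1 → ‖∑ i, z i * star (z i)‖ ≤ δ →
    ∀ p₀ : Unitization ℂ A, p₀ * g = g → ∀ ε : ℝ, 0 < ε →
      ∃ v : Unitization ℂ A, InA v ∧ ‖p₀ * v - v‖ ≤ ε ∧
        ‖star v * v - ((∑ i, star (z i) * z i : A) : Unitization ℂ A)‖ ≤ 30 / Real.sqrt L + ε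

end Vale.Agent.P095.W
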