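import Vale.Agent.P095.W.CompareParts

/-!
P095, Theorem W, block W5: from one root below a support to one almost central element
(notes/P095/helper5_W.md).
-/

namespace Vale.Agent.P095.W

open Filter Vale.Agent.P095.SI Vale.Agent.P095.SN

variable {F : Type*} [CStarAlgebra F]

/-- Small conjugates give small commutators and small defects. -/
lemma comm_conj {s a q : F} {E : ℝ} (h1 : ‖star s * (star a * a) * s - q * (star a * a)‖ ≤ E)
    (h2 : ‖star s * star a * s - q * star a‖ ≤ E) (h3 : ‖star s * a * s - q * a‖ ≤ E)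
    (h4 : ‖star s * s * a - q * a‖ ≤ E) :
    ‖s * a - a * s‖ ≤ Real.sqrt (E * (1 + 3 * ‖a‖)) := by
  have hE : 0 ≤ E := (norm_nonneg _).trans h1
  refine Real.le_sqrt_of_sq_le ?_
  rw [norm_sub_rev, pow_two, ← CStarRing.norm_star_mul_self]
  have e : star (a * s - s * a) * (a * s - s * a)
      = (star s * (star a * a) * s - q * (star a * a)) - (star s * star a * s - q * star a) * a
        - star a * (star s * a * s - q * a) + star a * (star s * s * a - q * a) := by
    simp only [star_sub, star_mul]; noncomm_ring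
  rw [e]
  refine (norm_add_le _ _).trans ((add_le_add ((norm_sub_le _ _).trans (add_le_add
    ((norm_sub_le _ _).trans (add_le_add h1 (norm_mul_le _ _))) (norm_mul_le _ _)))
    (norm_mul_le _ _)).trans ?_)
  rw [norm_star]
  have k2 := mul_le_mul_of_nonneg_right h2 (norm_nonneg a)
  have k3 := mul_le_mul_of_nonneg_left h3 (norm_nonneg a)
  have k4 := mul_le_mul_of_nonneg_left h4 (norm_nonneg a)
  linarith

/-- Roots with orthogonal ranges give solutions with orthogonal ranges. -/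
lemma cross_estimate {N : ℕ} (c d : Fin N → F) (l : Fin N → Fin N → ℂ) {h v v' b : F} {η : ℝ}
    (hh : star h = h) (hv : h * v = v) (hv' : h * v' = v') (h0 : star v' * v = 0)
    (hv2 : ‖v‖ ≤ 2) (hv2' : ‖v'‖ ≤ 2)
    (hd : ∑ i, ∑ j, ‖c i‖ * ‖c j‖ * ‖h * (star (d i) * b * d j) * h - l i j • (h * h)‖ ≤ η) :
    ‖star (∑ i, d i * v' * c i) * b * (∑ i, d i * v * c i)‖ ≤ 4 * η := by
  have hvs : star v' * h = star v' := by rw [← hh, ← star_mul, hv']
  have e1 : star (∑ i, d i * v' * c i) * b * (∑ i, d i * v * c i)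
      = ∑ i, ∑ j, star (c i) * star v' *
          (h * (star (d i) * b * d j) * h - l i j • (h * h)) * v * c j := by
    rw [star_sum, Finset.sum_mul, Finset.sum_mul]
    refine Finset.sum_congr rfl fun i _ => ?_
    rw [Finset.mul_sum]
    refine Finset.sum_congr rfl fun j _ => ?_
    have k2 : star (c i) * star v' * (l i j • (h * h)) * v * c j = 0 := by
      simp only [mul_smul_comm, smul_mul_assoc, mul_assoc]
      rw [← mul_assoc h v, hv, ← mul_assoc (star v') h, hvs, ← mul_assoc (star v') v, h0,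
        zero_mul, mul_zero, smul_zero]
    rw [mul_sub (star (c i) * star v'), sub_mul, sub_mul, k2, sub_zero]
    simp only [star_mul, mul_assoc]
    rw [← mul_assoc h v, hv, ← mul_assoc (star v') h, hvs]
  rw [e1]
  refine (norm_sum_le_of_le _ fun i _ => norm_sum_le_of_le _ fun j _ =>
    (?_ : _ ≤ 4 * (‖c i‖ * ‖c j‖ * ‖h * (star (d i) * b * d j) * h - l i j • (h * h)‖))).trans ?_
  · calc _ ≤ ‖c i‖ * ‖v'‖ * ‖h * (star (d i) * b * d j) * h - l i j • (h * h)‖ * ‖v‖ * ‖c j‖ := by
          refine (norm_mul_le _ _).trans (mul_le_mul_of_nonneg_right ?_ (norm_nonneg _))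
          refine (norm_mul_le _ _).trans (mul_le_mul_of_nonneg_right ?_ (norm_nonneg _))
          refine (norm_mul_le _ _).trans (mul_le_mul_of_nonneg_right ?_ (norm_nonneg _))
          refine (norm_mul_le _ _).trans (le_of_eq ?_)
          rw [norm_star, norm_star]
      _ = ‖v'‖ * ‖v‖ * (‖c i‖ * ‖c j‖ * ‖h * (star (d i) * b * d j) * h - l i j • (h * h)‖) := by
          ring
      _ ≤ 4 * (‖c i‖ * ‖c j‖ * ‖h * (star (d i) * b * d j) * h - l i j • (h * h)‖) :=
          mul_le_mul_of_nonneg_right (by nlinarith [norm_nonneg v, norm_nonneg v'])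
            (by positivity)
  · simp only [← Finset.mul_sum]
    linarith

variable {A : Type} [NonUnitalCStarAlgebra A]

/-- The element built from one root. -/
noncomputable def solElt {N : ℕ} (u : Unitization ℂ A) (c d : Fin N → Unitization ℂ A)
    (v : Unitization ℂ A) : Unitization ℂ A := ∑ i, u * d i * v * c i

lemma solElt_eq {N : ℕ} (u : Unitization ℂ A) (c d : Fin N → Unitization ℂ A)
    (v : Unitization ℂ A) : solElt u c d v = u * ∑ i, d i * v * c i := by
  simp only [solElt, Finset.mul_sum, mul_assoc]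

/-- The properties of the element built from one root. -/
lemma solution_of_root {N : ℕ} {u q f h v : Unitization ℂ A} (c d : Fin N → Unitization ℂ A)
    (l : Unitization ℂ A → Fin N → Fin N → ℂ) {κ e Lam : ℝ} (he : 0 ≤ e) (heL : e * Lam ≤ κ)
    (hκ : κ ≤ 1 / 16) (hu : star u = u) (hh : star h = h) (hhv : h * v = v) (hv2 : ‖v‖ ≤ 2)
    (hvf : ‖star v * v - f‖ ≤ e) (hf : ‖f‖ ≤ 1)
    (hfc : ∀ i, ‖star (c i) * f - f * star (c i)‖ ≤ e) (X : Finset (Unitization ℂ A))
    (hLam : ∀ x ∈ X, ∑ i, ∑ j, ‖l x i j‖ * ((‖c i‖ + 1) * (‖c j‖ + 1)) ≤ Lam)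
    (hfac : ∀ x ∈ X, ‖(∑ i, ∑ j, l x i j • (star (c i) * c j)) - x‖ ≤ κ ∧
      ∑ i, ∑ j, ‖c i‖ * ‖c j‖ * ‖h * (star (d i) * x * d j) * h - l x i j • (h * h)‖ ≤ κ)
    (hfx : ∀ x ∈ X, ‖f * x - q * x‖ ≤ κ) (hq : ‖q‖ ≤ 1) (huu : u * u ∈ X) (hu1 : ‖u‖ ≤ 1) :
    (∀ y, u * y * u ∈ X → ‖u * y * u - y‖ ≤ 2 * κ →
      ‖star (solElt u c d v) * y * solElt u c d v - q * y‖ ≤ 10 * κ) ∧
    (∀ a, ‖u * u * a - a‖ ≤ 2 * κ →
      ‖star (solElt u c d v) * solElt u c d v * a - q * a‖ ≤ 10 * κ * (1 + ‖a‖)) ∧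
    ‖solElt u c d v‖ ≤ 2 := by
  have hκ0 : 0 ≤ κ := (norm_nonneg _).trans (hfac _ huu).1
  have key : ∀ x ∈ X, ‖star (∑ i, d i * v * c i) * x * (∑ i, d i * v * c i) - q * x‖ ≤ 8 * κ := by
    intro x hx
    have h1 := conj_estimate c d (l x) he hh hhv hv2 hvf hf hfc (hfac x hx).1 (hfac x hx).2
    have h2 := mul_le_mul_of_nonneg_left (hLam x hx) (mul_nonneg zero_le_two he)
    refine (norm_sub_le_norm_sub_add_norm_sub _ (f * x) _).trans ?_
    linarith [hfx x hx]
  have hconj : ∀ y, star (solElt u c d v) * y * solElt u c d v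
      = star (∑ i, d i * v * c i) * (u * y * u) * (∑ i, d i * v * c i) := fun y => by
    rw [solElt_eq, star_mul, hu]; simp only [mul_assoc]
  have h11 : star (solElt u c d v) * solElt u c d v
      = star (∑ i, d i * v * c i) * (u * u) * (∑ i, d i * v * c i) := by
    simpa using hconj 1
  have hqm : ∀ z : Unitization ℂ A, ‖q * z‖ ≤ ‖z‖ := fun z =>
    (norm_mul_le _ _).trans (mul_le_of_le_one_left (norm_nonneg _) hq)
  refine ⟨fun y hy hyu => ?_, fun a ha => ?_, ?_⟩
  · rw [hconj]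
    refine (norm_sub_le_norm_sub_add_norm_sub _ (q * (u * y * u)) _).trans ?_
    rw [← mul_sub]
    linarith [key _ hy, hqm (u * y * u - y)]
  · rw [h11]
    refine (norm_sub_le_norm_sub_add_norm_sub _ (q * (u * u) * a) _).trans ?_
    rw [← sub_mul, mul_assoc q, ← mul_sub]
    have h1 := (norm_mul_le (star (∑ i, d i * v * c i) * (u * u) * (∑ i, d i * v * c i)
      - q * (u * u)) a).trans (mul_le_mul_of_nonneg_right (key _ huu) (norm_nonneg a))
    nlinarith [hqm (u * u * a - a), norm_nonneg a, mul_nonneg hκ0 (norm_nonneg a)]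
  · have h1 : ‖solElt u c d v‖ * ‖solElt u c d v‖ ≤ 2 := by
      rw [← CStarRing.norm_star_mul_self, h11]
      have h2 : ‖q * (u * u)‖ ≤ 1 :=
        (hqm _).trans ((norm_mul_le _ _).trans (mul_le_one₀ hu1 (norm_nonneg _) hu1))
      linarith [key _ huu, norm_le_norm_add_norm_sub'
        (star (∑ i, d i * v * c i) * (u * u) * (∑ i, d i * v * c i)) (q * (u * u))]
    nlinarith [norm_nonneg (solElt u c d v)]

end Vale.Agent.P095.W
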