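import Vale.Agent.P095.W.Main
import Vale.Agent.P095.W.Assemble
import Vale.Agent.P101.Commuting

/-!
P095, Theorem W: countably many unital maps of Z(2,3) into the fixed algebra of the central sequence
algebra with pairwise commuting ranges.
-/

namespace Vale.Agent.P095.W

open Filter Vale.Agent.P101 Vale.Agent.P095 Vale.Agent.P095.Rel Vale.Agent.P095.Tracial
open scoped Topology BoundedContinuousFunction

universe u v

section Copy

variable {B : Type u} [CStarAlgebra B] [TopologicalSpace.SeparableSpace B] {G : Type v} [Group G]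
  (β : G →* (B ≃⋆ₐ[ℂ] B)) {S : Set B} (hS : ∀ g, ∀ s ∈ S, β g s ∈ S) (w : Ultrafilter ℕ)

noncomputable local instance cseqCopies : CStarAlgebra (centralSeq (w : Filter ℕ) B) :=
  StarSubalgebra.cstarAlgebra _ (h_closed := isClosed_centralSeq w)

include hS in
/-- A pair with fixed relations has fixed copies commuting with any finite set. -/
theorem exists_fixed_copy [Countable G] (hw : (w : Filter ℕ) ≤ cofinite) {y s : RelQuot S w}
    (hfix : ∀ g, relAct β hS w g y = y ∧ relAct β hS w g s = s) (hrel : DropRelations y s)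
    (T : Finset (RelQuot S w)) :
    ∃ y' s' : RelQuot S w, (∀ g, relAct β hS w g y' = y' ∧ relAct β hS w g s' = s') ∧
      DropRelations y' s' ∧
      ∀ b ∈ T, (Commute y' b ∧ Commute y' (star b)) ∧ (Commute s' b ∧ Commute s' (star b)) := by
  classical
  obtain ⟨e, he⟩ := exists_surjective_nat G
  obtain ⟨hy1, hs1⟩ := norm_le_one_of_dropRelations hrel
  obtain ⟨Y, rfl, hY⟩ := Submodule.Quotient.norm_mk_lt y zero_lt_one
  obtain ⟨Z, rfl, hZ⟩ := Submodule.Quotient.norm_mk_lt s zero_lt_one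
  obtain ⟨r1, r2, r3⟩ := hrel
  choose lift hlift using (Ideal.Quotient.mk_surjective :
    Function.Surjective (Ideal.Quotient.mk (annIdeal S w) :
      centralSeq (w : Filter ℕ) B → RelQuot S w))
  have hYn : ∀ k, ‖(Y : ℕ →ᵇ B) k‖ ≤ 2 := fun k =>
    ((Y : ℕ →ᵇ B).norm_coe_le_norm k).trans (hY.le.trans (by linarith))
  have hZn : ∀ k, ‖(Z : ℕ →ᵇ B) k‖ ≤ 2 := fun k =>
    ((Z : ℕ →ᵇ B).norm_coe_le_norm k).trans (hZ.le.trans (by linarith))
  have n1 := annSeq_of_mk_eq w (f := Y * Y) (g := 0) (r1.trans (map_zero _).symm)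
  have n2 := annSeq_of_mk_eq w (f := star Z * Z) (g := 1 - star Y * Y - Y * star Y) r2
  have n3 := annSeq_of_mk_eq w (f := star Y * Y * Z) (g := Z) r3
  have n4 : ∀ g : G,
      AnnSeq S w ((centralAct β w g Y : ℕ →ᵇ B) - (Y : ℕ →ᵇ B)) ∧
      AnnSeq S w ((centralAct β w g Z : ℕ →ᵇ B) - (Z : ℕ →ᵇ B)) := fun g =>
    ⟨annSeq_of_mk_eq w (f := centralAct β w g Y) (g := Y) (hfix g).1,
      annSeq_of_mk_eq w (f := centralAct β w g Z) (g := Z) (hfix g).2⟩
  let t : T × Bool → ℕ →ᵇ B := fun j =>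
    bif j.2 then ((lift j.1 : centralSeq (w : Filter ℕ) B) : ℕ →ᵇ B)
    else ((star (lift j.1) : centralSeq (w : Filter ℕ) B) : ℕ →ᵇ B)
  have key : ∀ n : ℕ, ∃ k : ℕ,
      ApproxRel β S e n (1 / ((n : ℝ) + 1)) ((Y : ℕ →ᵇ B) k) ((Z : ℕ →ᵇ B) k) ∧
      ∀ j, ‖(Y : ℕ →ᵇ B) k * t j n - t j n * (Y : ℕ →ᵇ B) k‖ ≤ 1 / ((n : ℝ) + 1) ∧
        ‖(Z : ℕ →ᵇ B) k * t j n - t j n * (Z : ℕ →ᵇ B) k‖ ≤ 1 / ((n : ℝ) + 1) := by
    intro n
    have hr : (0 : ℝ) < 1 / ((n : ℝ) + 1) := by positivity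
    have small : ∀ {u : ℕ → B}, Tendsto u (w : Filter ℕ) (𝓝 0) →
        ∀ᶠ k in (w : Filter ℕ), ‖u k‖ ≤ 1 / ((n : ℝ) + 1) := by
      intro u hu
      filter_upwards [Metric.tendsto_nhds.1 hu _ hr] with k hk
      rw [dist_zero_right] at hk
      exact hk.le
    obtain ⟨k, hk1, hk2, hk3, hk4, hk5, hk6⟩ := ((eventually_small S w n1 n hr).and
      ((eventually_small S w n2 n hr).and ((eventually_small S w n3 n hr).and
      ((eventually_all.2 fun i : Fin (n + 1) =>
        (eventually_small S w (n4 (e i)).1 n hr).and (eventually_small S w (n4 (e i)).2 n hr)).and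
      ((eventually_all.2 fun l : Fin (n + 1) => (small (Y.2 (TopologicalSpace.denseSeq B l))).and
        (small (Z.2 (TopologicalSpace.denseSeq B l)))).and
      (eventually_all.2 fun j => (small (Y.2 (t j n))).and (small (Z.2 (t j n))))))))).exists
    refine ⟨k, ⟨⟨hYn k, hZn k⟩, ?_, hk2, hk3, hk4, hk5⟩, hk6⟩
    simpa using hk1
  choose m hm hmt using key
  have hlim : Tendsto (fun n : ℕ => 1 / ((n : ℝ) + 1)) (w : Filter ℕ) (𝓝 0) :=
    tendsto_one_div_add_atTop_nhds_zero_nat.mono_left (hw.trans_eq Nat.cofinite_eq_atTop)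
  have hev : ∀ l, ∀ᶠ n in (w : Filter ℕ), l ≤ n := fun l =>
    (hw.trans_eq Nat.cofinite_eq_atTop) (eventually_ge_atTop l)
  let Y' : centralSeq (w : Filter ℕ) B := ⟨reindex m (Y : ℕ →ᵇ B), mem_centralSeq_of_dense fun l =>
    squeeze_zero_norm' ((hev l).mono fun n hn => ((hm n).2.2.2.2.2 ⟨l, by omega⟩).1) hlim⟩
  let Z' : centralSeq (w : Filter ℕ) B := ⟨reindex m (Z : ℕ →ᵇ B), mem_centralSeq_of_dense fun l =>
    squeeze_zero_norm' ((hev l).mono fun n hn => ((hm n).2.2.2.2.2 ⟨l, by omega⟩).2) hlim⟩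
  have eq_of : ∀ f g : centralSeq (w : Filter ℕ) B,
      (∀ n, SmallAt S ((f : ℕ →ᵇ B) n - (g : ℕ →ᵇ B) n) n (1 / ((n : ℝ) + 1))) →
      Ideal.Quotient.mk (annIdeal S w) f = Ideal.Quotient.mk (annIdeal S w) g := fun f g hfg => by
    rw [Ideal.Quotient.mk_eq_mk_iff_sub_mem, mem_annIdeal]
    exact annSeq_of_small S w hw hfg
  have comm_of : ∀ f g : centralSeq (w : Filter ℕ) B,
      (∀ n, ‖(f : ℕ →ᵇ B) n * (g : ℕ →ᵇ B) n - (g : ℕ →ᵇ B) n * (f : ℕ →ᵇ B) n‖ ≤
        1 / ((n : ℝ) + 1)) →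
      Commute (Ideal.Quotient.mk (annIdeal S w) f) (Ideal.Quotient.mk (annIdeal S w) g) := by
    intro f g hfg
    rw [commute_iff_eq, ← map_mul, ← map_mul, Ideal.Quotient.mk_eq_mk_iff_sub_mem, mem_annIdeal]
    intro x _
    have h0 : Tendsto (fun n => ((f * g - g * f : centralSeq (w : Filter ℕ) B) : ℕ →ᵇ B) n)
        (w : Filter ℕ) (𝓝 0) := squeeze_zero_norm hfg hlim
    refine ⟨(tendsto_mul_bdd w h0 (C := ‖x‖) (v := fun _ => x) fun _ => le_rfl).1, ?_⟩
    have h0' : Tendsto (fun n => star (((f * g - g * f : centralSeq (w : Filter ℕ) B) : ℕ →ᵇ B) n))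
        (w : Filter ℕ) (𝓝 0) := by simpa using h0.star
    exact (tendsto_mul_bdd w h0' (C := ‖x‖) (v := fun _ => x) fun _ => le_rfl).1
  refine ⟨Ideal.Quotient.mk _ Y', Ideal.Quotient.mk _ Z', fun g => ?_, ⟨?_, ?_, ?_⟩, fun b hb => ?_⟩
  · obtain ⟨i, rfl⟩ := he g
    have fix_of : ∀ f : centralSeq (w : Filter ℕ) B,
        (∀ n, i ≤ n → SmallAt S (β (e i) ((f : ℕ →ᵇ B) n) - (f : ℕ →ᵇ B) n) n
          (1 / ((n : ℝ) + 1))) →
        Ideal.Quotient.mk (annIdeal S w) (centralAct β w (e i) f)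
          = Ideal.Quotient.mk (annIdeal S w) f := fun f hf => by
      rw [Ideal.Quotient.mk_eq_mk_iff_sub_mem, mem_annIdeal]
      exact annSeq_of_small' S w hw ((hev i).mono hf)
    exact ⟨fix_of Y' fun n hn => ((hm n).2.2.2.2.1 ⟨i, by omega⟩).1,
      fix_of Z' fun n hn => ((hm n).2.2.2.2.1 ⟨i, by omega⟩).2⟩
  · refine (eq_of (Y' * Y') 0 fun n => ?_).trans (map_zero _)
    simpa [Y', reindex] using (hm n).2.1
  · exact eq_of (star Z' * Z') (1 - star Y' * Y' - Y' * star Y') fun n => (hm n).2.2.1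
  · exact eq_of (star Y' * Y' * Z') Z' fun n => (hm n).2.2.2.1
  · have h1 := fun n => hmt n (⟨b, hb⟩, true)
    have h2 := fun n => hmt n (⟨b, hb⟩, false)
    rw [← hlift b, star_mk]
    exact ⟨⟨comm_of _ _ fun n => (h1 n).1, comm_of _ _ fun n => (h2 n).1⟩,
      ⟨comm_of _ _ fun n => (h1 n).2, comm_of _ _ fun n => (h2 n).2⟩⟩

include hS in
/-- A pair with fixed relations gives countably many maps into the fixed algebra with pairwise
commuting ranges. -/
theorem exists_commuting_fixed [Countable G] (hw : (w : Filter ℕ) ≤ cofinite) {y s : RelQuot S w}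
    (hfix : ∀ g, relAct β hS w g y = y ∧ relAct β hS w g s = s) (hrel : DropRelations y s) :
    ∃ ψ : ℕ → (ZTwoThree →⋆ₐ[ℂ] fixedRel β hS w),
      ∀ k l, k ≠ l → ∀ f g, Commute (ψ k f) (ψ l g) := by
  classical
  refine exists_commuting_of_copy (F := fixedRel β hS w) fun T => ?_
  obtain ⟨y', s', hfix', hrel', hc⟩ := exists_fixed_copy β hS w hw hfix hrel
    (T.image fun x : fixedRel β hS w => (x : RelQuot S w))
  refine ⟨(⟨y', fun g => (hfix' g).1⟩, ⟨s', fun g => (hfix' g).2⟩),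
    ⟨Subtype.ext hrel'.1, Subtype.ext hrel'.2.1, Subtype.ext hrel'.2.2⟩, fun b hb => ?_⟩
  obtain ⟨⟨c1, c2⟩, c3, c4⟩ := hc _ (Finset.mem_image_of_mem _ hb)
  exact ⟨⟨Subtype.ext c1.eq, Subtype.ext c2.eq⟩, Subtype.ext c3.eq, Subtype.ext c4.eq⟩

end Copy

section Main

variable {A : Type} [NonUnitalCStarAlgebra A]

noncomputable local instance cseqCopiesA (w : Ultrafilter ℕ) :
    CStarAlgebra (centralSeq (w : Filter ℕ) (Unitization ℂ A)) :=
  StarSubalgebra.cstarAlgebra _ (h_closed := isClosed_centralSeq w)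

/-- A family of homomorphisms into a fixed subalgebra with pairwise commuting ranges lifts to
maps that are fixed and commute pairwise modulo the annihilator. -/
theorem exists_isFixedHomModAnn_family {w : Ultrafilter ℕ}
    {G : Type} (α : G → A ≃⋆ₐ[ℂ] A) {F : Type u} [CStarAlgebra F]
    (π : centralSeq (w : Filter ℕ) (Unitization ℂ A) →⋆ₐ[ℂ] F)
    (hπs : Function.Surjective π)
    (hπ : ∀ f, π f = 0 ↔ AnnNull (w : Filter ℕ) (f : ℕ →ᵇ Unitization ℂ A))
    (E : StarSubalgebra ℂ F) [CStarAlgebra E] (Φ : ℕ → (ZTwoThree →⋆ₐ[ℂ] E))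
    (hΦ : ∀ k l, k ≠ l → ∀ f g, (Φ k f : F) * (Φ l g : F) = (Φ l g : F) * (Φ k f : F))
    (hfix : ∀ (g : G) (f : centralSeq (w : Filter ℕ) (Unitization ℂ A)), π f ∈ E →
      ∀ a : A, Tendsto (fun n => (unitMap (α g) (f.1 n) - f.1 n) * (a : Unitization ℂ A))
        (w : Filter ℕ) (𝓝 0)) :
    ∃ φ : ℕ → ZTwoThree → centralSeq (w : Filter ℕ) (Unitization ℂ A),
      (∀ k, IsFixedHomModAnn (w : Filter ℕ) α (φ k)) ∧
      ∀ k l, k ≠ l → ∀ f g, ∀ a : A, Tendsto (fun n =>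
        ((φ k f).1 n * (φ l g).1 n - (φ l g).1 n * (φ k f).1 n) * (a : Unitization ℂ A))
        (w : Filter ℕ) (𝓝 0) := by
  choose lift hlift using hπs
  have e : ∀ {a b : centralSeq (w : Filter ℕ) (Unitization ℂ A)}, π a = π b → ∀ x : A,
      Tendsto (fun n => (a.1 n - b.1 n) * (x : Unitization ℂ A)) (w : Filter ℕ) (𝓝 0) := by
    intro a b hab
    exact (hπ (a - b)).1 (by rw [map_sub, hab, sub_self])
  refine ⟨fun k f => lift (Φ k f : F), fun k => ⟨fun f hf => ?_, fun f g h hh => ?_,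
    fun f g h hh => ?_, fun c f h hh => ?_, fun f h hh => ?_, fun g f => ?_⟩,
    fun k l hkl f g => ?_⟩
  · have hf' : f = 1 := Subtype.ext (ContinuousMap.ext hf)
    exact e (b := 1) (by rw [hlift, hf', map_one, map_one]; rfl)
  · have hh' : h = f + g := Subtype.ext (ContinuousMap.ext hh)
    exact e (b := lift (Φ k f : F) + lift (Φ k g : F))
      (by rw [map_add, hlift, hlift, hlift, hh', map_add]; rfl)
  · have hh' : h = f * g := Subtype.ext (ContinuousMap.ext hh)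
    exact e (b := lift (Φ k f : F) * lift (Φ k g : F))
      (by rw [map_mul, hlift, hlift, hlift, hh', map_mul]; rfl)
  · have hh' : h = c • f := Subtype.ext (ContinuousMap.ext hh)
    exact e (b := c • lift (Φ k f : F)) (by rw [map_smul, hlift, hlift, hh', map_smul]; rfl)
  · have hh' : h = star f := Subtype.ext (ContinuousMap.ext hh)
    exact e (b := star (lift (Φ k f : F))) (by rw [map_star, hlift, hlift, hh', map_star]; rfl)
  · exact hfix g _ (by rw [hlift]; exact (Φ k f).2)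
  · exact e (a := lift (Φ k f : F) * lift (Φ l g : F)) (b := lift (Φ l g : F) * lift (Φ k f : F))
      (by rw [map_mul, map_mul, hlift, hlift]; exact hΦ k l hkl f g)

/-- Theorem W with countably many commuting copies, from the blocks. -/
theorem fixedCopies_of_blocks (hLift : LiftFPin) (hFirst : FirstPin) (hIso : IsometryPin)
    (hEvents : EventsPin) (hFactor : FactorAPin) (hCert : SC.CertPin.{0}) (hMatrix : SC.MatrixPin)
    (hAmp : AmplifyAPin) (hPieces : PiecesFPin) (hCompare : ComparePin) (hSolve : SolvePin)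
    [TopologicalSpace.SeparableSpace A]
    (hS : IsTopSimple A) (hN : IsNuclearA A)
    (w : Ultrafilter ℕ) (hw : (w : Filter ℕ) ≤ cofinite) (hno : NoChar A w)
    (G : Type) [Group G] [Countable G] (hG : Foelner G) (α : G →* (A ≃⋆ₐ[ℂ] A)) :
    ∃ φ : ℕ → ZTwoThree → centralSeq (w : Filter ℕ) (Unitization ℂ A),
      (∀ k, IsFixedHomModAnn (w : Filter ℕ) (fun g => α g) (φ k)) ∧
      ∀ k l, k ≠ l → ∀ f g, ∀ a : A, Tendsto (fun n =>
        ((φ k f).1 n * (φ l g).1 n - (φ l g).1 n * (φ k f).1 n) * (a : Unitization ℂ A))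
        (w : Filter ℕ) (𝓝 0) := by
  classical
  obtain ⟨hsp, hfac⟩ := hFactor A w hw hS hno hN
  have hL := hLift A w hw hno G hG α
  obtain ⟨h1, h2⟩ := hSolve A w hw hS G α hL (hFirst hIso A w hw hS G α hL)
    (hEvents hIso A w hw hS G α)
    (hCompare hIso hCert hMatrix hAmp A w hw hS hN hsp hfac (hPieces A w hw hno))
  obtain ⟨y, s, hfix, hrel⟩ := exists_fixed_drop_eps (unitAct α) (unitAct_mem α) w hw
    fun T ε hε => solution_almost_fixed hG h1 h2 T hε
  obtain ⟨ψ, hψ⟩ := exists_commuting_fixed (unitAct α) (unitAct_mem α) w hw hfix hrel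
  exact exists_isFixedHomModAnn_family (fun g => α g) (quotHom (annIdeal (inrSet A) w))
    Ideal.Quotient.mk_surjective (quotHom_eq_zero_iff w)
    (fixedRel (unitAct α) (unitAct_mem α) w) ψ
    (fun k l hkl f g => congrArg Subtype.val (hψ k l hkl f g).eq)
    fun g f hf a => tendsto_of_fixed α w (hf g) a

end Main

end Vale.Agent.P095.W
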