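import Vale.Agent.P095.W.Assemble

/-!
P095, Theorem W, W2: late copies inside Kirchberg's central sequence algebra of a simple algebra
keep relations and translates and multiply norms; diagonal for almost commuting translates.
-/

namespace Vale.Agent.P095.W

open Filter Vale.Agent.P101 Vale.Agent.P095 Vale.Agent.P095.Rel
open scoped Topology BoundedContinuousFunction

variable {A : Type} [NonUnitalCStarAlgebra A]

noncomputable local instance cseqEvents (w : Ultrafilter ℕ) :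
    CStarAlgebra (centralSeq (w : Filter ℕ) (Unitization ℂ A)) :=
  StarSubalgebra.cstarAlgebra _ (h_closed := isClosed_centralSeq w)

/-- The conclusion of `IsometryPin` for one algebra. -/
def IsoNorm (A : Type) [NonUnitalCStarAlgebra A] (w : Ultrafilter ℕ) : Prop :=
  ∀ (f : CSeq A w) (a : A),
    Tendsto (fun n => ‖(f : ℕ →ᵇ Unitization ℂ A) n * (a : Unitization ℂ A)‖) (w : Filter ℕ)
      (𝓝 (‖cls f‖ * ‖a‖))

variable {w : Ultrafilter ℕ}

lemma ev_exists_norm_one (hA : ∃ a : A, a ≠ 0) : ∃ a : A, ‖a‖ = 1 := by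
  obtain ⟨a, ha⟩ := hA
  refine ⟨((‖a‖⁻¹ : ℝ) : ℂ) • a, ?_⟩
  rw [norm_smul, Complex.norm_real, Real.norm_eq_abs, abs_of_nonneg (by positivity),
    inv_mul_cancel₀ (norm_ne_zero_iff.2 ha)]

lemma ev_norm_one_FA (hI : IsoNorm A w) (hA : ∃ a : A, a ≠ 0) : ‖(1 : FA A w)‖ = 1 := by
  obtain ⟨a, ha⟩ := ev_exists_norm_one hA
  have h := hI 1 a
  rw [ha, mul_one] at h
  refine (tendsto_nhds_unique h ?_).trans rfl
  refine tendsto_const_nhds.congr fun n => ?_
  simp [Unitization.norm_inr, ha]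

lemma ev_nontrivial_FA (hI : IsoNorm A w) (hA : ∃ a : A, a ≠ 0) : Nontrivial (FA A w) :=
  ⟨⟨1, 0, fun h => by have := ev_norm_one_FA hI hA; rw [h, norm_zero] at this; exact zero_ne_one this⟩⟩

lemma ev_exists_eq_inr (x : Unitization ℂ A) (a : A) :
    ∃ b : A, x * (a : Unitization ℂ A) = (b : Unitization ℂ A) :=
  ⟨(x * (a : Unitization ℂ A)).snd, Unitization.ext (by simp) (by simp)⟩

lemma ev_cls_mul (f g : CSeq A w) : cls (f * g) = cls f * cls g :=
  map_mul (quotHom (annIdeal (inrSet A) w)) f g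

lemma ev_cls_sub (f g : CSeq A w) : cls (f - g) = cls f - cls g :=
  map_sub (quotHom (annIdeal (inrSet A) w)) f g

lemma ev_cls_add (f g : CSeq A w) : cls (f + g) = cls f + cls g :=
  map_add (quotHom (annIdeal (inrSet A) w)) f g

lemma ev_cls_smul (c : ℂ) (f : CSeq A w) : cls (c • f) = c • cls f :=
  map_smul (quotHom (annIdeal (inrSet A) w)) c f

lemma ev_cls_star (f : CSeq A w) : cls (star f) = star (cls f) :=
  map_star (quotHom (annIdeal (inrSet A) w)) f

lemma ev_cls_act {G : Type} [Group G] (α : G →* (A ≃⋆ₐ[ℂ] A)) (g : G) (f : CSeq A w) :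
    cls (centralAct (unitAct α) w g f) = actF α w g (cls f) := rfl

lemma ev_le_index (hw : (w : Filter ℕ) ≤ cofinite) (j : ℕ) :
    ∀ᶠ k in (w : Filter ℕ), j ≤ k :=
  (hw.trans_eq Nat.cofinite_eq_atTop) (eventually_ge_atTop j)

lemma ev_tendsto_recip (hw : (w : Filter ℕ) ≤ cofinite) :
    Tendsto (fun k : ℕ => 1 / ((k : ℝ) + 1)) (w : Filter ℕ) (𝓝 0) :=
  tendsto_one_div_add_atTop_nhds_zero_nat.mono_left (hw.trans_eq Nat.cofinite_eq_atTop)

variable [TopologicalSpace.SeparableSpace A] {G : Type} [Group G]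

/-- A late copy of finitely many elements: relations and translates are kept, norms multiply with
given elements, and it commutes with them. -/
theorem exists_event_copy (α : G →* (A ≃⋆ₐ[ℂ] A)) (hw : (w : Filter ℕ) ≤ cofinite) (hI : IsoNorm A w)
    (hA : ∃ a : A, a ≠ 0) (g : G) {n : ℕ} (x : Fin n → FA A w)
    (R : Finset (FreeAlgebra ℂ (Fin n ⊕ Fin n)))
    (hR : ∀ p ∈ R, FreeAlgebra.lift ℂ (Sum.elim x fun i => star (x i)) p = 0)
    (T : Finset (FA A w)) :
    ∃ c : Fin n → FA A w,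
      (∀ p ∈ R, FreeAlgebra.lift ℂ (Sum.elim c fun i => star (c i)) p = 0) ∧
      (∀ i j, actF α w g (x i) = x j → actF α w g (c i) = c j) ∧
      (∀ i, ‖c i‖ = ‖x i‖) ∧
      ∀ i, ∀ t ∈ T, Commute (c i) t ∧ Commute (c i) (star t) ∧ ‖c i * t‖ = ‖x i‖ * ‖t‖ := by
  classical
  obtain ⟨a, ha⟩ := ev_exists_norm_one hA
  choose lift hlift using (Ideal.Quotient.mk_surjective :
    Function.Surjective (Ideal.Quotient.mk (annIdeal (inrSet A) w) : CSeq A w → FA A w))
  obtain ⟨f, hf⟩ : ∃ f : Fin n → CSeq A w, ∀ i, cls (f i) = x i :=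
    ⟨fun i => lift (x i), fun i => hlift _⟩
  obtain ⟨T', hT'⟩ : ∃ T' : Finset (FA A w), T' = insert 1 T := ⟨_, rfl⟩
  let q := (quotHom (annIdeal (inrSet A) w)).toAlgHom
  let xs : Fin n ⊕ Fin n → CSeq A w := Sum.elim f fun i => star (f i)
  let r : R → CSeq A w := fun p => FreeAlgebra.lift ℂ xs (p : FreeAlgebra ℂ _)
  let P := {p : Fin n × Fin n // actF α w g (x p.1) = x p.2}
  let r' : P → CSeq A w := fun p => centralAct (unitAct α) w g (f p.1.1) - f p.1.2
  have hr : ∀ p, AnnSeq (inrSet A) w (r p : ℕ →ᵇ Unitization ℂ A) := fun p => by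
    rw [← mem_annIdeal, ← Ideal.Quotient.eq_zero_iff_mem]
    show q (r p) = 0
    rw [algHom_lift]
    refine Eq.trans ?_ (hR p p.2)
    congr 2
    funext i
    rcases i with i | i <;> simp [q, xs, quotHom_apply, ← star_mk, hf]
  have hr' : ∀ p, AnnSeq (inrSet A) w (r' p : ℕ →ᵇ Unitization ℂ A) := fun p =>
    annSeq_of_mk_eq w (f := centralAct (unitAct α) w g (f p.1.1)) (g := f p.1.2) (by
      show actF α w g (cls (f p.1.1)) = cls (f p.1.2)
      rw [hf, hf]; exact p.2)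
  let d := TopologicalSpace.denseSeq (Unitization ℂ A)
  let e : FA A w → ℕ → Unitization ℂ A := fun t k => (lift t : ℕ →ᵇ Unitization ℂ A) k
  have key : ∀ k : ℕ, ∃ l : ℕ,
      (∀ p, SmallAt (inrSet A) ((r p : ℕ →ᵇ Unitization ℂ A) l) k (1 / (k + 1))) ∧
      (∀ p, SmallAt (inrSet A) ((r' p : ℕ →ᵇ Unitization ℂ A) l) k (1 / (k + 1))) ∧
      (∀ i, ∀ j : Fin (k + 1), ‖(f i : ℕ →ᵇ Unitization ℂ A) l * d j
        - d j * (f i : ℕ →ᵇ Unitization ℂ A) l‖ ≤ 1 / (k + 1)) ∧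
      (∀ i, ∀ t ∈ T', ‖(f i : ℕ →ᵇ Unitization ℂ A) l * e t k
        - e t k * (f i : ℕ →ᵇ Unitization ℂ A) l‖ ≤ 1 / (k + 1)) ∧
      (∀ i, ∀ t ∈ T', ‖(f i : ℕ →ᵇ Unitization ℂ A) l * star (e t k)
        - star (e t k) * (f i : ℕ →ᵇ Unitization ℂ A) l‖ ≤ 1 / (k + 1)) ∧
      ∀ i, ∀ t ∈ T', |‖(f i : ℕ →ᵇ Unitization ℂ A) l * (e t k * (a : Unitization ℂ A))‖
        - ‖x i‖ * ‖e t k * (a : Unitization ℂ A)‖| ≤ 1 / (k + 1) := by
    intro k
    have hk : (0 : ℝ) < 1 / ((k : ℝ) + 1) := by positivity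
    have small : ∀ {u : ℕ → Unitization ℂ A}, Tendsto u (w : Filter ℕ) (𝓝 0) →
        ∀ᶠ l in (w : Filter ℕ), ‖u l‖ ≤ 1 / ((k : ℝ) + 1) := by
      intro u hu
      filter_upwards [Metric.tendsto_nhds.1 hu _ hk] with l hl
      rw [dist_zero_right] at hl
      exact hl.le
    have hnorm : ∀ i, ∀ t : FA A w, ∀ᶠ l in (w : Filter ℕ),
        |‖(f i : ℕ →ᵇ Unitization ℂ A) l * (e t k * (a : Unitization ℂ A))‖
          - ‖x i‖ * ‖e t k * (a : Unitization ℂ A)‖| ≤ 1 / ((k : ℝ) + 1) := fun i t => by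
      obtain ⟨b, hb⟩ := ev_exists_eq_inr (e t k) a
      have h := hI (f i) b
      rw [hf] at h
      rw [hb, Unitization.norm_inr]
      filter_upwards [Metric.tendsto_nhds.1 h _ hk] with l hl
      rw [Real.dist_eq] at hl
      exact hl.le
    exact ((eventually_all.2 fun p => eventually_small _ w (hr p) k hk).and
      ((eventually_all.2 fun p => eventually_small _ w (hr' p) k hk).and
      ((eventually_all.2 fun i => eventually_all.2 fun j : Fin (k + 1) => small ((f i).2 (d j))).and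
      ((eventually_all.2 fun i => (eventually_all_finset T').2 fun t _ =>
        small ((f i).2 (e t k))).and
      ((eventually_all.2 fun i => (eventually_all_finset T').2 fun t _ =>
        small ((f i).2 (star (e t k)))).and
      (eventually_all.2 fun i => (eventually_all_finset T').2 fun t _ => hnorm i t)))))).exists
  choose m hm₁ hm₂ hm₃ hm₄ hm₅ hm₆ using key
  have hlim : Tendsto (fun k : ℕ => 1 / ((k : ℝ) + 1)) (w : Filter ℕ) (𝓝 0) :=
    tendsto_one_div_add_atTop_nhds_zero_nat.mono_left (hw.trans_eq Nat.cofinite_eq_atTop)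
  have hm : ∀ i, reindex m (f i : ℕ →ᵇ Unitization ℂ A) ∈
      centralSeq (w : Filter ℕ) (Unitization ℂ A) := fun i => mem_centralSeq_of_dense fun j =>
    squeeze_zero_norm' ((ev_le_index hw j).mono
      fun k hk => hm₃ k i ⟨j, by omega⟩) hlim
  let c : Fin n → CSeq A w := fun i => ⟨_, hm i⟩
  have null : ∀ {F : CSeq A w}, IsNull (w : Filter ℕ) (F : ℕ →ᵇ Unitization ℂ A) →
      AnnSeq (inrSet A) w (F : ℕ →ᵇ Unitization ℂ A) := fun {F} hF s _ => by
    refine ⟨(tendsto_mul_bdd w hF (C := ‖s‖) (v := fun _ => s) fun _ => le_rfl).1, ?_⟩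
    have hF' : Tendsto (fun k => star ((F : ℕ →ᵇ Unitization ℂ A) k)) (w : Filter ℕ) (𝓝 0) := by
      simpa using (hF : Tendsto _ _ _).star
    exact (tendsto_mul_bdd w hF' (C := ‖s‖) (v := fun _ => s) fun _ => le_rfl).1
  have hnorm : ∀ i, ∀ t ∈ T', ‖cls (c i) * t‖ = ‖x i‖ * ‖t‖ := fun i t ht => by
    have h1 := hI (c i * lift t) a
    have h2 := hI (lift t) a
    rw [ev_cls_mul] at h1
    simp only [cls, hlift, ha, mul_one] at h1 h2
    refine tendsto_nhds_unique h1 ?_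
    have h3 := h2.const_mul ‖x i‖
    have h4 : Tendsto (fun k => ‖((c i * lift t : CSeq A w) : ℕ →ᵇ Unitization ℂ A) k
        * (a : Unitization ℂ A)‖ - ‖x i‖ * ‖e t k * (a : Unitization ℂ A)‖)
        (w : Filter ℕ) (𝓝 0) := by
      refine squeeze_zero_norm (fun k => ?_) hlim
      rw [Real.norm_eq_abs]
      show |‖(f i : ℕ →ᵇ Unitization ℂ A) (m k) * e t k * (a : Unitization ℂ A)‖ - _| ≤ _
      rw [mul_assoc]
      exact hm₆ k i t ht
    have h5 := h4.add h3
    rw [zero_add] at h5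
    refine h5.congr fun k => ?_
    exact sub_add_cancel _ _
  refine ⟨fun i => cls (c i), fun p hp => ?_, fun i j hij => ?_, fun i => ?_, fun i t ht => ?_⟩
  · let xs' : Fin n ⊕ Fin n → CSeq A w := Sum.elim c fun i => star (c i)
    have h1 : q (FreeAlgebra.lift ℂ xs' p) = 0 := by
      show Ideal.Quotient.mk (annIdeal (inrSet A) w) _ = 0
      rw [Ideal.Quotient.eq_zero_iff_mem, mem_annIdeal]
      have h2 : (centralSeq (w : Filter ℕ) (Unitization ℂ A)).subtype.toAlgHom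
            (FreeAlgebra.lift ℂ xs' p)
          = reindexAlg m ((centralSeq (w : Filter ℕ) (Unitization ℂ A)).subtype.toAlgHom
            (r ⟨p, hp⟩)) := by
        simp only [r, algHom_lift]
        congr 2
        funext i
        rcases i with i | i <;> rfl
      show AnnSeq (inrSet A) w
        ((centralSeq (w : Filter ℕ) (Unitization ℂ A)).subtype.toAlgHom (FreeAlgebra.lift ℂ xs' p))
      rw [h2]
      exact annSeq_of_small (inrSet A) w hw fun k => hm₁ k ⟨p, hp⟩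
    rw [algHom_lift] at h1
    refine Eq.trans ?_ h1
    congr 2
    funext i
    rcases i with i | i <;> simp [q, xs', quotHom_apply, ← star_mk]
  · show Ideal.Quotient.mk (annIdeal (inrSet A) w) (centralAct (unitAct α) w g (c i)) = _
    rw [Ideal.Quotient.mk_eq_mk_iff_sub_mem, mem_annIdeal]
    exact annSeq_of_small (inrSet A) w hw fun k => hm₂ k ⟨(i, j), hij⟩
  · have h := hnorm i 1 (by rw [hT']; exact Finset.mem_insert_self _ _)
    rwa [mul_one, ev_norm_one_FA hI hA, mul_one] at h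
  · have ht' : t ∈ T' := by rw [hT']; exact Finset.mem_insert_of_mem ht
    refine ⟨?_, ?_, hnorm i t ht'⟩
    · rw [← hlift t, commute_iff_eq, ← ev_cls_mul, ← ev_cls_mul]
      refine (Ideal.Quotient.mk_eq_mk_iff_sub_mem _ _).2
        (null (F := c i * lift t - lift t * c i) ?_)
      show Tendsto (fun k => (f i : ℕ →ᵇ Unitization ℂ A) (m k) * e t k
        - e t k * (f i : ℕ →ᵇ Unitization ℂ A) (m k)) (w : Filter ℕ) (𝓝 0)
      exact squeeze_zero_norm (fun k => hm₄ k i t ht') hlim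
    · rw [← hlift t, ← ev_cls_star, commute_iff_eq, ← ev_cls_mul, ← ev_cls_mul]
      refine (Ideal.Quotient.mk_eq_mk_iff_sub_mem _ _).2
        (null (F := c i * star (lift t) - star (lift t) * c i) ?_)
      show Tendsto (fun k => (f i : ℕ →ᵇ Unitization ℂ A) (m k) * star (e t k)
        - star (e t k) * (f i : ℕ →ᵇ Unitization ℂ A) (m k)) (w : Filter ℕ) (𝓝 0)
      exact squeeze_zero_norm (fun k => hm₅ k i t ht') hlim

lemma exists_event_element (α : G →* (A ≃⋆ₐ[ℂ] A)) (hI : IsoNorm A w) (g : G) {a : A}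
    (ha : ‖a‖ = 1) (L : ℕ) {X : FA A w} {δ : ℝ} (hXs : star X = X) (hX1 : ‖X‖ ≤ 1)
    (hXc : ‖X * actF α w g X - actF α w g X * X‖ ≤ 3 / ((L : ℝ) + 1))
    (hXd : δ ≤ ‖X - actF α w g X‖) :
    ∃ y : Unitization ℂ A, star y = y ∧ ‖y‖ ≤ 2 ∧
      (∀ j : Fin (L + 1), ‖y * TopologicalSpace.denseSeq (Unitization ℂ A) j
        - TopologicalSpace.denseSeq (Unitization ℂ A) j * y‖ ≤ 1 / ((L : ℝ) + 1)) ∧
      ‖(y * unitAct α g y - unitAct α g y * y) * (a : Unitization ℂ A)‖ ≤ 4 / ((L : ℝ) + 1) ∧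
      δ - 1 / ((L : ℝ) + 1) ≤ ‖(y - unitAct α g y) * (a : Unitization ℂ A)‖ := by
  have hk : (0 : ℝ) < 1 / ((L : ℝ) + 1) := by positivity
  obtain ⟨f, hfX, hf⟩ := Submodule.Quotient.norm_mk_lt X zero_lt_one
  have hfX' : cls f = X := hfX
  obtain ⟨F, hF⟩ : ∃ F : CSeq A w, F = (1 / 2 : ℂ) • (f + star f) := ⟨_, rfl⟩
  have hFc : cls F = X := by
    rw [hF, ev_cls_smul, ev_cls_add, ev_cls_star, hfX', hXs, smul_add, ← add_smul]
    norm_num
  have hFs : star F = F := by
    rw [hF]; simp [add_comm]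
  have hFn : ‖F‖ ≤ 2 := by
    have hf' : ‖f‖ < ‖X‖ + 1 := hf
    rw [hF, norm_smul, show ‖(1 / 2 : ℂ)‖ = 1 / 2 by norm_num]
    linarith [norm_add_le f (star f), norm_star f]
  have t1 := hI (F * centralAct (unitAct α) w g F - centralAct (unitAct α) w g F * F) a
  have t2 := hI (F - centralAct (unitAct α) w g F) a
  rw [ev_cls_sub, ev_cls_mul, ev_cls_mul, ev_cls_act, hFc, ha, mul_one] at t1
  rw [ev_cls_sub, ev_cls_act, hFc, ha, mul_one] at t2
  obtain ⟨k, hk1, hk2, hk3⟩ := ((eventually_all.2 fun j : Fin (L + 1) =>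
    (tendsto_zero_iff_norm_tendsto_zero.1
      (F.2 (TopologicalSpace.denseSeq (Unitization ℂ A) j))).eventually
        (eventually_le_nhds hk)).and
    ((t1.eventually (eventually_le_nhds (b := 4 / ((L : ℝ) + 1)) (lt_of_le_of_lt hXc
      (div_lt_div_of_pos_right (by norm_num) (by positivity))))).and
    (t2.eventually (eventually_ge_nhds (b := δ - 1 / ((L : ℝ) + 1))
      (by linarith))))).exists
  refine ⟨(F : ℕ →ᵇ Unitization ℂ A) k, ?_,
    ((F : ℕ →ᵇ Unitization ℂ A).norm_coe_le_norm k).trans hFn, hk1, hk2, hk3⟩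
  exact congrArg (fun z : CSeq A w => (z : ℕ →ᵇ Unitization ℂ A) k) hFs

/-- Almost commuting translates at positive distance give commuting translates at positive
distance. -/
theorem exists_exact_moved (α : G →* (A ≃⋆ₐ[ℂ] A)) (hw : (w : Filter ℕ) ≤ cofinite)
    (hI : IsoNorm A w) (hA : ∃ a : A, a ≠ 0) (g : G) {δ : ℝ}
    (h : ∀ L : ℕ, ∃ X : FA A w, star X = X ∧ ‖X‖ ≤ 1 ∧
      ‖X * actF α w g X - actF α w g X * X‖ ≤ 3 / ((L : ℝ) + 1) ∧ δ ≤ ‖X - actF α w g X‖) :
    ∃ B : FA A w, IsSelfAdjoint B ∧ ‖B‖ ≤ 1 ∧ Commute B (actF α w g B) ∧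
      δ / 2 ≤ ‖B - actF α w g B‖ := by
  obtain ⟨a, ha⟩ := ev_exists_norm_one hA
  choose X hXs hX1 hXc hXd using h
  choose y hys hyn hyc hyg hyd using fun L =>
    exists_event_element α hI g ha L (hXs L) (hX1 L) (hXc L) (hXd L)
  have hlim := ev_tendsto_recip (w := w) hw
  let Y : CSeq A w := ⟨BoundedContinuousFunction.ofNormedAddCommGroupDiscrete y 2 hyn,
    mem_centralSeq_of_dense fun j => squeeze_zero_norm'
      ((ev_le_index hw j).mono fun k hk => hyc k ⟨j, by omega⟩) hlim⟩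
  have hYs : star Y = Y := Subtype.ext (BoundedContinuousFunction.ext hys)
  have hYn : ‖cls Y‖ ≤ 2 := (Submodule.Quotient.norm_mk_le _ _).trans
    ((BoundedContinuousFunction.norm_le (by norm_num)).2 hyn)
  have hcs : star (cls Y) = cls Y := by rw [← ev_cls_star, hYs]
  have hcomm : Commute (cls Y) (actF α w g (cls Y)) := by
    rw [commute_iff_eq, ← sub_eq_zero, ← norm_eq_zero]
    have h1 := hI (Y * centralAct (unitAct α) w g Y - centralAct (unitAct α) w g Y * Y) a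
    rw [ev_cls_sub, ev_cls_mul, ev_cls_mul, ev_cls_act, ha, mul_one] at h1
    refine tendsto_nhds_unique h1 (squeeze_zero (fun k => norm_nonneg _) (fun k => ?_)
      (g := fun k : ℕ => 4 * (1 / ((k : ℝ) + 1))) (by simpa using hlim.const_mul 4))
    rw [mul_one_div]
    exact hyg k
  have hdist : δ ≤ ‖cls Y - actF α w g (cls Y)‖ := by
    have h1 := hI (Y - centralAct (unitAct α) w g Y) a
    rw [ev_cls_sub, ev_cls_act, ha, mul_one] at h1
    refine le_of_tendsto_of_tendsto' (f := fun k : ℕ => δ - 1 / ((k : ℝ) + 1))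
      (by simpa using tendsto_const_nhds.sub hlim) h1 fun k => ?_
    exact hyd k
  refine ⟨(1 / 2 : ℂ) • cls Y, ?_, ?_, ?_, ?_⟩
  · rw [isSelfAdjoint_iff, star_smul, hcs]; norm_num
  · rw [norm_smul, show ‖(1 / 2 : ℂ)‖ = 1 / 2 by norm_num]; linarith
  · rw [map_smul]; exact (hcomm.smul_left _).smul_right _
  · rw [map_smul, ← smul_sub, norm_smul, show ‖(1 / 2 : ℂ)‖ = 1 / 2 by norm_num]; linarith

end Vale.Agent.P095.W
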