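import Vale.Agent.P095.W.ExciseA
import Vale.Agent.P095.SN.Positive

/-!
P095, Theorem W, block W3: positive quadratic forms on tuples of a nonunital algebra, completely
positive maps on it, and excised values as a closed convex cone.
-/

namespace Vale.Agent.P095.W

open Vale.Agent.P095 Vale.Agent.P095.SI
open scoped ComplexOrder

variable {A : Type} [NonUnitalCStarAlgebra A]

/-- The quadratic form of a matrix over the unitization. -/
def qf {ι : Type*} [Fintype ι] (T : ι → ι → Unitization ℂ A) (y : ι → Unitization ℂ A) :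
    Unitization ℂ A :=
  ∑ k, ∑ l, star (y k) * T k l * y l

lemma inI_sum {ι : Type*} (s : Finset ι) (f : ι → Unitization ℂ A) (h : ∀ i ∈ s, InI (f i)) :
    InI (∑ i ∈ s, f i) := by
  classical
  induction s using Finset.induction_on with
  | empty => simp [InI]
  | @insert i s hi ih =>
    rw [Finset.sum_insert hi]
    exact (h i (Finset.mem_insert_self i s)).add (ih fun j hj => h j (Finset.mem_insert_of_mem hj))

lemma inI_qf {ι : Type*} [Fintype ι] (T : ι → ι → Unitization ℂ A) (hT : ∀ k l, InI (T k l))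
    (y : ι → Unitization ℂ A) : InI (qf T y) :=
  inI_sum _ _ fun k _ => inI_sum _ _ fun l _ => ((hT k l).mul_left _).mul_right _

lemma eq_zero_of_pow_three {e : Unitization ℂ A} (he : IsSelfAdjoint e) (h : e * e * e = 0) :
    e = 0 := by
  have h1 : star (e * e) * (e * e) = 0 := by
    rw [star_mul, he.star_eq, ← mul_assoc, h, zero_mul]
  have h2 := (CStarRing.star_mul_self_eq_zero_iff _).1 h1
  exact (CStarRing.star_mul_self_eq_zero_iff e).1 (by rw [he.star_eq, h2])

/-- Forms positive on tuples of the algebra are positive on tuples of the unitization. -/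
lemma isPos_qf {ι : Type*} [Fintype ι] (T : ι → ι → Unitization ℂ A) (hT : ∀ k l, InI (T k l))
    (h : ∀ y, (∀ k, InI (y k)) → SN.IsPos (qf T y)) (y : ι → Unitization ℂ A) :
    SN.IsPos (qf T y) := by
  let := CStarAlgebra.spectralOrder (Unitization ℂ A)
  have := CStarAlgebra.spectralOrderedRing (Unitization ℂ A)
  obtain ⟨F, hF⟩ : ∃ F, F = qf T y := ⟨_, rfl⟩
  rw [← hF]
  have hFI : InI F := hF ▸ inI_qf T hT y
  have hconj : ∀ e, IsSelfAdjoint e → InI e → SN.IsPos (e * F * e) := by
    intro e he heI
    have h1 := h (fun k => y k * e) fun k => heI.mul_left _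
    have e1 : qf T (fun k => y k * e) = e * F * e := by
      rw [hF]
      simp only [qf, star_mul, he.star_eq, Finset.mul_sum, Finset.sum_mul, mul_assoc]
    rwa [e1] at h1
  have hFs : IsSelfAdjoint F := by
    obtain ⟨e, he⟩ : ∃ e, e = Complex.I • (F - star F) := ⟨_, rfl⟩
    have hes : IsSelfAdjoint e := by
      rw [isSelfAdjoint_iff, he, star_smul, star_sub, star_star, Complex.star_def, Complex.conj_I,
        ← neg_sub F, neg_smul, smul_neg, neg_neg]
    have heI : InI e := by
      rw [he, sub_eq_add_neg, ← neg_one_smul ℂ (star F)]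
      exact (hFI.add (hFI.star.smul _)).smul _
    have h1 := (hconj e hes heI).isSelfAdjoint.star_eq
    rw [star_mul, star_mul, hes.star_eq, ← mul_assoc] at h1
    have h2 : e * (F - star F) * e = 0 := by rw [mul_sub, sub_mul, h1, sub_self]
    have h3 : e * e * e = 0 := by
      have : e * (Complex.I • (F - star F)) * e = 0 := by
        rw [mul_smul_comm, smul_mul_assoc, h2, smul_zero]
      rwa [← he] at this
    have h4 := eq_zero_of_pow_three hes h3
    rw [he] at h4
    rcases smul_eq_zero.1 h4 with h5 | h5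
    · exact absurd h5 Complex.I_ne_zero
    · exact (sub_eq_zero.1 h5).symm
  obtain ⟨z, hz⟩ := hconj F hFs hFI
  have h3 : (0 : Unitization ℂ A) ≤ F * F * F := hz ▸ star_mul_self_nonneg z
  have h4 : 0 ≤ F := by
    rw [StarOrderedRing.nonneg_iff_spectrum_nonneg (R := ℝ) F hFs]
    intro t ht
    have h5 : cfc (fun s : ℝ => s * s * s) F = F * F * F := by
      rw [cfc_mul (fun s : ℝ => s * s) (fun s => s) F, cfc_mul (fun s : ℝ => s) (fun s => s) F,
        cfc_id' ℝ F]
    have h6 : (t * t * t) ∈ spectrum ℝ (F * F * F) := by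
      rw [← h5, cfc_map_spectrum (fun s : ℝ => s * s * s) F hFs]
      exact ⟨t, ht, rfl⟩
    have h7 : 0 ≤ t * t * t := spectrum_nonneg_of_nonneg h3 h6
    by_contra h8
    rw [not_le] at h8
    linarith [mul_neg_of_pos_of_neg (mul_pos_of_neg_of_neg h8 h8) h8]
  obtain ⟨w, hw⟩ := CStarAlgebra.nonneg_iff_eq_star_mul_self.1 h4
  exact ⟨w, hw.symm⟩

/-- A matrix whose forms on tuples of the algebra are positive is a sum of squares. -/
lemma exists_squaresA {n : ℕ} (T : Fin n → Fin n → A)
    (h : ∀ y : Fin n → A, SN.IsPos (qf (fun k l => (T k l : Unitization ℂ A)) fun k => (y k : _))) :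
    ∃ R : Fin n → Fin n → A, ∀ k l, T k l = ∑ r, star (R r k) * R r l := by
  classical
  obtain ⟨R, hR⟩ := SN.exists_squares_of_isPos_form (fun k l => (T k l : Unitization ℂ A))
    (isPos_qf _ (fun k l => inI_inr _) fun y hy => by
      rw [show y = fun k => ((y k).snd : Unitization ℂ A) from funext fun k => (hy k).eq_inr]
      exact h _)
  have hI : ∀ r k, InI (R r k) := by
    intro r k
    have h1 := congrArg (Unitization.fstHom ℂ A) (hR k k)
    rw [map_sum] at h1
    simp only [map_mul, map_star, Unitization.fstHom_apply, Unitization.fst_inr] at h1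
    exact (CStarRing.star_mul_self_eq_zero_iff _).1 ((Finset.sum_eq_zero_iff_of_nonneg
      fun r _ => star_mul_self_nonneg ((R r k).fst)).1 h1.symm r (Finset.mem_univ r))
  refine ⟨fun r k => (R r k).snd, fun k l => Unitization.inr_injective (R := ℂ) ?_⟩
  rw [hR]
  have : (Unitization.inrNonUnitalStarAlgHom ℂ A) (∑ r, star (R r k).snd * (R r l).snd)
      = ∑ r, star (R r k) * R r l := by
    rw [map_sum]
    refine Finset.sum_congr rfl fun r _ => ?_
    rw [map_mul, map_star]
    exact congr_arg₂ (· * ·) (congrArg star (hI r k).eq_inr.symm) (hI r l).eq_inr.symm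
  exact this.symm

/-- A completely positive map into matrices preserves adjoints. -/
lemma IsCPTo.map_star {n : ℕ} {φ : A →ₗ[ℂ] Matrix (Fin n) (Fin n) ℂ} (hφ : IsCPTo φ) (a : A) :
    φ (star a) = (φ a).conjTranspose := by
  have hsq : ∀ z : A, (φ (star z * z)).IsHermitian := fun z =>
    Matrix.IsHermitian.ext fun i j => (hφ 1 fun _ => z).1.apply ((0 : Fin 1), i) ((0 : Fin 1), j)
  let := CStarAlgebra.spectralOrder (Unitization ℂ A)
  have := CStarAlgebra.spectralOrderedRing (Unitization ℂ A)
  have hpos : ∀ x : Unitization ℂ A, InI x → 0 ≤ x → (φ x.snd).IsHermitian := by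
    intro x hx h0
    obtain ⟨z, hz⟩ := CStarAlgebra.nonneg_iff_eq_star_mul_self.1 h0
    have hzI : InI z := InI.of_star_mul_self (hz ▸ hx)
    rw [hz, Unitization.snd_mul, Unitization.fst_star, (hzI : z.fst = 0), star_zero, zero_smul,
      zero_smul, zero_add, zero_add, Unitization.snd_star]
    exact hsq _
  have hsa : ∀ x : A, IsSelfAdjoint x → (φ x).IsHermitian := by
    intro x hx
    obtain ⟨X, hX⟩ : ∃ X : Unitization ℂ A, X = (x : Unitization ℂ A) := ⟨_, rfl⟩
    have hXI : InI X := hX ▸ inI_inr x
    have hXs : IsSelfAdjoint X := by rw [isSelfAdjoint_iff, hX, ← Unitization.inr_star, hx.star_eq]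
    have e1 : X = cfc (fun t : ℝ => max t 0) X - cfc (fun t : ℝ => max (-t) 0) X := by
      rw [← cfc_sub (fun t : ℝ => max t 0) (fun t => max (-t) 0) X]
      conv_lhs => rw [← cfc_id' ℝ X]
      exact cfc_congr fun t _ => by rcases le_total 0 t with h | h <;> simp [h]
    have hI : ∀ f : ℝ → ℝ, Continuous f → f 0 = 0 → InI (cfc f X) := fun f hf h0 => by
      rw [hX, ← Unitization.real_cfcₙ_eq_cfc_inr x f h0]
      exact inI_inr _
    have hx' : x = (cfc (fun t : ℝ => max t 0) X).snd - (cfc (fun t : ℝ => max (-t) 0) X).snd := by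
      have h1 := congrArg (fun z : Unitization ℂ A => z.snd) e1
      simpa [hX, sub_eq_add_neg, Unitization.snd_add, Unitization.snd_neg] using h1
    rw [hx', map_sub]
    exact (hpos _ (hI _ (by fun_prop) (by simp)) (cfc_nonneg fun t _ => le_max_right _ _)).sub
      (hpos _ (hI _ (by fun_prop) (by simp)) (cfc_nonneg fun t _ => le_max_right _ _))
  have e := realPart_add_I_smul_imaginaryPart a
  conv_lhs => rw [← e]
  conv_rhs => rw [← e]
  rw [star_add, star_smul, (realPart a).2.star_eq, (imaginaryPart a).2.star_eq, map_add, map_add,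
    map_smul, map_smul, Matrix.conjTranspose_add, Matrix.conjTranspose_smul,
    (hsa _ (realPart a).2).eq, (hsa _ (imaginaryPart a).2).eq]

/-- A completely positive map is nonnegative on matrices of squares. -/
lemma IsCPTo.sum_nonneg {n : ℕ} {φ : A →ₗ[ℂ] Matrix (Fin n) (Fin n) ℂ} (hφ : IsCPTo φ)
    (R : Fin n → Fin n → A) : 0 ≤ ∑ k, ∑ l, φ (∑ r, star (R r k) * R r l) k l := by
  classical
  have e : (∑ k, ∑ l, φ (∑ r, star (R r k) * R r l) k l)
      = ∑ r, ∑ k, ∑ l, φ (star (R r k) * R r l) k l := by
    simp only [map_sum, Matrix.sum_apply]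
    refine Eq.trans ?_ (Finset.sum_comm (γ := Fin n) (s := Finset.univ) (t := Finset.univ)
      (f := fun k r => ∑ l, φ (star (R r k) * R r l) k l))
    exact Finset.sum_congr rfl fun k _ => Finset.sum_comm
  rw [e]
  refine Finset.sum_nonneg fun r _ => ?_
  have := (hφ n fun p => R r p).dotProduct_mulVec_nonneg
    (fun p : Fin n × Fin n => if p.1 = p.2 then 1 else 0)
  simpa [dotProduct, Matrix.mulVec, Fintype.sum_prod_type, apply_ite star, Finset.mul_sum] using this

end Vale.Agent.P095.W
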