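import Vale.Agent.P095.W.Pins

/-!
P095, Theorem W: composition of the blocks.
-/

namespace Vale.Agent.P095.W

open Filter Vale.Agent.P101 Vale.Agent.P095 Vale.Agent.P095.Rel Vale.Agent.P095.Tracial
open scoped Topology BoundedContinuousFunction

/-- Theorem W from the blocks. -/
theorem fixedHom_of_blocks (hLift : LiftFPin) (hFirst : FirstPin) (hIso : IsometryPin)
    (hEvents : EventsPin) (hFactor : FactorAPin) (hCert : SC.CertPin.{0}) (hMatrix : SC.MatrixPin)
    (hAmp : AmplifyAPin) (hPieces : PiecesFPin) (hCompare : ComparePin) (hSolve : SolvePin)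
    (hAssemble : AssemblePin)
    (A : Type) [NonUnitalCStarAlgebra A] [TopologicalSpace.SeparableSpace A]
    (hS : IsTopSimple A) (hN : IsNuclearA A)
    (w : Ultrafilter ℕ) (hw : (w : Filter ℕ) ≤ cofinite) (hno : NoChar A w)
    (G : Type) [Group G] [Countable G] (hG : Foelner G) (α : G →* (A ≃⋆ₐ[ℂ] A)) :
    ∃ φ : ZTwoThree → centralSeq (w : Filter ℕ) (Unitization ℂ A),
      IsFixedHomModAnn (w : Filter ℕ) (fun g => α g) φ := by
  obtain ⟨hsp, hfac⟩ := hFactor A w hw hS hno hN
  have hL := hLift A w hw hno G hG α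
  obtain ⟨h1, h2⟩ := hSolve A w hw hS G α hL (hFirst hIso A w hw hS G α hL)
    (hEvents hIso A w hw hS G α)
    (hCompare hIso hCert hMatrix hAmp A w hw hS hN hsp hfac (hPieces A w hw hno))
  exact hAssemble A w hw G α hG h1 h2

end Vale.Agent.P095.W
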