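import Vale.Agent.P095.W.Defs
import Vale.Agent.P095.SI.NoCharacter
import Vale.Agent.P095.SN.Positive

/-!
P095, Theorem W: the hypotheses of the theorem hold for simple unital approximately
finite-dimensional algebras (helper file, no hand-in).
-/

namespace Vale.Agent.P095.W

open Filter Matrix Vale.Agent.P101 Vale.Agent.P095.SI Vale.Agent.P095.SN
open scoped Topology BoundedContinuousFunction Matrix.Norms.L2Operator MatrixOrder ComplexOrder

variable {A : Type} [CStarAlgebra A]

noncomputable local instance cseqSanity (w : Ultrafilter ℕ) :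
    CStarAlgebra (centralSeq (w : Filter ℕ) (Unitization ℂ A)) :=
  StarSubalgebra.cstarAlgebra _ (h_closed := isClosed_centralSeq w)

/-- Algebraic simplicity of a unital algebra gives topological simplicity. -/
theorem isTopSimple_of_simple [IsSimpleRing A] : IsTopSimple A := by
  refine ⟨⟨1, one_ne_zero⟩, fun a ha b ε hε => ?_⟩
  let J : Set A := {x | ∃ (n : ℕ) (r t : Fin n → A), x = ∑ l, r l * a * t l}
  let I : TwoSidedIdeal A := TwoSidedIdeal.mk' J ⟨0, Fin.elim0, Fin.elim0, by simp⟩
    (fun {x y} hx hy => by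
      obtain ⟨n, r, t, rfl⟩ := hx
      obtain ⟨m, r', t', rfl⟩ := hy
      exact ⟨n + m, Fin.append r r', Fin.append t t', by simp [Fin.sum_univ_add]⟩)
    (fun {x} hx => by
      obtain ⟨n, r, t, rfl⟩ := hx
      exact ⟨n, -r, t, by simp⟩)
    (fun {x y} hy => by
      obtain ⟨n, r, t, rfl⟩ := hy
      exact ⟨n, fun l => x * r l, t, by simp [Finset.mul_sum, mul_assoc]⟩)
    (fun {x y} hx => by
      obtain ⟨n, r, t, rfl⟩ := hx
      exact ⟨n, r, fun l => t l * y, by simp [Finset.sum_mul, mul_assoc]⟩)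
  have hmem : ∀ x, x ∈ I ↔ x ∈ J := fun x => TwoSidedIdeal.mem_mk' ..
  have hI : a ∈ I := (hmem a).2 ⟨1, fun _ => 1, fun _ => 1, by simp⟩
  obtain ⟨n, r, t, h1⟩ := (hmem 1).1 (IsSimpleRing.one_mem_of_ne_zero_mem I ha hI)
  refine ⟨n, fun l => b * r l, t, ?_⟩
  rw [show (∑ l, b * r l * a * t l) = b * ∑ l, r l * a * t l by
    simp [Finset.mul_sum, mul_assoc], ← h1, mul_one, sub_self, norm_zero]
  exact hε.le

/-- A norm one functional at a projection is positive on its corner. -/
theorem exists_corner_state (p : A) (hps : star p = p) (hpp : p * p = p) (hp0 : p ≠ 0) :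
    ∃ f : A →ₗ[ℂ] ℂ, f p = 1 ∧ (∀ x, p * x = x → x * p = x → f (star x) = star (f x)) ∧
      ∀ y, y * p = y → 0 ≤ f (star y * y) := by
  let := CStarAlgebra.spectralOrder A
  have := CStarAlgebra.spectralOrderedRing A
  have hp1 : ‖p‖ = 1 := by
    have h := CStarRing.norm_star_mul_self (x := p)
    rw [hps, hpp] at h
    exact mul_left_cancel₀ (norm_ne_zero_iff.2 hp0) (by rw [← h, mul_one])
  obtain ⟨g, hg, hgp⟩ := exists_dual_vector ℂ p (norm_ne_zero_iff.2 hp0)
  rw [hp1, RCLike.ofReal_one] at hgp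
  have hgle : ∀ x, ‖g x‖ ≤ ‖x‖ := fun x => (g.le_opNorm x).trans (by rw [hg, one_mul])
  have him : ∀ x, star x = x → p * x = x → x * p = x → (g x).im = 0 := by
    intro x hxs hpx hxp
    have key : ∀ t : ℝ, ((g x).im + t) ^ 2 ≤ ‖x‖ ^ 2 + t ^ 2 := by
      intro t
      have e : star (x + ((t : ℂ) * Complex.I) • p) * (x + ((t : ℂ) * Complex.I) • p)
          = x * x + ((t ^ 2 : ℝ) : ℂ) • p := by
        simp only [star_add, star_smul, hxs, hps, add_mul, mul_add, smul_mul_assoc, mul_smul_comm,
          hpx, hxp, hpp, smul_smul, smul_add]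
        rw [show star ((t : ℂ) * Complex.I) = -((t : ℂ) * Complex.I) by simp,
          show ((t ^ 2 : ℝ) : ℂ) = -((t : ℂ) * Complex.I * ((t : ℂ) * Complex.I)) by
            linear_combination (norm := (push_cast; ring_nf)) (t : ℂ) ^ 2 * Complex.I_sq]
        simp only [neg_smul, mul_neg]
        abel
      have h1 : ‖x + ((t : ℂ) * Complex.I) • p‖ * ‖x + ((t : ℂ) * Complex.I) • p‖
          ≤ ‖x‖ ^ 2 + t ^ 2 := by
        rw [← CStarRing.norm_star_mul_self, e]
        refine (norm_add_le _ _).trans (add_le_add ((norm_mul_le _ _).trans (sq _).ge) ?_)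
        rw [norm_smul, hp1, mul_one, Complex.norm_real, Real.norm_of_nonneg (sq_nonneg t)]
      have h2 := (Complex.abs_im_le_norm _).trans (hgle (x + ((t : ℂ) * Complex.I) • p))
      rw [map_add, map_smul, hgp] at h2
      have h3 : |(g x).im + t| ≤ ‖x + ((t : ℂ) * Complex.I) • p‖ := by simpa using h2
      nlinarith [sq_abs ((g x).im + t), abs_nonneg ((g x).im + t)]
    by_contra hne
    have := key ((‖x‖ ^ 2 + 1) / (2 * (g x).im))
    have e : 2 * (g x).im * ((‖x‖ ^ 2 + 1) / (2 * (g x).im)) = ‖x‖ ^ 2 + 1 := by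
      field_simp
    nlinarith [sq_nonneg (g x).im]
  refine ⟨g.toLinearMap, hgp, fun x hpx hxp => ?_, fun y hy => ?_⟩
  · have hpx' : p * star x = star x := by
      have := congrArg star hxp
      rwa [star_mul, hps] at this
    have hxp' : star x * p = star x := by
      have := congrArg star hpx
      rwa [star_mul, hps] at this
    have h1 := him (x + star x) (by simp [add_comm]) (by rw [mul_add, hpx, hpx'])
      (by rw [add_mul, hxp, hxp'])
    have h2 := him (Complex.I • (x - star x)) (by simp [smul_sub]; abel)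
      (by rw [mul_smul_comm, mul_sub, hpx, hpx']) (by rw [smul_mul_assoc, sub_mul, hxp, hxp'])
    rw [map_add] at h1
    rw [map_smul, map_sub] at h2
    show g (star x) = star (g x)
    apply Complex.ext <;> simp at h1 h2 ⊢ <;> linarith
  · set x := star y * y
    have hy' : p * star y = star y := by
      have := congrArg star hy
      rwa [star_mul, hps] at this
    have hpx : p * x = x := by rw [← mul_assoc, hy']
    have hxp : x * p = x := by rw [mul_assoc, hy]
    have hxs : star x = x := IsSelfAdjoint.star_mul_self y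
    have h0 : (0 : A) ≤ x := star_mul_self_nonneg y
    have hr : x ≤ ‖x‖ • p := by
      have := CStarAlgebra.star_left_conjugate_le_norm_smul (a := p) (.of_nonneg h0)
      rwa [hps, hpp, hpx, hxp] at this
    have hn : ‖‖x‖ • p - x‖ ≤ ‖x‖ := by
      refine (CStarAlgebra.norm_le_norm_of_nonneg_of_le (sub_nonneg.2 hr)
        (sub_le_self _ h0)).trans ?_
      rw [norm_smul, hp1, mul_one, norm_norm]
    have h1 := (Complex.re_le_norm _).trans ((hgle _).trans hn)
    rw [← Complex.coe_smul, map_sub, map_smul, hgp] at h1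
    rw [Complex.nonneg_iff]
    refine ⟨?_, (him x hxs hpx hxp).symm⟩
    simp at h1
    exact h1

/-- A unital completely positive map into matrices is a contraction. -/
theorem norm_le_of_isCPTo {n : ℕ} {φ : A →ₗ[ℂ] Matrix (Fin n) (Fin n) ℂ} (hφ : IsCPTo φ)
    (h1 : φ 1 = 1) (a : A) : ‖φ a‖ ≤ ‖a‖ := by
  let := CStarAlgebra.spectralOrder A
  have := CStarAlgebra.spectralOrderedRing A
  have hpos : ∀ b : A, 0 ≤ φ (star b * b) := fun b =>
    Matrix.nonneg_iff_posSemidef.2 ((hφ 1 fun _ => b).submatrix fun i => ((0 : Fin 1), i))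
  let V : Matrix (Fin 2 × Fin n) (Fin n) ℂ :=
    Matrix.of fun x y => if x.1 = 0 then -φ a x.2 y else (1 : Matrix (Fin n) (Fin n) ℂ) x.2 y
  have hs : φ (star a) = star (φ a) := by
    ext i j
    have := congrFun₂ (hφ 2 ![1, a]).isHermitian (1, i) (0, j)
    simpa [Matrix.conjTranspose_apply] using this.symm
  have hschwarz : star (φ a) * φ a ≤ φ (star a * a) := by
    rw [Matrix.le_iff]
    have h := (hφ 2 ![1, a]).conjTranspose_mul_mul_same V
    suffices e : φ (star a * a) - star (φ a) * φ a = _ by rw [e]; exact h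
    ext i j
    simp [V, Matrix.mul_apply, Fintype.sum_prod_type, Fin.sum_univ_two, h1, hs, Matrix.one_apply,
      apply_ite (starRingEnd ℂ)]
    ring_nf
  obtain ⟨b, hb⟩ := CStarAlgebra.nonneg_iff_eq_star_mul_self.1 (sub_nonneg.2
    ((IsSelfAdjoint.star_mul_self a).le_algebraMap_norm_self))
  have h2 := hpos b
  rw [← hb, map_sub, Algebra.algebraMap_eq_smul_one, ← Complex.coe_smul, map_smul, h1,
    sub_nonneg] at h2
  have h3 := CStarAlgebra.norm_le_norm_of_nonneg_of_le (star_mul_self_nonneg (φ a))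
    (hschwarz.trans h2)
  rw [CStarRing.norm_star_mul_self, norm_smul, Complex.norm_real, norm_norm,
    CStarRing.norm_star_mul_self] at h3
  rcases subsingleton_or_nontrivial (Matrix (Fin n) (Fin n) ℂ) with h | h
  · simp [Subsingleton.elim (φ a) 0]
  rw [norm_one, mul_one] at h3
  exact (mul_self_le_mul_self_iff (norm_nonneg _) (norm_nonneg _)).2 h3

/-- A unital completely positive map out of matrices is a contraction. -/
theorem norm_le_of_isCPFrom {n : ℕ} {ψ : Matrix (Fin n) (Fin n) ℂ →ₗ[ℂ] A} (hψ : IsCPFrom ψ)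
    (h1 : ψ 1 = 1) (hs : ∀ T, ψ (star T) = star (ψ T)) (T : Matrix (Fin n) (Fin n) ℂ) :
    ‖ψ T‖ ≤ ‖T‖ := by
  let := CStarAlgebra.spectralOrder A
  have := CStarAlgebra.spectralOrderedRing A
  have hschwarz : star (ψ T) * ψ T ≤ ψ (star T * T) := by
    obtain ⟨z, hz⟩ := hψ 2 ![1, T] ![-ψ T, 1]
    rw [← sub_nonneg]
    have e : star z * z = ψ (star T * T) - star (ψ T) * ψ T := by
      rw [hz]
      simp [Fin.sum_univ_two, h1, ← Matrix.star_eq_conjTranspose, hs]
      abel
    exact e ▸ star_mul_self_nonneg z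
  obtain ⟨R, hR⟩ := CStarAlgebra.nonneg_iff_eq_star_mul_self.1 (sub_nonneg.2
    ((IsSelfAdjoint.star_mul_self T).le_algebraMap_norm_self))
  obtain ⟨z, hz⟩ := hψ 1 (fun _ => R) fun _ => 1
  have h2 : 0 ≤ ψ (star R * R) := by
    have e : star z * z = ψ (star R * R) := by
      rw [hz]; simp [← Matrix.star_eq_conjTranspose]
    exact e ▸ star_mul_self_nonneg z
  rw [← hR, map_sub, Algebra.algebraMap_eq_smul_one, ← Complex.coe_smul, map_smul, h1,
    sub_nonneg] at h2
  have h3 := CStarAlgebra.norm_le_norm_of_nonneg_of_le (star_mul_self_nonneg (ψ T))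
    (hschwarz.trans h2)
  rw [CStarRing.norm_star_mul_self, norm_smul, Complex.norm_real, norm_norm,
    CStarRing.norm_star_mul_self] at h3
  rcases subsingleton_or_nontrivial A with h | h
  · simp [Subsingleton.elim (ψ T) 0]
  rw [norm_one, mul_one] at h3
  exact (mul_self_le_mul_self_iff (norm_nonneg _) (norm_nonneg _)).2 h3

/-- Finite-dimensional subalgebras are retracts by completely positive contractions. -/
theorem exists_retract (D : MU A) : ∃ (n : ℕ) (φ : A →ₗ[ℂ] Matrix (Fin n) (Fin n) ℂ)
    (ψ : Matrix (Fin n) (Fin n) ℂ →ₗ[ℂ] A), IsCPTo φ ∧ IsCPFrom ψ ∧ (∀ a, ‖φ a‖ ≤ ‖a‖) ∧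
      (∀ T, ‖ψ T‖ ≤ ‖T‖) ∧ ∀ y ∈ D.alg, ψ (φ y) = y := by
  classical
  have hp : ∀ i, star (D.e i 0 0) = D.e i 0 0 ∧ D.e i 0 0 * D.e i 0 0 = D.e i 0 0 := fun i =>
    ⟨D.star_e i 0 0, D.mul_eq i 0 0 0⟩
  choose g hg1 hgs hgp using fun i =>
    exists_corner_state (D.e i 0 0) (hp i).1 (hp i).2 (D.ne_zero i)
  let ι := Σ i : Fin D.m, Fin (D.d i + 1)
  let k := (Fintype.equivFin ι).symm
  let cell : A → ι → ι → ℂ := fun a x y => if h : y.1 = x.1 then
    g x.1 (D.e x.1 0 x.2 * a * D.e x.1 (Fin.cast (by rw [h]) y.2) 0) else 0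
  have hcell : ∀ a i b c, cell a ⟨i, b⟩ ⟨i, c⟩ = g i (D.e i 0 b * a * D.e i c 0) := by
    intro a i b c; simp [cell]
  have hcell' : ∀ a (x y : ι), y.1 ≠ x.1 → cell a x y = 0 := by
    intro a x y h; simp [cell, h]
  let φ : A →ₗ[ℂ] Matrix (Fin (Fintype.card ι)) (Fin (Fintype.card ι)) ℂ :=
    { toFun := fun a => Matrix.of fun x y => cell a (k x) (k y)
      map_add' := fun a b => by
        ext x y
        simp only [Matrix.of_apply, Matrix.add_apply, cell]
        split_ifs <;> simp [mul_add, add_mul]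
      map_smul' := fun r a => by
        ext x y
        simp only [Matrix.of_apply, Matrix.smul_apply, cell]
        split_ifs <;> simp }
  let ψ : Matrix (Fin (Fintype.card ι)) (Fin (Fintype.card ι)) ℂ →ₗ[ℂ] A :=
    { toFun := fun T => ∑ i, ∑ b, ∑ c, T (k.symm ⟨i, b⟩) (k.symm ⟨i, c⟩) • D.e i b c
      map_add' := fun S T => by simp [add_smul, Finset.sum_add_distrib]
      map_smul' := fun r T => by simp [Finset.smul_sum, smul_smul] }
  have hinj : ∀ i (b c : Fin (D.d i + 1)), ((⟨i, b⟩ : ι) = ⟨i, c⟩) = (b = c) := fun i b c =>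
    propext ⟨fun h => eq_of_heq (Sigma.mk.inj h).2, fun h => h ▸ rfl⟩
  have hψ1 : ψ 1 = 1 := by
    simp only [ψ, LinearMap.coe_mk, AddHom.coe_mk]
    simp [Matrix.one_apply, hinj, D.sum_eq]
  have hψs : ∀ T, ψ (star T) = star (ψ T) := by
    intro T
    simp only [ψ, LinearMap.coe_mk, AddHom.coe_mk]
    simp only [star_sum, star_smul, D.star_e, Matrix.star_apply]
    exact Finset.sum_congr rfl fun i _ => Finset.sum_comm
  have hψ : IsCPFrom ψ := by
    intro m T b
    have e : (∑ p, ∑ q, star (b p) * ψ ((T p).conjTranspose * T q) * b q)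
        = ∑ r, ∑ i, star (∑ q, ∑ c, T q r (k.symm ⟨i, c⟩) • (D.e i 0 c * b q))
          * ∑ q, ∑ c, T q r (k.symm ⟨i, c⟩) • (D.e i 0 c * b q) := by
      have e1 : ∀ p q, star (b p) * ψ ((T p).conjTranspose * T q) * b q
          = ∑ r, ∑ i, ∑ c, ∑ c', star (T p r (k.symm ⟨i, c⟩) • (D.e i 0 c * b p))
            * (T q r (k.symm ⟨i, c'⟩) • (D.e i 0 c' * b q)) := by
        intro p q
        simp only [ψ, LinearMap.coe_mk, AddHom.coe_mk]
        conv_rhs => rw [Finset.sum_comm]
        simp only [Finset.mul_sum, Finset.sum_mul]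
        refine Finset.sum_congr rfl fun i _ => ?_
        conv_rhs => rw [Finset.sum_comm]
        refine Finset.sum_congr rfl fun c _ => ?_
        conv_rhs => rw [Finset.sum_comm]
        refine Finset.sum_congr rfl fun c' _ => ?_
        rw [Matrix.mul_apply, Finset.sum_smul, Finset.mul_sum, Finset.sum_mul]
        refine Finset.sum_congr rfl fun r _ => ?_
        simp only [Matrix.conjTranspose_apply, star_smul, star_mul, D.star_e, smul_mul_assoc,
          mul_smul_comm, smul_smul, mul_assoc]
        rw [← mul_assoc (D.e i c 0), D.mul_eq, mul_comm (T q r _)]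
      simp only [e1, star_sum, Finset.sum_mul, Finset.mul_sum]
      rw [Finset.sum_comm]
      conv_lhs => enter [2, q]; rw [Finset.sum_comm]
      rw [Finset.sum_comm]
      refine Finset.sum_congr rfl fun r _ => ?_
      conv_lhs => enter [2, q]; rw [Finset.sum_comm]
      rw [Finset.sum_comm]
      refine Finset.sum_congr rfl fun i _ => ?_
      refine Finset.sum_congr rfl fun q _ => ?_
      conv_lhs => enter [2, c]; rw [Finset.sum_comm]
      rw [Finset.sum_comm]
    rw [e, ← Fintype.sum_prod_type']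
    obtain ⟨z, hz⟩ := isPos_sum_star_mul_self (Finset.univ : Finset (Fin (Fintype.card ι) × Fin D.m))
      fun x => ∑ q, ∑ c, T q x.1 (k.symm ⟨x.2, c⟩) • (D.e x.2 0 c * b q)
    exact ⟨z, hz⟩
  have hψφ : ∀ y ∈ D.alg, ψ (φ y) = y := by
    intro y hy
    induction hy using Submodule.span_induction with
    | mem y hy =>
      obtain ⟨j, f, f', rfl⟩ := hy
      show (∑ i, ∑ b, ∑ c, Matrix.of (fun x y => cell (D.e j f f') (k x) (k y)) _ _ • D.e i b c) = _
      simp only [Matrix.of_apply, Equiv.apply_symm_apply, hcell]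
      rw [Finset.sum_eq_single j (fun i _ hi => by simp [D.mul_ne i j hi]) (by simp),
        Finset.sum_eq_single f (fun b _ hb => by simp [D.mul_same, hb]) (by simp),
        Finset.sum_eq_single f' (fun c _ hc => by simp [D.mul_same, Ne.symm hc]) (by simp)]
      simp [D.mul_same, hg1]
    | zero => simp
    | add u v _ _ hu hv => simp [map_add, hu, hv]
    | smul r u _ hu => simp [map_smul, hu]
  have hφ1 : φ 1 = 1 := by
    ext x y
    show cell 1 (k x) (k y) = _
    rw [show (1 : Matrix (Fin (Fintype.card ι)) (Fin (Fintype.card ι)) ℂ) x y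
      = if k x = k y then 1 else 0 by simp [Matrix.one_apply]]
    generalize k x = u
    generalize k y = v
    obtain ⟨i, b⟩ := u
    obtain ⟨j, c⟩ := v
    rcases eq_or_ne j i with rfl | h
    · rw [hcell, mul_one, D.mul_same]
      by_cases hbc : b = c <;> simp [hbc, hg1, hinj]
    · rw [hcell' _ _ _ h, if_neg fun e => h (congrArg Sigma.fst e).symm]
  have hφ : IsCPTo φ := by
    intro m a
    rw [Matrix.posSemidef_iff_dotProduct_mulVec]
    refine ⟨?_, fun x => ?_⟩
    · ext ⟨p, u⟩ ⟨q, v⟩
      show star (cell (star (a q) * a p) (k v) (k u)) = cell (star (a p) * a q) (k u) (k v)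
      generalize k u = u'
      generalize k v = v'
      obtain ⟨i, b⟩ := u'
      obtain ⟨j, c⟩ := v'
      rcases eq_or_ne j i with rfl | h
      · rw [hcell, hcell, ← hgs]
        · simp only [star_mul, star_star, D.star_e, mul_assoc]
        · simp only [← mul_assoc, D.mul_eq]
        · simp only [mul_assoc, D.mul_eq]
      · rw [hcell' _ _ _ (Ne.symm h), hcell' _ _ _ h, star_zero]
    · have e : star x ⬝ᵥ (Matrix.of fun p q : Fin m × Fin (Fintype.card ι) =>
            φ (star (a p.1) * a q.1) p.2 q.2) *ᵥ x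
          = ∑ i, g i (star (∑ p, ∑ c, x (p, k.symm ⟨i, c⟩) • (a p * D.e i c 0))
            * ∑ p, ∑ c, x (p, k.symm ⟨i, c⟩) • (a p * D.e i c 0)) := by
        calc _ = ∑ p, ∑ u : ι, ∑ q, ∑ v : ι, star (x (p, k.symm u))
              * cell (star (a p) * a q) u v * x (q, k.symm v) := by
              simp only [dotProduct, Matrix.mulVec, Pi.star_apply, Fintype.sum_prod_type,
                Finset.mul_sum]
              refine Finset.sum_congr rfl fun p _ => ?_
              refine Fintype.sum_equiv k _ _ fun u => ?_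
              refine Finset.sum_congr rfl fun q _ => ?_
              refine Fintype.sum_equiv k _ _ fun v => ?_
              simp only [Equiv.symm_apply_apply, mul_assoc]
              rfl
          _ = ∑ p, ∑ i, ∑ c, ∑ q, ∑ c', star (x (p, k.symm ⟨i, c⟩))
              * g i (D.e i 0 c * (star (a p) * a q) * D.e i c' 0) * x (q, k.symm ⟨i, c'⟩) := by
              refine Finset.sum_congr rfl fun p _ => ?_
              rw [Fintype.sum_sigma]
              refine Finset.sum_congr rfl fun i _ => Finset.sum_congr rfl fun c _ => ?_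
              refine Finset.sum_congr rfl fun q _ => ?_
              rw [Fintype.sum_sigma, Finset.sum_eq_single i (fun j _ hj =>
                Finset.sum_eq_zero fun c' _ => by rw [hcell' _ _ _ hj]; simp) (by simp)]
              simp only [hcell]
          _ = _ := by
              rw [Finset.sum_comm]
              refine Finset.sum_congr rfl fun i _ => ?_
              simp only [star_sum, Finset.sum_mul, map_sum]
              refine Finset.sum_congr rfl fun p _ => Finset.sum_congr rfl fun c _ => ?_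
              simp only [Finset.mul_sum, map_sum]
              refine Finset.sum_congr rfl fun q _ => Finset.sum_congr rfl fun c' _ => ?_
              simp only [star_smul, star_mul, D.star_e, smul_mul_smul_comm, map_smul, smul_eq_mul,
                mul_assoc]
              ring
      rw [e]
      refine Finset.sum_nonneg fun i _ => hgp i _ ?_
      simp only [Finset.sum_mul, smul_mul_assoc, mul_assoc, D.mul_eq]
  exact ⟨_, φ, ψ, hφ, hψ, norm_le_of_isCPTo hφ hφ1, norm_le_of_isCPFrom hψ hψ1 hψs, hψφ⟩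

/-- An algebra with a tower of finite-dimensional subalgebras is nuclear. -/
theorem isNuclearA_of_tower (T : AFTower A) : IsNuclearA A := by
  classical
  intro S ε hε
  obtain ⟨k, hk⟩ : ∃ k, ∀ a ∈ S, ∃ y ∈ (T.D k).alg, ‖a - y‖ ≤ ε / 2 := by
    choose f y hy hd using fun a : A => T.dense a (ε / 2) (half_pos hε)
    exact ⟨S.sup f, fun a ha =>
      ⟨y a, monotone_nat_of_le_succ (f := fun k => (T.D k).alg) T.mono (Finset.le_sup ha) (hy a),
        hd a⟩⟩
  obtain ⟨n, φ, ψ, h1, h2, h3, h4, h5⟩ := exists_retract (T.D k)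
  refine ⟨n, φ, ψ, h1, h2, h3, h4, fun a ha => ?_⟩
  obtain ⟨y, hy, hd⟩ := hk a ha
  have e : ψ (φ a) - a = ψ (φ (a - y)) - (a - y) := by rw [map_sub, map_sub, h5 y hy]; abel
  rw [e]
  refine (norm_sub_le _ _).trans ?_
  linarith [(h4 (φ (a - y))).trans (h3 (a - y))]

/-- An algebra with a tower of finite-dimensional subalgebras is separable. -/
theorem separableSpace_of_tower (T : AFTower A) : TopologicalSpace.SeparableSpace A := by
  let C : Set A := ⋃ k, Set.range fun x : Σ i, Fin ((T.D k).d i + 1) × Fin ((T.D k).d i + 1) =>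
    (T.D k).e x.1 x.2.1 x.2.2
  have hC : C.Countable := Set.countable_iUnion fun k => Set.countable_range _
  rw [← TopologicalSpace.isSeparable_univ_iff]
  refine ((hC.isSeparable.span (R := ℂ)).closure).mono fun a _ => ?_
  rw [Metric.mem_closure_iff]
  intro ε hε
  obtain ⟨k, y, hy, hd⟩ := T.dense a (ε / 2) (half_pos hε)
  refine ⟨y, ?_, ?_⟩
  · refine Submodule.span_mono (R := ℂ) ?_ hy
    rintro _ ⟨i, b, c, rfl⟩
    exact Set.mem_iUnion.2 ⟨k, ⟨i, b, c⟩, rfl⟩
  · rw [dist_eq_norm]; linarith

/-- A simple infinite-dimensional algebra with a tower has a central sequence algebra without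
characters. -/
theorem noChar_of_tower [IsSimpleRing A] (hA : ¬ FiniteDimensional ℂ A) (T : AFTower A)
    (w : Ultrafilter ℕ) (hw : (w : Filter ℕ) ≤ cofinite) : NoChar A w := by
  intro χ hχ
  choose x y hx hy hxx hyy hxc hyc hone using T.exists_square_zero hA
  have hw' : (w : Filter ℕ) ≤ atTop := hw.trans_eq Nat.cofinite_eq_atTop
  have hmk : ∀ f : ℕ → A, (∀ n, ‖f n‖ ≤ 1) → (∀ n, (T.D n).Commutes (f n)) →
      ∃ F : CSeq A w, ∀ n, F.1 n = (f n : Unitization ℂ A) := by
    intro f hf hc
    let f₀ := BoundedContinuousFunction.ofNormedAddCommGroupDiscrete f 1 hf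
    refine ⟨⟨BoundedContinuousFunction.ofNormedAddCommGroupDiscrete
      (fun n => (f n : Unitization ℂ A)) 1
      (fun n => (Unitization.norm_inr (𝕜 := ℂ) (f n)).trans_le (hf n)), fun b => ?_⟩, fun n => rfl⟩
    have h := ((Unitization.isometry_inr (𝕜 := ℂ) (A := A)).continuous.tendsto 0).comp
      ((tendsto_comm_of_commutes T f₀ hc b.snd).mono_left hw')
    rw [Unitization.inr_zero] at h
    refine h.congr fun n => ?_
    show ((f n * b.snd - b.snd * f n : A) : Unitization ℂ A)
      = (f n : Unitization ℂ A) * b - b * (f n : Unitization ℂ A)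
    rw [sub_eq_add_neg _ (b * _)]
    refine Unitization.ext ?_ ?_
    · simp only [Unitization.fst_inr, Unitization.fst_add, Unitization.fst_neg, Unitization.fst_mul,
        mul_zero, zero_mul, neg_zero, add_zero]
    · simp only [Unitization.snd_inr, Unitization.snd_add, Unitization.snd_neg, Unitization.snd_mul,
        Unitization.fst_inr, zero_smul]
      abel
  obtain ⟨X, hX⟩ := hmk x hx hxc
  obtain ⟨Y, hY⟩ := hmk y hy hyc
  have h0 : ∀ (Z : CSeq A w), Z * Z = 0 → χ Z = 0 := fun Z h => by
    have := congrArg χ h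
    rw [map_mul, map_zero] at this
    exact mul_self_eq_zero.1 this
  have hX0 : χ X = 0 := h0 X (Subtype.ext (BoundedContinuousFunction.ext fun n => by
    show X.1 n * X.1 n = 0
    rw [hX, ← Unitization.inr_mul, hxx, Unitization.inr_zero]))
  have hY0 : χ Y = 0 := h0 Y (Subtype.ext (BoundedContinuousFunction.ext fun n => by
    show Y.1 n * Y.1 n = 0
    rw [hY, ← Unitization.inr_mul, hyy, Unitization.inr_zero]))
  have h := hχ (star X * X + X * star X + star Y * Y - 1) fun a => by
    refine tendsto_const_nhds.congr fun n => ?_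
    show (0 : Unitization ℂ A)
      = (star (X.1 n) * X.1 n + X.1 n * star (X.1 n) + star (Y.1 n) * Y.1 n - 1) * _
    simp only [hX, hY, ← Unitization.inr_star, ← Unitization.inr_mul, ← Unitization.inr_add,
      hone, sub_mul, one_mul, sub_self]
  rw [map_sub, map_add, map_add, map_mul, map_mul, map_mul, hX0, hY0, map_one] at h
  simp at h

/-- Theorem W applies to simple unital approximately finite-dimensional algebras. -/
theorem hypotheses_of_tower [IsSimpleRing A] (hA : ¬ FiniteDimensional ℂ A) (T : AFTower A) :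
    IsTopSimple A ∧ IsNuclearA A ∧ TopologicalSpace.SeparableSpace A ∧
      ∀ w : Ultrafilter ℕ, (w : Filter ℕ) ≤ cofinite → NoChar A w :=
  ⟨isTopSimple_of_simple, isNuclearA_of_tower T, separableSpace_of_tower T, noChar_of_tower hA T⟩

end Vale.Agent.P095.W
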