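import Vale.Agent.P095.W.Defs
import Vale.Agent.P095.SN.ExciseBasic
import Vale.Agent.P101.Pair

/-!
P095, Theorem W, W6a: one exact norm one square zero element gives a gated one with two nested tops.
-/

namespace Vale.Agent.P095.W

open Vale.Agent.P101 Vale.Agent.P095

universe u

variable {F : Type u} [CStarAlgebra F]

lemma starHom_cfc (φ : F →⋆ₐ[ℂ] F) {a : F} (ha : IsSelfAdjoint a) {f : ℝ → ℝ} (hf : Continuous f) :
    φ (cfc f a) = cfc f (φ a) :=
  StarAlgHomClass.map_cfc (S := ℂ) φ f a (hf := hf.continuousOn)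
    (hφ := AddMonoidHomClass.continuous_of_bound φ 1 fun y =>
      by simpa using NonUnitalStarAlgHom.norm_apply_le φ y)
    (ha := ha) (hφa := IsSelfAdjoint.map ha φ)

lemma fixed_sumSq {φ : F →⋆ₐ[ℂ] F} {x : F} (h : φ x = x) : φ (sumSq x) = sumSq x := by
  simp [sumSq, map_star, h]

lemma fixed_gate {φ : F →⋆ₐ[ℂ] F} {x : F} (h : φ x = x) {f : ℝ → ℝ} (hf : Continuous f) :
    φ (cfc f (sumSq x)) = cfc f (sumSq x) := by
  rw [starHom_cfc φ (sumSq_isSelfAdjoint x) hf, fixed_sumSq h]

lemma fixed_rescale {φ : F →⋆ₐ[ℂ] F} {x : F} (h : φ x = x) {r : ℝ} (hr : 0 < r) :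
    φ (rescale r x) = rescale r x := by
  rw [rescale, map_mul, h, fixed_gate h (scal_continuous hr)]

variable [PartialOrder F] [StarOrderedRing F]

/-- The gated version of a norm one square zero element, with two nested tops. -/
lemma exists_top {x : F} (h0 : x * x = 0) (h1 : ‖x‖ = 1) :
    ∃ x1 p1 T c : F, Gated x1 p1 ∧ p1 * T = T ∧ star x1 * x1 * T = T ∧ T * c = c ∧ SN.IsPos c ∧
      ‖c‖ = 1 ∧ (∀ φ : F →⋆ₐ[ℂ] F, φ x = x → φ x1 = x1 ∧ φ p1 = p1) ∧
      ∀ g : F, Commute x g → Commute (star x) g →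
        Commute x1 g ∧ Commute (star x1) g ∧ Commute p1 g ∧ Commute c g := by
  set t := sumSq x with ht
  have hts : IsSelfAdjoint t := sumSq_isSelfAdjoint x
  have htn : 0 ≤ t := add_nonneg (star_mul_self_nonneg x) (mul_star_self_nonneg x)
  set S := cfc (scal (1 / 4)) t with hS
  set x1 := rescale (1 / 4) x with hx1
  set p1 := cfc (ramp (1 / 4) (1 / 2)) t with hp1
  set gE := cfc (ramp (1 / 2) (5 / 8)) t with hgE
  set gc := cfc (ramp (3 / 4) (7 / 8)) t with hgc
  set A0 := star x * x with hA0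
  set A1 := star x1 * x1 with hA1
  have gp : Gated x1 p1 := rescale_gated h0 (by norm_num) (ramp_continuous _ _) (ramp_mem _ _)
    (fun s hs => ramp_zero (by norm_num) hs)
  have gg : Gated x1 gE := rescale_gated h0 (by norm_num) (ramp_continuous _ _) (ramp_mem _ _)
    (fun s hs => ramp_zero (by norm_num) (by linarith))
  have gq : Gated x1 gc := rescale_gated h0 (by norm_num) (ramp_continuous _ _) (ramp_mem _ _)
    (fun s hs => ramp_zero (by norm_num) (by linarith))
  have below : ∀ {a b a' b' : ℝ}, a < b → a' < b' → b ≤ a' →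
      cfc (ramp a b) t * cfc (ramp a' b') t = cfc (ramp a' b') t := by
    intro a b a' b' hab hab' hb
    rw [← cfc_mul _ _ t (ramp_continuous _ _).continuousOn (ramp_continuous _ _).continuousOn]
    refine cfc_congr fun s _ => ?_
    rcases le_or_gt s a' with h | h
    · simp [ramp_zero hab' h]
    · simp [ramp_one hab (hb.trans h.le)]
  have gcomm : ∀ f : ℝ → ℝ, Commute (cfc f t) A0 := fun f =>
    ((comm_gate h0 f).2).mul_right (comm_gate h0 f).1
  have cc : ∀ f g : ℝ → ℝ, Commute (cfc f t) (cfc g t) := fun f g =>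
    ((Commute.refl t).cfc_real g).symm.cfc_real f
  have hA1eq : A1 = A0 * (S * S) := by
    rw [hA1, hA0, hx1, rescale, ← hS, star_mul, (cfc_predicate (scal (1 / 4)) t :
      IsSelfAdjoint S).star_eq]
    rw [mul_assoc S, ← mul_assoc (star x) x S, ← mul_assoc S (star x * x) S, (gcomm _).eq,
      mul_assoc]
  have hAA : A0 * A0 = A0 * t := by
    simp [hA0, ht, sumSq, mul_add, mul_assoc, h0, ← mul_assoc x x]
  have hsum : sumSq x1 = t * (S * S) := by
    rw [hx1, rescale_sumSq h0 (by norm_num), hS, ← ht]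
    have hc := scal_continuous (r := (1 / 4 : ℝ)) (by norm_num)
    have e2 : cfc (fun s : ℝ => s * (scal (1 / 4) s * scal (1 / 4) s)) t
        = t * (cfc (scal (1 / 4)) t * cfc (scal (1 / 4)) t) := by
      rw [cfc_mul (fun s : ℝ => s) (fun s => scal (1 / 4) s * scal (1 / 4) s) t continuousOn_id
        (hc.mul hc).continuousOn, cfc_mul _ _ _ hc.continuousOn hc.continuousOn, cfc_id' ℝ t hts]
    rw [← e2]
    exact cfc_congr fun s _ => by rw [← scal_sq (by norm_num : (0 : ℝ) < 1 / 4) s, mul_comm s]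
  have cS : Commute A0 (S * S) := ((gcomm _).symm).mul_right (gcomm _).symm
  have hA1A0 : A1 * A0 * gc = A0 * gc := by
    have e : A1 * A0 = A0 * sumSq x1 := by
      rw [hA1eq, mul_assoc, ← cS.eq, ← mul_assoc, hAA, hsum, mul_assoc]
    have ca : Commute (sumSq x1) gc :=
      ((gq.comm_star.mul_right gq.comm).add_right (gq.comm.mul_right gq.comm_star)).symm
    have e2 : sumSq x1 * gc = gc := ca.eq.trans gq.absorb
    rw [e, mul_assoc, e2]
  set T := A1 * gE with hT
  set c0 := A0 * gc with hc0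
  have gA1 : ∀ {p : F}, Gated x1 p → Commute p A1 := fun {p} hp =>
    (Gated.comm_star hp).mul_right hp.comm
  have hpT : p1 * T = T := by
    rw [hT, ← mul_assoc, (gA1 gp).eq, mul_assoc,
      below (by norm_num) (by norm_num) le_rfl]
  have hAT : A1 * T = T := by
    have e : A1 * A1 = A1 * sumSq x1 := by
      simp [hA1, sumSq, mul_add, mul_assoc, gp.sq, ← mul_assoc x1 x1]
    have ca : Commute (sumSq x1) gE :=
      ((gg.comm_star.mul_right gg.comm).add_right (gg.comm.mul_right gg.comm_star)).symm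
    rw [hT, ← mul_assoc, e, mul_assoc, ca.eq]
    exact congrArg (A1 * ·) gg.absorb
  have hTc : T * c0 = c0 := by
    rw [hT, hc0, mul_assoc, ← mul_assoc gE A0, (gcomm _).eq, mul_assoc A0,
      below (by norm_num) (by norm_num) (by norm_num), ← mul_assoc, hA1A0]
  have hA0n : ‖A0‖ = 1 := by rw [hA0, CStarRing.norm_star_mul_self, h1, one_mul]
  have hc0ne : c0 ≠ 0 := by
    intro h
    have hf : Continuous fun s : ℝ => s * (1 - ramp (3 / 4) (7 / 8) s) :=
      continuous_id.mul (continuous_const.sub (ramp_continuous _ _))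
    have e1 : A0 * A0 = A0 * cfc (fun s : ℝ => s * (1 - ramp (3 / 4) (7 / 8) s)) t := by
      rw [hAA, cfc_mul (fun s : ℝ => s) (fun s => 1 - ramp (3 / 4) (7 / 8) s) t (by fun_prop)
          (continuous_const.sub (ramp_continuous _ _)).continuousOn,
        cfc_sub (fun _ => (1 : ℝ)) _ t (by fun_prop) (ramp_continuous _ _).continuousOn,
        cfc_id' ℝ t hts, cfc_const_one ℝ t, mul_sub, mul_one, ← hgc, mul_sub,
        show t * gc = gc * t from ((Commute.refl t).cfc_real _).symm.eq, ← mul_assoc A0 gc t, ← hc0,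
        h, zero_mul, sub_zero]
    have e2 : ‖A0 * A0‖ = 1 := by
      have := CStarRing.norm_star_mul_self (x := A0)
      rwa [show star A0 = A0 by simp [hA0, star_mul], hA0n, one_mul] at this
    rw [e1] at e2
    have e3 : ‖cfc (fun s : ℝ => s * (1 - ramp (3 / 4) (7 / 8) s)) t‖ ≤ 7 / 8 := by
      refine norm_cfc_le (by norm_num) fun s hs => ?_
      have hs0 : 0 ≤ s := spectrum_nonneg_of_nonneg htn hs
      have hm := ramp_mem (3 / 4) (7 / 8) s
      rw [Real.norm_eq_abs, abs_of_nonneg (mul_nonneg hs0 (by linarith))]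
      rcases le_or_gt (7 / 8) s with h' | h'
      · rw [ramp_one (by norm_num) h']; linarith
      · nlinarith
    have e4 := norm_mul_le A0 (cfc (fun s : ℝ => s * (1 - ramp (3 / 4) (7 / 8) s)) t)
    rw [e2, hA0n, one_mul] at e4
    linarith
  have hcpos : SN.IsPos c0 := by
    obtain ⟨k, hk⟩ := SN.isPos_cfc hts (ramp_continuous (3 / 4) (7 / 8))
      (fun s => (ramp_mem _ _ s).1)
    refine ⟨x * cfc (fun s => Real.sqrt (ramp (3 / 4) (7 / 8) s)) t, ?_⟩
    rw [star_mul, (cfc_predicate _ t : IsSelfAdjoint _).star_eq, mul_assoc,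
      ← mul_assoc (star x), ← mul_assoc, (gcomm _).eq, mul_assoc, hc0]
    congr 1
    rw [← cfc_mul _ _ t]
    exact cfc_congr fun s _ => Real.mul_self_sqrt (ramp_mem _ _ s).1
  have hn : 0 < ‖c0‖ := norm_pos_iff.2 hc0ne
  refine ⟨x1, p1, T, ‖c0‖⁻¹ • c0, gp, hpT, hAT, by rw [mul_smul_comm, hTc], ?_, ?_,
    fun φ hφ => ⟨fixed_rescale hφ (by norm_num), fixed_gate hφ (ramp_continuous _ _)⟩,
    fun g a a' => ?_⟩
  · obtain ⟨z, hz⟩ := hcpos
    exact ⟨Real.sqrt ‖c0‖⁻¹ • z, by
      simp [smul_smul, hz, ← mul_inv, Real.mul_self_sqrt hn.le]⟩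
  · rw [norm_smul, norm_inv, norm_norm, inv_mul_cancel₀ hn.ne']
  · have ct : Commute t g := (a'.mul_left a).add_left (a.mul_left a')
    have cf : ∀ f : ℝ → ℝ, Commute (cfc f t) g := fun f => ct.cfc_real f
    refine ⟨a.mul_left (cf _), ?_, cf _, (((a'.mul_left a).mul_left (cf _))).smul_left _⟩
    change Commute (star (x * cfc (scal (1 / 4)) t)) g
    rw [star_mul, (cfc_predicate _ t : IsSelfAdjoint _).star_eq]
    exact (cf _).mul_left a'

end Vale.Agent.P095.W
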