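import Vale.Agent.P095.W.Assemble
import Vale.Agent.P095.W.SolveLeaf

/-!
P095, Theorem W, W6a: the diagonal over the comparison.
-/

namespace Vale.Agent.P095.W

open Filter Vale.Agent.P101 Vale.Agent.P095 Vale.Agent.P095.Rel Vale.Agent.P095.Tracial
open scoped Topology BoundedContinuousFunction

universe u

section General

variable {B : Type u} [CStarAlgebra B] {w : Ultrafilter ℕ} {S : Set B}

noncomputable local instance cseqAlgGen : CStarAlgebra (centralSeq (w : Filter ℕ) B) :=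
  StarSubalgebra.cstarAlgebra _ (h_closed := isClosed_centralSeq w)

lemma annSeq_of_null {f : ℕ →ᵇ B} (hf : Tendsto (fun n => f n) (w : Filter ℕ) (𝓝 0)) :
    AnnSeq S w f := fun s _ =>
  ⟨(tendsto_mul_bdd w hf (C := ‖s‖) (v := fun _ => s) fun _ => le_rfl).1,
    (tendsto_mul_bdd w (by simpa using hf.star) (C := ‖s‖) (v := fun _ => s) fun _ => le_rfl).1⟩

lemma mk_eq_of_null {f g : centralSeq (w : Filter ℕ) B}
    (h : Tendsto (fun n => (f : ℕ →ᵇ B) n - (g : ℕ →ᵇ B) n) (w : Filter ℕ) (𝓝 0)) :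
    Ideal.Quotient.mk (annIdeal S w) f = Ideal.Quotient.mk (annIdeal S w) g := by
  rw [Ideal.Quotient.mk_eq_mk_iff_sub_mem, mem_annIdeal]
  exact annSeq_of_null h

lemma hom_gate {F F' : Type*} [CStarAlgebra F] [CStarAlgebra F'] (φ : F →⋆ₐ[ℂ] F') (f : F)
    {h : ℝ → ℝ} (hh : Continuous h) : φ (cfc h (sumSq f)) = cfc h (sumSq (φ f)) := by
  have e := StarAlgHomClass.map_cfc (S := ℂ) φ h (sumSq f) (hf := hh.continuousOn)
    (hφ := AddMonoidHomClass.continuous_of_bound φ 1 fun y =>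
      by simpa using NonUnitalStarAlgHom.norm_apply_le φ y)
    (ha := sumSq_isSelfAdjoint f) (hφa := IsSelfAdjoint.map (sumSq_isSelfAdjoint f) φ)
  exact e.trans (by simp [sumSq, map_star])

variable [TopologicalSpace.SeparableSpace B]

/-- Smallness at levels tending to infinity annihilates the subset. -/
lemma annSeq_of_levels {f : ℕ →ᵇ B} {k : ℕ → ℕ} (hk : ∀ l, ∀ᶠ n in (w : Filter ℕ), l ≤ k n)
    (h : ∀ᶠ n in (w : Filter ℕ), SmallAt S (f n) (k n) (1 / ((k n : ℝ) + 1))) : AnnSeq S w f := by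
  intro s hs
  have key : ∀ ε > (0 : ℝ), ∀ᶠ n in (w : Filter ℕ), ‖f n * s‖ < ε ∧ ‖star (f n) * s‖ < ε := by
    intro ε hε
    obtain ⟨_, ⟨l, rfl⟩, hl⟩ := Metric.mem_closure_iff.1 ((exists_denseIn S).choose_spec.2 hs)
      (ε / (2 * (‖f‖ + 1))) (by positivity)
    change dist s (relDense S l) < _ at hl
    rw [dist_eq_norm] at hl
    obtain ⟨N, hN⟩ := exists_nat_one_div_lt (half_pos hε)
    filter_upwards [hk l, hk N, h] with n h1 h1' h0
    have h2 : 1 / ((k n : ℝ) + 1) < ε / 2 :=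
      lt_of_le_of_lt (one_div_le_one_div_of_le (by positivity)
        (by have : (N : ℝ) ≤ k n := by exact_mod_cast h1'
            linarith)) hN
    have h4 : ‖f‖ * (ε / (2 * (‖f‖ + 1))) ≤ ε / 2 := by
      rw [mul_div_assoc', div_le_div_iff₀ (by positivity) (by norm_num)]
      nlinarith [norm_nonneg f]
    have bound : ∀ y : B, ‖y‖ ≤ ‖f‖ → ‖y * relDense S l‖ ≤ 1 / ((k n : ℝ) + 1) →
        ‖y * s‖ < ε := by
      intro y hy hyl
      calc ‖y * s‖ = ‖y * relDense S l + y * (s - relDense S l)‖ := by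
            rw [mul_sub, add_sub_cancel]
        _ ≤ 1 / ((k n : ℝ) + 1) + ‖f‖ * (ε / (2 * (‖f‖ + 1))) :=
            (norm_add_le _ _).trans (add_le_add hyl ((norm_mul_le _ _).trans
              (mul_le_mul hy hl.le (norm_nonneg _) (norm_nonneg _))))
        _ < ε := by linarith
    exact ⟨bound _ (f.norm_coe_le_norm n) (h0 ⟨l, by omega⟩).1,
      bound _ ((norm_star _).trans_le (f.norm_coe_le_norm n)) (h0 ⟨l, by omega⟩).2⟩
  constructor <;> rw [Metric.tendsto_nhds] <;> intro ε hε <;>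
    filter_upwards [key ε hε] with n hn <;> rw [dist_zero_right]
  exacts [hn.1, hn.2]

omit [TopologicalSpace.SeparableSpace B] in
lemma tendsto_zero_of_levels {f : ℕ → B} {k : ℕ → ℕ} (hk : ∀ l, ∀ᶠ n in (w : Filter ℕ), l ≤ k n)
    (h : ∀ᶠ n in (w : Filter ℕ), ‖f n‖ ≤ 1 / ((k n : ℝ) + 1)) :
    Tendsto f (w : Filter ℕ) (𝓝 0) := by
  rw [Metric.tendsto_nhds]
  intro ε hε
  obtain ⟨N, hN⟩ := exists_nat_one_div_lt hε
  filter_upwards [hk N, h] with n h1 h0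
  rw [dist_zero_right]
  refine lt_of_le_of_lt (h0.trans (one_div_le_one_div_of_le (by positivity) ?_)) hN
  have : (N : ℝ) ≤ k n := by exact_mod_cast h1
  linarith

lemma mem_centralSeq_of_levels {f : ℕ →ᵇ B} {k : ℕ → ℕ}
    (hk : ∀ l, ∀ᶠ n in (w : Filter ℕ), l ≤ k n)
    (h : ∀ᶠ n in (w : Filter ℕ), ∀ l : Fin (k n + 1),
      ‖f n * TopologicalSpace.denseSeq B l - TopologicalSpace.denseSeq B l * f n‖
        ≤ 1 / ((k n : ℝ) + 1)) :
    f ∈ centralSeq (w : Filter ℕ) B :=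
  mem_centralSeq_of_dense fun l => tendsto_zero_of_levels hk
    (((hk l).and h).mono fun _ hn => hn.2 ⟨l, by omega⟩)

end General

variable {A : Type} [NonUnitalCStarAlgebra A]

noncomputable local instance cseqAlg (w : Ultrafilter ℕ) :
    CStarAlgebra (centralSeq (w : Filter ℕ) (Unitization ℂ A)) :=
  StarSubalgebra.cstarAlgebra _ (h_closed := isClosed_centralSeq w)

/-- Evaluation at an index. -/
noncomputable def evalAt (w : Ultrafilter ℕ) (n : ℕ) : CSeq A w →⋆ₐ[ℂ] Unitization ℂ A where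
  toFun f := (f : ℕ →ᵇ Unitization ℂ A) n
  map_one' := rfl
  map_mul' _ _ := rfl
  map_zero' := rfl
  map_add' _ _ := rfl
  commutes' _ := rfl
  map_star' _ := rfl

lemma gate_apply {w : Ultrafilter ℕ} (f : CSeq A w) {h : ℝ → ℝ} (hh : Continuous h) (n : ℕ) :
    ((cfc h (sumSq f) : CSeq A w) : ℕ →ᵇ Unitization ℂ A) n
      = cfc h (sumSq ((f : ℕ →ᵇ Unitization ℂ A) n)) :=
  hom_gate (evalAt w n) f hh

lemma cls_gate {w : Ultrafilter ℕ} (f : CSeq A w) {h : ℝ → ℝ} (hh : Continuous h) :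
    cls (cfc h (sumSq f)) = cfc h (sumSq (cls f)) :=
  hom_gate (quotHom (annIdeal (inrSet A) w)) f hh

variable [TopologicalSpace.SeparableSpace A] {G : Type} [Group G] (α : G →* (A ≃⋆ₐ[ℂ] A))
  {w : Ultrafilter ℕ}

/-- The candidates at one level and one index. -/
def Cand (e : ℕ → G) (h : ℝ → ℝ) (E P : CSeq A w) (T : Finset (CSeq A w)) (k m : ℕ) : Prop :=
  ∃ (x : Unitization ℂ A) (s s' : A), ‖x‖ ≤ 2 ∧
    SmallAt (inrSet A) (x * x) k (1 / ((k : ℝ) + 1)) ∧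
    (∀ i : Fin (k + 1), SmallAt (inrSet A) (unitAct α (e i) x - x) k (1 / ((k : ℝ) + 1))) ∧
    (∀ l : Fin (k + 1), ‖x * TopologicalSpace.denseSeq (Unitization ℂ A) l
      - TopologicalSpace.denseSeq (Unitization ℂ A) l * x‖ ≤ 1 / ((k : ℝ) + 1)) ∧
    (∀ f ∈ T, ‖x * (f : ℕ →ᵇ Unitization ℂ A) m - (f : ℕ →ᵇ Unitization ℂ A) m * x‖
        ≤ 1 / ((k : ℝ) + 1) ∧
      ‖x * star ((f : ℕ →ᵇ Unitization ℂ A) m) - star ((f : ℕ →ᵇ Unitization ℂ A) m) * x‖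
        ≤ 1 / ((k : ℝ) + 1)) ∧
    ‖(star s' * s : A)‖ ≤ 1 / ((k : ℝ) + 1) ∧ ∀ t ∈ [s, s'], ‖t‖ ≤ 2 ∧
      ‖(E : ℕ →ᵇ Unitization ℂ A) m * (t : Unitization ℂ A) - t‖ ≤ 1 / ((k : ℝ) + 1) ∧
      ‖(P : ℕ →ᵇ Unitization ℂ A) m * (t : Unitization ℂ A) - t‖ ≤ 1 / ((k : ℝ) + 1) ∧
      (∀ l : Fin (k + 1), ‖(t : Unitization ℂ A) * TopologicalSpace.denseSeq (Unitization ℂ A) l
        - TopologicalSpace.denseSeq (Unitization ℂ A) l * t‖ ≤ 1 / ((k : ℝ) + 1)) ∧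
      SmallAt (inrSet A) (star (t : Unitization ℂ A) * t - cfc h (sumSq x)) k (1 / ((k : ℝ) + 1))

theorem eventually_cand (hC : HasCompare A w) (e : ℕ → G) {h : ℝ → ℝ} (hh : Continuous h)
    (h01 : ∀ t, 0 ≤ h t ∧ h t ≤ 1) {E P c : CSeq A w} (hc : SN.IsPos (cls c)) (hc1 : ‖cls c‖ = 1)
    (hEc : cls E * cls c = cls c) (hPc : cls P * cls c = cls c) (T : Finset (CSeq A w))
    (hx : ∀ (K : Finset G) (δ : ℝ), 0 < δ → ∃ x : FA A w, ‖x‖ ≤ 1 ∧ ‖x * x‖ ≤ δ ∧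
      (∀ g ∈ K, ‖actF α w g x - x‖ ≤ δ) ∧
      ∀ τ, IsTraceOn (⊤ : StarSubalgebra ℂ (FA A w)) τ → (τ (cfc h (sumSq x))).re ≤ δ)
    (k : ℕ) : ∀ᶠ m in (w : Filter ℕ), Cand α e h E P T k m := by
  classical
  set r : ℝ := 1 / ((k : ℝ) + 1) with hr_def
  have hr : 0 < r := by positivity
  have ha : ∀ l, ∃ a : A, (a : Unitization ℂ A) = relDense (inrSet A) l := fun l => by
    rcases (exists_denseIn (inrSet A)).choose_spec.1 l with h0 | ⟨a, ha⟩
    · exact ⟨0, by rw [Unitization.inr_zero]; exact h0.symm⟩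
    · exact ⟨a, ha⟩
  choose a ha using ha
  set Sk : Finset A := (Finset.univ.image fun l : Fin (k + 1) => a l) ∪
    Finset.univ.image fun l : Fin (k + 1) =>
      (TopologicalSpace.denseSeq (Unitization ℂ A) l).snd with hSk
  filter_upwards [hC E P c hc hc1 hEc hPc Sk r hr] with m hm
  obtain ⟨δ, hδ, hq⟩ := hm
  set D : ℝ := ∑ l : Fin (k + 1), ‖relDense (inrSet A) l‖ with hD_def
  have hD : 0 ≤ D := Finset.sum_nonneg fun l _ => norm_nonneg _
  set ε : ℝ := min δ (r / (4 * (D + 1))) with hε_def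
  have hε : 0 < ε := lt_min hδ (by positivity)
  have hεr : ∀ l : Fin (k + 1), 2 * ε * ‖relDense (inrSet A) l‖ ≤ r / 2 := fun l => by
    have hl : ‖relDense (inrSet A) l‖ ≤ D + 1 :=
      (Finset.single_le_sum (fun i _ => norm_nonneg (relDense (inrSet A) (i : Fin (k + 1))))
        (Finset.mem_univ l)).trans (by linarith)
    calc 2 * ε * ‖relDense (inrSet A) l‖ ≤ 2 * (r / (4 * (D + 1))) * (D + 1) :=
          mul_le_mul (by linarith [min_le_right δ (r / (4 * (D + 1)))]) hl (norm_nonneg _)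
            (by positivity)
      _ = r / 2 := by field_simp; ring
  obtain ⟨x, hx1, hxx, hxg, hxτ⟩ := hx (Finset.univ.image fun i : Fin (k + 1) => e i) ε hε
  obtain ⟨X, rfl, hX⟩ := Submodule.Quotient.norm_mk_lt x zero_lt_one
  set q : CSeq A w := cfc h (sumSq X) with hq_def
  have hqpos : SN.IsPos (cls q) := by
    rw [hq_def, cls_gate X hh]
    exact SN.isPos_cfc (sumSq_isSelfAdjoint _) hh fun t => (h01 t).1
  have hq1 : ‖q‖ ≤ 1 := norm_cfc_le zero_le_one fun t _ => by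
    rw [Real.norm_eq_abs, abs_of_nonneg (h01 t).1]; exact (h01 t).2
  have hqτ : ∀ τ, IsTraceOn (⊤ : StarSubalgebra ℂ (FA A w)) τ → (τ (cls q)).re ≤ δ := fun τ hτ => by
    rw [hq_def, cls_gate X hh]
    exact (hxτ τ hτ).trans (min_le_left _ _)
  have small : ∀ {u : ℕ → Unitization ℂ A}, Tendsto u (w : Filter ℕ) (𝓝 0) →
      ∀ᶠ n in (w : Filter ℕ), ‖u n‖ ≤ r := by
    intro u hu
    filter_upwards [Metric.tendsto_nhds.1 hu r hr] with n hn
    rw [dist_zero_right] at hn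
    exact hn.le
  have hXn : ∀ n, ‖(X : ℕ →ᵇ Unitization ℂ A) n‖ ≤ 2 := fun n =>
    ((X : ℕ →ᵇ Unitization ℂ A).norm_coe_le_norm n).trans (hX.le.trans
      (by change ‖(Submodule.Quotient.mk X : FA A w)‖ + 1 ≤ 2; linarith))
  have hXX : ‖Ideal.Quotient.mk (annIdeal (inrSet A) w) (X * X)‖ ≤ ε := by
    rw [map_mul]; exact hxx
  have hXg : ∀ i : Fin (k + 1), ‖Ideal.Quotient.mk (annIdeal (inrSet A) w)
      (centralAct (unitAct α) w (e i) X - X)‖ ≤ ε := fun i =>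
    hxg (e i) (Finset.mem_image.2 ⟨i, Finset.mem_univ _, rfl⟩)
  obtain ⟨n, ⟨s, s', hss, hst⟩, h1, h2, h3, h4⟩ := ((hq q hqpos hq1 hqτ).and
    ((eventually_small_class w k hr hε hεr _ hXX).and
    ((eventually_all.2 fun i : Fin (k + 1) => eventually_small_class w k hr hε hεr _ (hXg i)).and
    ((eventually_all.2 fun l : Fin (k + 1) =>
      small (X.2 (TopologicalSpace.denseSeq (Unitization ℂ A) l))).and
    ((Finset.eventually_all T).2 fun f _ =>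
      (small (X.2 ((f : ℕ →ᵇ Unitization ℂ A) m))).and
        (small (X.2 (star ((f : ℕ →ᵇ Unitization ℂ A) m))))))))).exists
  refine ⟨(X : ℕ →ᵇ Unitization ℂ A) n, s, s', hXn n, h1, h2, h3, h4, hss, fun t ht => ?_⟩
  obtain ⟨t1, t2, t3, t4⟩ := hst t ht
  refine ⟨t1, t2, t3, fun l => ?_, fun l => ?_⟩
  · set b := TopologicalSpace.denseSeq (Unitization ℂ A) l
    have e : (t : Unitization ℂ A) * b - b * t = ((t * b.snd - b.snd * t : A) : Unitization ℂ A) := by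
      conv_lhs => rw [← Unitization.inl_fst_add_inr_snd_eq b]
      rw [mul_add, add_mul, show Unitization.inl (R := ℂ) (A := A) b.fst
          = algebraMap ℂ (Unitization ℂ A) b.fst from rfl,
        ← Algebra.commutes b.fst (t : Unitization ℂ A), Unitization.inr_sub, Unitization.inr_mul,
        Unitization.inr_mul]
      abel
    rw [e, Unitization.norm_inr]
    exact (t4 b.snd (Finset.mem_union_right _ (Finset.mem_image.2 ⟨l, Finset.mem_univ _, rfl⟩))).1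
  · have hl := (t4 (a l) (Finset.mem_union_left _
      (Finset.mem_image.2 ⟨l, Finset.mem_univ _, rfl⟩))).2
    rw [ha, Unitization.inr_mul, Unitization.inr_star, ← sub_mul, hq_def, gate_apply X hh] at hl
    refine ⟨hl, ?_⟩
    rw [star_sub, star_mul, star_star,
      (cfc_predicate h _ : IsSelfAdjoint (cfc h (sumSq ((X : ℕ →ᵇ Unitization ℂ A) n)))).star_eq]
    exact hl

omit [TopologicalSpace.SeparableSpace A] in
/-- The choices at all indices. -/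
lemma exists_seqs (hw : (w : Filter ℕ) ≤ cofinite) (e : ℕ → G) {h : ℝ → ℝ} {E P : CSeq A w}
    {T : Finset (CSeq A w)} [TopologicalSpace.SeparableSpace A]
    (hev : ∀ j, ∀ᶠ m in (w : Filter ℕ), Cand α e h E P T j m) :
    ∃ (k : ℕ → ℕ) (x : ℕ → Unitization ℂ A) (s s' : ℕ → A),
      (∀ l, ∀ᶠ m in (w : Filter ℕ), l ≤ k m) ∧
      (∀ m, ‖x m‖ ≤ 2 ∧ ‖s m‖ ≤ 2 ∧ ‖s' m‖ ≤ 2) ∧
      ∀ᶠ m in (w : Filter ℕ),
        SmallAt (inrSet A) (x m * x m) (k m) (1 / ((k m : ℝ) + 1)) ∧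
        (∀ i : Fin (k m + 1),
          SmallAt (inrSet A) (unitAct α (e i) (x m) - x m) (k m) (1 / ((k m : ℝ) + 1))) ∧
        (∀ l : Fin (k m + 1), ‖x m * TopologicalSpace.denseSeq (Unitization ℂ A) l
          - TopologicalSpace.denseSeq (Unitization ℂ A) l * x m‖ ≤ 1 / ((k m : ℝ) + 1)) ∧
        (∀ f ∈ T, ‖x m * (f : ℕ →ᵇ Unitization ℂ A) m - (f : ℕ →ᵇ Unitization ℂ A) m * x m‖
            ≤ 1 / ((k m : ℝ) + 1) ∧
          ‖x m * star ((f : ℕ →ᵇ Unitization ℂ A) m) - star ((f : ℕ →ᵇ Unitization ℂ A) m) * x m‖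
            ≤ 1 / ((k m : ℝ) + 1)) ∧
        ‖(star (s' m) * s m : A)‖ ≤ 1 / ((k m : ℝ) + 1) ∧ ∀ t ∈ [s m, s' m],
          ‖(E : ℕ →ᵇ Unitization ℂ A) m * (t : Unitization ℂ A) - t‖ ≤ 1 / ((k m : ℝ) + 1) ∧
          ‖(P : ℕ →ᵇ Unitization ℂ A) m * (t : Unitization ℂ A) - t‖ ≤ 1 / ((k m : ℝ) + 1) ∧
          (∀ l : Fin (k m + 1),
            ‖(t : Unitization ℂ A) * TopologicalSpace.denseSeq (Unitization ℂ A) l
              - TopologicalSpace.denseSeq (Unitization ℂ A) l * t‖ ≤ 1 / ((k m : ℝ) + 1)) ∧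
          SmallAt (inrSet A) (star (t : Unitization ℂ A) * t - cfc h (sumSq (x m))) (k m)
            (1 / ((k m : ℝ) + 1)) := by
  classical
  set k : ℕ → ℕ := fun m => Nat.findGreatest (fun j => Cand α e h E P T j m) m with hk_def
  have hcand : ∀ᶠ m in (w : Filter ℕ), Cand α e h E P T (k m) m :=
    (hev 0).mono fun m hm =>
      Nat.findGreatest_spec (P := fun j => Cand α e h E P T j m) (Nat.zero_le m) hm
  have hk : ∀ l, ∀ᶠ m in (w : Filter ℕ), l ≤ k m := fun l =>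
    ((hev l).and ((hw.trans_eq Nat.cofinite_eq_atTop) (eventually_ge_atTop l))).mono fun m hm =>
      Nat.le_findGreatest hm.2 hm.1
  have hchoice : ∀ m, ∃ (x : Unitization ℂ A) (s s' : A),
      (‖x‖ ≤ 2 ∧ ‖s‖ ≤ 2 ∧ ‖s'‖ ≤ 2) ∧ (Cand α e h E P T (k m) m →
        SmallAt (inrSet A) (x * x) (k m) (1 / ((k m : ℝ) + 1)) ∧
        (∀ i : Fin (k m + 1),
          SmallAt (inrSet A) (unitAct α (e i) x - x) (k m) (1 / ((k m : ℝ) + 1))) ∧
        (∀ l : Fin (k m + 1), ‖x * TopologicalSpace.denseSeq (Unitization ℂ A) l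
          - TopologicalSpace.denseSeq (Unitization ℂ A) l * x‖ ≤ 1 / ((k m : ℝ) + 1)) ∧
        (∀ f ∈ T, ‖x * (f : ℕ →ᵇ Unitization ℂ A) m - (f : ℕ →ᵇ Unitization ℂ A) m * x‖
            ≤ 1 / ((k m : ℝ) + 1) ∧
          ‖x * star ((f : ℕ →ᵇ Unitization ℂ A) m) - star ((f : ℕ →ᵇ Unitization ℂ A) m) * x‖
            ≤ 1 / ((k m : ℝ) + 1)) ∧
        ‖(star s' * s : A)‖ ≤ 1 / ((k m : ℝ) + 1) ∧ ∀ t ∈ [s, s'],
          ‖(E : ℕ →ᵇ Unitization ℂ A) m * (t : Unitization ℂ A) - t‖ ≤ 1 / ((k m : ℝ) + 1) ∧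
          ‖(P : ℕ →ᵇ Unitization ℂ A) m * (t : Unitization ℂ A) - t‖ ≤ 1 / ((k m : ℝ) + 1) ∧
          (∀ l : Fin (k m + 1),
            ‖(t : Unitization ℂ A) * TopologicalSpace.denseSeq (Unitization ℂ A) l
              - TopologicalSpace.denseSeq (Unitization ℂ A) l * t‖ ≤ 1 / ((k m : ℝ) + 1)) ∧
          SmallAt (inrSet A) (star (t : Unitization ℂ A) * t - cfc h (sumSq x)) (k m)
            (1 / ((k m : ℝ) + 1))) := by
    intro m
    by_cases hm : Cand α e h E P T (k m) m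
    · obtain ⟨x, s, s', a1, a2, a3, a4, a5, a6, a7⟩ := hm
      exact ⟨x, s, s', ⟨a1, (a7 s (List.mem_cons_self ..)).1,
        (a7 s' (List.mem_cons_of_mem _ (List.mem_cons_self ..))).1⟩,
        fun _ => ⟨a2, a3, a4, a5, a6, fun t ht => (a7 t ht).2⟩⟩
    · exact ⟨0, 0, 0, by simp, fun h0 => absurd h0 hm⟩
  choose x s s' hb hprop using hchoice
  exact ⟨k, x, s, s', hk, hb, hcand.mono fun m hm => hprop m hm⟩

lemma cls_fixed {k : ℕ → ℕ} (hk : ∀ l, ∀ᶠ m in (w : Filter ℕ), l ≤ k m) (g : G) (X : CSeq A w)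
    (h : ∀ᶠ m in (w : Filter ℕ), SmallAt (inrSet A)
      (unitAct α g ((X : ℕ →ᵇ Unitization ℂ A) m) - (X : ℕ →ᵇ Unitization ℂ A) m) (k m)
      (1 / ((k m : ℝ) + 1))) : actF α w g (cls X) = cls X := by
  change relAct (unitAct α) (unitAct_mem α) w g (cls X) = cls X
  rw [relAct_mk, Ideal.Quotient.mk_eq_mk_iff_sub_mem, mem_annIdeal]
  exact annSeq_of_levels hk h

lemma cls_commute {k : ℕ → ℕ} (hk : ∀ l, ∀ᶠ m in (w : Filter ℕ), l ≤ k m) (X f : CSeq A w)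
    (h : ∀ᶠ m in (w : Filter ℕ), ‖(X : ℕ →ᵇ Unitization ℂ A) m * (f : ℕ →ᵇ Unitization ℂ A) m
      - (f : ℕ →ᵇ Unitization ℂ A) m * (X : ℕ →ᵇ Unitization ℂ A) m‖ ≤ 1 / ((k m : ℝ) + 1)) :
    Commute (cls X) (cls f) := by
  rw [commute_iff_eq, ← map_mul, ← map_mul]
  exact mk_eq_of_null (tendsto_zero_of_levels hk h)

lemma cls_absorb {k : ℕ → ℕ} (hk : ∀ l, ∀ᶠ m in (w : Filter ℕ), l ≤ k m) (E u : CSeq A w)
    (h : ∀ᶠ m in (w : Filter ℕ), ‖(E : ℕ →ᵇ Unitization ℂ A) m * (u : ℕ →ᵇ Unitization ℂ A) m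
      - (u : ℕ →ᵇ Unitization ℂ A) m‖ ≤ 1 / ((k m : ℝ) + 1)) :
    cls E * cls u = cls u := by
  rw [← map_mul]
  exact mk_eq_of_null (tendsto_zero_of_levels hk h)

lemma cls_square {k : ℕ → ℕ} (hk : ∀ l, ∀ᶠ m in (w : Filter ℕ), l ≤ k m) {h : ℝ → ℝ}
    (hh : Continuous h) (X u : CSeq A w)
    (hu : ∀ᶠ m in (w : Filter ℕ), SmallAt (inrSet A)
      (star ((u : ℕ →ᵇ Unitization ℂ A) m) * (u : ℕ →ᵇ Unitization ℂ A) m
        - cfc h (sumSq ((X : ℕ →ᵇ Unitization ℂ A) m))) (k m) (1 / ((k m : ℝ) + 1))) :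
    star (cls u) * cls u = cfc h (sumSq (cls X)) := by
  rw [star_mk, ← map_mul, ← cls_gate X hh, Ideal.Quotient.mk_eq_mk_iff_sub_mem, mem_annIdeal]
  refine annSeq_of_levels hk (hu.mono fun m hm => ?_)
  rw [← gate_apply X hh] at hm
  exact hm

/-- The diagonal over the comparison. -/
theorem exists_sols [Countable G] (hw : (w : Filter ℕ) ≤ cofinite) (hC : HasCompare A w)
    {h : ℝ → ℝ} (hh : Continuous h) (h01 : ∀ t, 0 ≤ h t ∧ h t ≤ 1) {E P c : CSeq A w}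
    (hc : SN.IsPos (cls c)) (hc1 : ‖cls c‖ = 1) (hEc : cls E * cls c = cls c)
    (hPc : cls P * cls c = cls c) (T : Finset (CSeq A w))
    (hx : ∀ (K : Finset G) (δ : ℝ), 0 < δ → ∃ x : FA A w, ‖x‖ ≤ 1 ∧ ‖x * x‖ ≤ δ ∧
      (∀ g ∈ K, ‖actF α w g x - x‖ ≤ δ) ∧
      ∀ τ, IsTraceOn (⊤ : StarSubalgebra ℂ (FA A w)) τ → (τ (cfc h (sumSq x))).re ≤ δ) :
    ∃ x s s' : FA A w, x * x = 0 ∧ (∀ g, actF α w g x = x) ∧
      (∀ f ∈ T, Commute x (cls f) ∧ Commute x (star (cls f))) ∧ star s' * s = 0 ∧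
      ∀ t ∈ [s, s'], star t * t = cfc h (sumSq x) ∧ cls E * t = t ∧ cls P * t = t := by
  obtain ⟨e, he⟩ := exists_surjective_nat G
  obtain ⟨k, x, s, s', hk, hb, hp⟩ :=
    exists_seqs α hw e (eventually_cand α hC e hh h01 hc hc1 hEc hPc T hx)
  let x₀ : ℕ →ᵇ Unitization ℂ A :=
    BoundedContinuousFunction.ofNormedAddCommGroupDiscrete x 2 fun m => (hb m).1
  let s₀ : ℕ →ᵇ Unitization ℂ A := BoundedContinuousFunction.ofNormedAddCommGroupDiscrete
    (fun m => (s m : Unitization ℂ A)) 2 fun m => (Unitization.norm_inr _).trans_le (hb m).2.1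
  let s₁ : ℕ →ᵇ Unitization ℂ A := BoundedContinuousFunction.ofNormedAddCommGroupDiscrete
    (fun m => (s' m : Unitization ℂ A)) 2 fun m => (Unitization.norm_inr _).trans_le (hb m).2.2
  have m0 : ∀ m, s m ∈ [s m, s' m] := fun m => List.mem_cons_self ..
  have m1 : ∀ m, s' m ∈ [s m, s' m] := fun m => List.mem_cons_of_mem _ (List.mem_cons_self ..)
  let X : CSeq A w := ⟨x₀, mem_centralSeq_of_levels hk (hp.mono fun m hm => hm.2.2.1)⟩
  let S0 : CSeq A w := ⟨s₀, mem_centralSeq_of_levels hk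
    (hp.mono fun m hm => (hm.2.2.2.2.2 (s m) (m0 m)).2.2.1)⟩
  let S1 : CSeq A w := ⟨s₁, mem_centralSeq_of_levels hk
    (hp.mono fun m hm => (hm.2.2.2.2.2 (s' m) (m1 m)).2.2.1)⟩
  refine ⟨cls X, cls S0, cls S1, ?_, fun g => ?_, fun f hf => ?_, ?_, fun t ht => ?_⟩
  · rw [← map_mul, Ideal.Quotient.eq_zero_iff_mem, mem_annIdeal]
    exact annSeq_of_levels hk (hp.mono fun m hm => hm.1)
  · obtain ⟨i, rfl⟩ := he g
    exact cls_fixed α hk (e i) X (((hk i).and hp).mono fun m hm => hm.2.2.1 ⟨i, by omega⟩)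
  · refine ⟨cls_commute hk X f (hp.mono fun m hm => (hm.2.2.2.1 f hf).1), ?_⟩
    rw [star_mk]
    exact cls_commute hk X (star f) (hp.mono fun m hm => (hm.2.2.2.1 f hf).2)
  · rw [star_mk, ← map_mul, ← map_zero (Ideal.Quotient.mk (annIdeal (inrSet A) w))]
    refine mk_eq_of_null (tendsto_zero_of_levels hk (hp.mono fun m hm => ?_))
    refine le_of_eq_of_le ?_ hm.2.2.2.2.1
    rw [← Unitization.norm_inr (𝕜 := ℂ) (star (s' m) * s m)]
    simp [S0, S1, s₀, s₁, Unitization.inr_mul, Unitization.inr_star]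
  · rcases List.mem_pair.1 ht with rfl | rfl
    · exact ⟨cls_square hk hh X S0 (hp.mono fun m hm => (hm.2.2.2.2.2 _ (m0 m)).2.2.2),
        cls_absorb hk E S0 (hp.mono fun m hm => (hm.2.2.2.2.2 _ (m0 m)).1),
        cls_absorb hk P S0 (hp.mono fun m hm => (hm.2.2.2.2.2 _ (m0 m)).2.1)⟩
    · exact ⟨cls_square hk hh X S1 (hp.mono fun m hm => (hm.2.2.2.2.2 _ (m1 m)).2.2.2),
        cls_absorb hk E S1 (hp.mono fun m hm => (hm.2.2.2.2.2 _ (m1 m)).1),
        cls_absorb hk P S1 (hp.mono fun m hm => (hm.2.2.2.2.2 _ (m1 m)).2.1)⟩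

end Vale.Agent.P095.W
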